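import Vale.Agent.P203.Cox

/-! Part CoxA: the Artin group and Matsumoto's theorem. -/

namespace Vale.Agent.P203
open Classical CoxeterSystem

variable {S : Type} (M : CoxeterMatrix S)

theorem wA_nil : wA M [] = 1 := rfl
theorem wA_cons (s : S) (l : List S) : wA M (s :: l) = sg M s * wA M l := by simp [wA]
theorem wA_append (l l' : List S) : wA M (l ++ l') = wA M l * wA M l' := by simp [wA]

theorem braid_A (s t : S) :
    wA M (alternatingWord s t (M s t)) = wA M (alternatingWord t s (M s t)) := by
  have key : ∀ l : List S, wA M l =
      (PresentedGroup.mk (artinRels M) (l.map FreeGroup.of).prod : PresentedGroup (artinRels M)) := by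
    intro l
    induction l with
    | nil => rfl
    | cons a l ih => rw [wA_cons, ih, List.map_cons, List.prod_cons, map_mul]; rfl
  have h := PresentedGroup.one_of_mem (rels := artinRels M) ⟨s, t, rfl⟩
  rw [map_mul, map_inv, mul_inv_eq_one] at h
  rw [key, key]
  exact h

theorem art_lift {G : Type*} [Group G] (f : S → G)
    (h : ∀ s t, ((alternatingWord s t (M s t)).map f).prod =
      ((alternatingWord t s (M s t)).map f).prod) :
    ∃ φ : Art M →* G, ∀ s, φ (sg M s) = f s := by
  have key : ∀ l : List S, FreeGroup.lift f (l.map FreeGroup.of).prod = (l.map f).prod := by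
    intro l
    induction l with
    | nil => simp
    | cons a l ih => rw [List.map_cons, List.prod_cons, map_mul, ih]; simp
  have hr : ∀ r ∈ artinRels M, FreeGroup.lift f r = 1 := by
    rintro r ⟨s, t, rfl⟩
    rw [map_mul, map_inv, key, key, h, mul_inv_cancel]
  exact ⟨PresentedGroup.toGroup hr, fun s => PresentedGroup.toGroup.of hr⟩

theorem CoxA_braid_W (s t : S) : (cs M).wordProd (alternatingWord s t (M s t)) =
    (cs M).wordProd (alternatingWord t s (M s t)) := by
  have h6 := (cs M).wordProd_braidWord_eq s t
  unfold CoxeterSystem.braidWord at h6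
  rwa [M.symmetric t s] at h6

theorem exists_toW : ∃ φ : Art M →* M.Group, ∀ s, φ (sg M s) = M.simple s :=
  art_lift M _ fun s t => CoxA_braid_W M s t

theorem exists_lenA : ∃ φ : Art M →* Multiplicative ℤ, ∀ s, φ (sg M s) = Multiplicative.ofAdd 1 :=
  art_lift M _ fun s t => by simp [List.map_const', length_alternatingWord]

/-- The projection to the Coxeter group. -/
noncomputable def toW : Art M →* M.Group := (exists_toW M).choose

theorem toW_sg (s : S) : toW M (sg M s) = M.simple s := (exists_toW M).choose_spec s

/-- The length homomorphism. -/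
noncomputable def lenA (g : Art M) : ℤ := Multiplicative.toAdd ((exists_lenA M).choose g)

theorem lenA_one : lenA M 1 = 0 := by simp [lenA]
theorem lenA_mul (g h : Art M) : lenA M (g * h) = lenA M g + lenA M h := by simp [lenA]
theorem lenA_inv (g : Art M) : lenA M g⁻¹ = -lenA M g := by simp [lenA]
theorem lenA_sg (s : S) : lenA M (sg M s) = 1 := by
  rw [lenA, (exists_lenA M).choose_spec s]; rfl
theorem lenA_wA (l : List S) : lenA M (wA M l) = l.length := by
  induction l with
  | nil => exact lenA_one M
  | cons a l ih => rw [wA_cons, lenA_mul, ih, lenA_sg, List.length_cons]; push_cast; ring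
theorem toW_wA (l : List S) : toW M (wA M l) = (cs M).wordProd l := by
  induction l with
  | nil => rw [wA_nil, map_one, wordProd_nil]
  | cons a l ih => rw [wA_cons, map_mul, ih, toW_sg, wordProd_cons]; rfl

theorem closure_sg : Subgroup.closure (Set.range (sg M)) = ⊤ :=
  PresentedGroup.closure_range_of (artinRels M)

/-- An element with two right descents ends with the longest word of the dihedral group. -/
theorem CoxA_two_desc {B W : Type*} [Group W] {M : CoxeterMatrix B} (cs : CoxeterSystem M W)
    {w : W} {i j : B} (hij : i ≠ j) (hi : cs.length (w * cs.simple i) < cs.length w)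
    (hj' : cs.length (w * cs.simple j) < cs.length w) :
    M i j ≠ 0 ∧ ∃ v, w = v * cs.wordProd (alternatingWord i j (M i j)) ∧
      cs.length v + M i j = cs.length w := by
  let P : ℕ → Prop := fun k => ∃ v, w = v * cs.wordProd (alternatingWord i j k) ∧
    cs.length v + k = cs.length w
  have hP1 : P 1 := ⟨w * cs.simple j, by simp [alternatingWord], by
    rcases cs.length_mul_simple w j with h1 | h1 <;> omega⟩
  have hn1 : 1 ≤ cs.length w := by omega
  have hk1 : 1 ≤ Nat.findGreatest P (cs.length w) := Nat.le_findGreatest hn1 hP1
  have hPk : P (Nat.findGreatest P (cs.length w)) := Nat.findGreatest_spec hn1 hP1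
  have hmax : ¬ P (Nat.findGreatest P (cs.length w) + 1) := by
    intro hP
    obtain ⟨v, hv1, hv2⟩ := hP
    exact Nat.findGreatest_is_greatest (P := P) (n := cs.length w) (Nat.lt_succ_self _) (by omega)
      ⟨v, hv1, hv2⟩
  generalize Nat.findGreatest P (cs.length w) = k at hk1 hPk hmax
  obtain ⟨v, hv1, hv2⟩ := hPk
  have a1 : cs.length v < cs.length (v * cs.simple (if Even k then j else i)) := by
    rcases cs.length_mul_simple v (if Even k then j else i) with h1 | h1
    · omega
    · exfalso; apply hmax
      refine ⟨v * cs.simple (if Even k then j else i), ?_, by omega⟩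
      rw [alternatingWord_succ', cs.wordProd_cons, ← mul_assoc,
        cs.simple_mul_simple_cancel_right]
      exact hv1
  have a2 : cs.length v < cs.length (v * cs.simple (if Even k then i else j)) := by
    rcases cs.length_mul_simple v (if Even k then i else j) with h1 | h1
    · omega
    · exfalso
      obtain ⟨k, rfl⟩ : ∃ k', k = k' + 1 := ⟨k - 1, by omega⟩
      rw [alternatingWord_succ', cs.wordProd_cons, ← mul_assoc] at hv1
      have e : (if Even k then j else i) = if Even (k + 1) then i else j := by
        by_cases hk : Even k <;> simp [hk, Nat.even_add_one]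
      rw [e] at hv1
      have h2 := cs.length_mul_le (v * cs.simple (if Even (k + 1) then i else j))
        (cs.wordProd (alternatingWord i j k))
      have h3 := cs.length_wordProd_le (alternatingWord i j k)
      rw [length_alternatingWord] at h3
      rw [← hv1] at h2
      omega
  have bi : 0 ≤ P035.act cs v (P035.ee i) := by
    apply P035.act_ee_nonneg
    by_cases hk : Even k
    · simpa [hk] using a2
    · simpa [hk] using a1
  have bj : 0 ≤ P035.act cs v (P035.ee j) := by
    apply P035.act_ee_nonneg
    by_cases hk : Even k
    · simpa [hk] using a1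
    · simpa [hk] using a2
  have hkm : ¬ (M i j ≠ 0 → k + 1 ≤ M i j) := by
    intro hkm
    have c1 := P035.cheb_nonneg (M.off_diagonal i j hij) hkm
    have c0 := P035.cheb_nonneg (n := k) (M.off_diagonal i j hij) fun h => by
      have := hkm h; omega
    refine ((P035.isRoot_ee (cs := cs) i).act w).not_both ?_ (P035.act_ee_nonpos w i hi)
    rw [hv1, P035.act_mul, P035.act_alt]
    split_ifs
    · rw [map_add, map_smul, map_smul]
      exact add_nonneg (smul_nonneg c1 bi) (smul_nonneg c0 bj)
    · rw [map_add, map_smul, map_smul]
      exact add_nonneg (smul_nonneg c0 bi) (smul_nonneg c1 bj)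
  push Not at hkm
  obtain ⟨hM, hlt⟩ := hkm
  refine ⟨hM, v, ?_⟩
  have h5 : k = M i j := by
    by_contra h4
    have h2 := cs.length_mul_le v (cs.wordProd (alternatingWord i j k))
    have h3 := cs.length_wordProd_le (alternatingWord i j k)
    rw [length_alternatingWord] at h3
    rw [← hv1] at h2
    apply cs.not_isReduced_alternatingWord i j hM (show k > M i j by omega)
    unfold CoxeterSystem.IsReduced
    rw [length_alternatingWord]; omega
  rw [← h5]; exact ⟨hv1, hv2⟩

theorem CoxA_red_concat {l : List S} {i : S} (h : (cs M).IsReduced (l ++ [i])) :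
    (cs M).IsReduced l ∧ ln M ((cs M).wordProd (l ++ [i]) * (cs M).simple i) <
      ln M ((cs M).wordProd (l ++ [i])) := by
  have h1 : (cs M).IsReduced l := by simpa using h.take l.length
  refine ⟨h1, ?_⟩
  have h2 := h.eq
  have h3 := h1.eq
  rw [wordProd_append, wordProd_singleton] at h2 ⊢
  rw [simple_mul_simple_cancel_right]
  simp only [ln, List.length_append, List.length_singleton] at *
  omega

theorem CoxA_mats (n : ℕ) : ∀ l l' : List S, l.length = n → (cs M).IsReduced l →
    (cs M).IsReduced l' → (cs M).wordProd l = (cs M).wordProd l' → wA M l = wA M l' := by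
  induction n with
  | zero =>
    intro l l' hn hl hl' e
    have h1 := hl.eq
    have h2 := hl'.eq
    rw [e, h2, hn] at h1
    rw [List.length_eq_zero_iff.1 hn, List.length_eq_zero_iff.1 h1]
  | succ n ih =>
    have same : ∀ (a b : List S) (i : S), a.length = n → (cs M).IsReduced (a ++ [i]) →
        (cs M).IsReduced (b ++ [i]) → (cs M).wordProd (a ++ [i]) = (cs M).wordProd (b ++ [i]) →
        wA M (a ++ [i]) = wA M (b ++ [i]) := by
      intro a b i ha h1 h2 e
      rw [wordProd_append, wordProd_append, mul_left_inj] at e
      rw [wA_append, wA_append, ih a b ha (CoxA_red_concat M h1).1 (CoxA_red_concat M h2).1 e]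
    intro l l' hn hl hl' e
    have h1 := hl.eq
    have h2 := hl'.eq
    rw [e, h2, hn] at h1
    obtain ⟨a, i, rfl⟩ : ∃ a i, l = a ++ [i] :=
      ⟨l.dropLast, l.getLast (by rintro rfl; simp at hn), (List.dropLast_append_getLast _).symm⟩
    obtain ⟨b, j, rfl⟩ : ∃ a i, l' = a ++ [i] :=
      ⟨l'.dropLast, l'.getLast (by rintro rfl; simp at h1), (List.dropLast_append_getLast _).symm⟩
    have ha : a.length = n := by simpa using hn
    have hb : b.length = n := by simpa using h1
    by_cases hij : i = j
    · subst hij; exact same a b i ha hl hl' e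
    have di := (CoxA_red_concat M hl).2
    have dj := (CoxA_red_concat M hl').2
    rw [← e] at dj
    obtain ⟨hM, v, hv1, hv2⟩ := CoxA_two_desc (cs M) hij di dj
    obtain ⟨c, hc, rfl⟩ := (cs M).exists_isReduced v
    have hA := braid_A M i j
    have hW := CoxA_braid_W M i j
    obtain ⟨m, hm⟩ : ∃ m, M i j = m + 1 := ⟨M i j - 1, by omega⟩
    rw [hm] at hA hW hv1 hv2
    rw [alternatingWord_succ, alternatingWord_succ, List.concat_eq_append,
      List.concat_eq_append] at hA hW
    rw [alternatingWord_succ, List.concat_eq_append] at hv1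
    have e1 : (cs M).wordProd (b ++ [j]) = (cs M).wordProd ((c ++ alternatingWord j i m) ++ [j]) := by
      rw [← e, hv1, List.append_assoc, wordProd_append _ c]
    have e2 : (cs M).wordProd (a ++ [i]) = (cs M).wordProd ((c ++ alternatingWord i j m) ++ [i]) := by
      rw [hv1, hW, List.append_assoc, wordProd_append _ c]
    have hc' := hc.eq
    have r1 : (cs M).IsReduced ((c ++ alternatingWord j i m) ++ [j]) := by
      unfold CoxeterSystem.IsReduced
      rw [← e1, ← e, ← hv2, hc']; simp [length_alternatingWord]
    have r2 : (cs M).IsReduced ((c ++ alternatingWord i j m) ++ [i]) := by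
      unfold CoxeterSystem.IsReduced
      rw [← e2, ← hv2, hc']; simp [length_alternatingWord]
    rw [same a _ i ha hl r2 e2, same b _ j hb hl' r1 e1, List.append_assoc, List.append_assoc,
      wA_append M c, wA_append M c, hA]

/-- Matsumoto's theorem. -/
theorem lf_eq {l : List S} (h : (cs M).IsReduced l) : lf M ((cs M).wordProd l) = wA M l := by
  have hs := ((cs M).exists_isReduced ((cs M).wordProd l)).choose_spec
  exact CoxA_mats M _ _ _ rfl hs.1 h hs.2.symm

theorem lf_one : lf M 1 = 1 := by
  have := lf_eq M (l := []) (by simp [CoxeterSystem.IsReduced])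
  rwa [wordProd_nil] at this
theorem lf_simple (s : S) : lf M (M.simple s) = sg M s := by
  have := lf_eq M (l := [s]) (by
    unfold CoxeterSystem.IsReduced; rw [wordProd_singleton, length_simple]; rfl)
  rw [wordProd_singleton, wA_cons, wA_nil, mul_one] at this
  exact this
theorem lf_mul {u v : M.Group} (h : ln M (u * v) = ln M u + ln M v) :
    lf M (u * v) = lf M u * lf M v := by
  obtain ⟨a, ha, rfl⟩ := (cs M).exists_isReduced u
  obtain ⟨b, hb, rfl⟩ := (cs M).exists_isReduced v
  have hab : (cs M).IsReduced (a ++ b) := by
    unfold CoxeterSystem.IsReduced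
    rw [wordProd_append, List.length_append, ← ha.eq, ← hb.eq]; exact h
  rw [← wordProd_append, lf_eq M hab, lf_eq M ha, lf_eq M hb, wA_append]
theorem toW_lf (w : M.Group) : toW M (lf M w) = w := by
  obtain ⟨a, ha, rfl⟩ := (cs M).exists_isReduced w
  rw [lf_eq M ha, toW_wA]
theorem lenA_lf (w : M.Group) : lenA M (lf M w) = ln M w := by
  obtain ⟨a, ha, rfl⟩ := (cs M).exists_isReduced w
  rw [lf_eq M ha, lenA_wA, ln, ha.eq]

end Vale.Agent.P203
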