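import Vale.Agent.P203.Stmt
import Vale.Agent.P203.SC
import Vale.Agent.P035.Roots

/-! The Artin group, lifts of Coxeter group elements, the lifted Salvetti poset, the Artin
complex. -/

namespace Vale.Agent.P203
open Classical

variable {S : Type} (M : CoxeterMatrix S)

/-- The Coxeter system on `M.Group`. -/
abbrev cs : CoxeterSystem M M.Group := M.toCoxeterSystem

/-- Length in `W`. -/
noncomputable abbrev ln (w : M.Group) : ℕ := (cs M).length w

/-- The braid relations. -/
def artinRels : Set (FreeGroup S) :=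
  {r | ∃ s t, r = ((CoxeterSystem.alternatingWord s t (M s t)).map FreeGroup.of).prod *
    (((CoxeterSystem.alternatingWord t s (M s t)).map FreeGroup.of).prod)⁻¹}

/-- The Artin group. -/
def Art : Type := PresentedGroup (artinRels M)

instance : Group (Art M) := inferInstanceAs (Group (PresentedGroup _))

/-- The standard generators. -/
def sg (s : S) : Art M := PresentedGroup.of s

/-- A positive word evaluated in the Artin group. -/
def wA (l : List S) : Art M := (l.map (sg M)).prod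

/-- The canonical positive lift of an element of `W`. -/
noncomputable def lf (w : M.Group) : Art M := wA M ((cs M).exists_isReduced w).choose

/-- Standard parabolic subgroups of the Artin group. -/
def AP (T : Finset S) : Subgroup (Art M) := Subgroup.closure (sg M '' (T : Set S))

/-- The longest element of `W_T` (junk value `1` if there is none). -/
noncomputable def w0 (T : Finset S) : M.Group :=
  if h : ∃ w ∈ WP M T, ∀ v ∈ WP M T, ln M v ≤ ln M w then h.choose else 1

/-- The numbers `2 cos (π / m_st)` (equal to `2` for `m_st = ∞`, and to `-2` for `s = t`). -/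
noncomputable def aa (s t : S) : ℝ := 2 * Real.cos (Real.pi / M s t)

/-- `s` and `t` are joined in the Coxeter diagram. -/
def Ed (s t : S) : Prop := s ≠ t ∧ M s t ≠ 2

/-- The Coxeter diagram on `J` is connected (and nonempty). -/
def Irr (J : Finset S) : Prop :=
  J.Nonempty ∧ ∀ s ∈ J, ∀ t ∈ J, Relation.ReflTransGen (fun a b => b ∈ J ∧ Ed M a b) s t

/-- The vector `∑_{t ∈ J} x t • α_t` of the geometric representation. -/
noncomputable def vec (J : Finset S) (x : S → ℝ) : P035.V S := ∑ t ∈ J, x t • P035.ee t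

/-- The geometric representation. -/
noncomputable abbrev ac (w : M.Group) : Module.End ℝ (P035.V S) := P035.act (cs M) w

/-- Cells of the universal cover of the Salvetti complex. -/
def SalT : Type := {p : Art M × Finset S // Spherical M p.2}

/-- The face order upstairs. -/
def SalTLE (p q : SalT M) : Prop :=
  p.1.2 ⊆ q.1.2 ∧ ∃ w ∈ WP M q.1.2, MinIn M w p.1.2 ∧ p.1.1 = q.1.1 * lf M w

/-- Cosets `g A_T` of standard parabolic subgroups, with their type. -/
def Cs : Type := Σ T : Finset S, Art M ⧸ AP M T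

/-- The coset `g A_T`. -/
def cst (g : Art M) (T : Finset S) : Cs M := ⟨T, QuotientGroup.mk g⟩

/-- Inclusion of cosets. -/
def CsLE (a b : Cs M) : Prop := a.1 ⊆ b.1 ∧ ∃ g, a = cst M g a.1 ∧ b = cst M g b.1

variable [Fintype S] [DecidableEq S]

/-- Vertices of the Artin complex. -/
def Vt : Type := Σ t : S, Art M ⧸ AP M (Finset.univ.erase t)

/-- The vertex of type `t` of the chamber `g`. -/
def vtx (g : Art M) (t : S) : Vt M := ⟨t, QuotientGroup.mk g⟩

/-- The Artin complex of the coset `h A_J`. -/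
def Dl (h : Art M) (J : Finset S) : SC (Vt M) where
  face a := ∃ g, h⁻¹ * g ∈ AP M J ∧ ∀ y ∈ a, y.1 ∈ J ∧ y = vtx M g y.1
  down hab := fun ⟨g, hg, ha⟩ => ⟨g, hg, fun y hy => ha y (hab hy)⟩

/-- The abstract output of the representation theory: `hh g q t` is the weighted dimension of the
`q`-th cohomology of `g⁻¹ • S_∞` at the vertices of type `t`. -/
structure Mass where
  hh : Art M → ℤ → S → ℝ
  DD : ℝ
  DD_pos : 0 < DD
  nonneg : ∀ g q t, 0 ≤ hh g q t
  disc : ∀ R : ℝ, {x | x < R ∧ ∃ g q t, hh g q t = x}.Finite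
  bdd : ∀ g, ∃ q0, ∀ q < q0, ∀ t, hh g q t = 0
  inv : ∀ g s q t, t ≠ s → hh (g * sg M s) q t = hh g q t
  base : ∀ q t, hh 1 q t = 0

namespace Mass
variable {M} (μ : Mass M)

/-- No cohomology below degree `-n` at type `t`. -/
def Low (g : Art M) (n : ℕ) (t : S) : Prop := ∀ q < -(n : ℤ), μ.hh g q t = 0

/-- Dimension in degree `-n`. -/
def bb (g : Art M) (n : ℕ) (t : S) : ℝ := μ.hh g (-(n : ℤ)) t

/-- The outer neighbours of `J` have no cohomology below degree `-n`. -/
def Out (h : Art M) (J : Finset S) (n : ℕ) : Prop :=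
  ∀ t, t ∉ J → (∃ s ∈ J, Ed M s t) → μ.Low h n t

/-- The chambers of `h A_J` all of whose `J`-vertices have no cohomology below degree `-n`. -/
def InI (h : Art M) (J : Finset S) (n : ℕ) (g : Art M) : Prop :=
  h⁻¹ * g ∈ AP M J ∧ ∀ t ∈ J, μ.Low g n t

/-- Admissible thresholds. -/
def Adm (h : Art M) (J : Finset S) (n : ℕ) (c : S → ℝ) : Prop :=
  μ.Out h J n ∧ ∀ s ∈ J, 2 * c s ≤
    (∑ t ∈ Finset.univ.erase s, aa M s t * if t ∈ J then c t else μ.bb h n t) +
      if n = 0 then μ.DD else 0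

/-- Vertices below the threshold. -/
def Neg (h : Art M) (J : Finset S) (n : ℕ) (c : S → ℝ) : Set (Vt M) :=
  {y | ∃ g t, h⁻¹ * g ∈ AP M J ∧ t ∈ J ∧ y = vtx M g t ∧ μ.Low g n t ∧ μ.bb g n t < c t}

/-- Vertices at the threshold. -/
def Zer (h : Art M) (J : Finset S) (n : ℕ) (c : S → ℝ) : Set (Vt M) :=
  {y | ∃ g t, h⁻¹ * g ∈ AP M J ∧ t ∈ J ∧ y = vtx M g t ∧ μ.Low g n t ∧ μ.bb g n t = c t}

/-- Property (C): the negative part is contractible as soon as it is nonempty. -/
def PC (J : Finset S) : Prop := ∀ h n c, μ.Adm h J n c → (μ.Neg h J n c).Nonempty →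
  ((Dl M h J).full (μ.Neg h J n c)).WC

/-- Property (D): a vertex at the threshold has a negative neighbour. -/
def PD (J : Finset S) : Prop := ∀ h n c, μ.Adm h J n c → (μ.Neg h J n c).Nonempty →
  ∀ y ∈ μ.Zer h J n c, ∃ z ∈ μ.Neg h J n c, (Dl M h J).face {y, z}

/-- The homological properties of the mass function. -/
structure Good : Prop where
  first : ∀ s, μ.Low (sg M s) 0 s
  wall : ∀ g s (n : ℕ), μ.Low (g * sg M s) n s → (∀ t, Ed M s t → μ.Low g n t) →
    (∑ t ∈ Finset.univ.erase s, aa M s t * μ.bb g n t) + (if n = 0 then μ.DD else 0) ≤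
      μ.bb g n s + μ.bb (g * sg M s) n s
  down : ∀ g s (n : ℕ), μ.Low (g * sg M s) n s → (∀ t, Ed M s t → μ.Low g n t) → μ.Low g n s
  diamond : ∀ h J n g s t, μ.Out h J n → s ∈ J → t ∈ J → s ≠ t → M s t ≠ 0 → μ.InI h J n g →
    μ.InI h J n (g * sg M s) → μ.InI h J n (g * sg M t) →
    ∀ w ∈ WP M {s, t}, μ.InI h J n (g * lf M w)
  push : ∀ h J n g K, μ.Out h J n → K ⊆ J → Spherical M K → h⁻¹ * g ∈ AP M J →
    (∀ t ∈ J, t ∉ K → μ.Low g n t) → ∃ k ∈ AP M K, μ.InI h J n (g * k)
  dem : ∀ h J n k s (l : List S) t, μ.Out h J n → μ.InI h J n k → s ∈ J → (∀ x ∈ l, x ∈ J) →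
    t ∈ J → μ.bb (k * (wA M (l ++ [s]))⁻¹) n t ≤ μ.bb (k * (wA M (l ++ [s, s]))⁻¹) n t
  anti : ∀ h J n c k s t t' u (lam : ℝ), μ.Adm h J n c → Spherical M J → Irr M J →
    μ.InI h J n k → s ∈ J → t ∈ J → t' ∈ J → Ed M s t' → u ∈ WP M J → 0 < lam →
    (∀ v ∈ WP M J, ∀ x ∈ J, c x ≤ μ.bb (k * (lf M v)⁻¹) n x) →
    (∀ x ∈ J, ac M u (P035.ee x) (some t) = lam * P035.form M (P035.ee s) (P035.ee x)) →
    μ.bb (k * (lf M u)⁻¹) n t = c t → μ.bb (k * (lf M (u * M.simple s))⁻¹) n t = c t →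
    μ.bb k n t' = c t'

end Mass

/-- An apartment function: values `γ u t` on the vertices of the Coxeter complex of `J`, convex
across every wall. -/
structure Apt (J : Finset S) (γ : M.Group → S → ℝ) : Prop where
  eq : ∀ u ∈ WP M J, ∀ s ∈ J, ∀ t ∈ J, t ≠ s → γ (M.simple s * u) t = γ u t
  wall : ∀ u ∈ WP M J, ∀ s ∈ J, ∑ t ∈ J.erase s, aa M s t * γ u t ≤ γ u s + γ (M.simple s * u) s

/-- Edge paths in the Coxeter complex of `J` through vertices whose value satisfies `P`. -/
def AptConn (J : Finset S) (γ : M.Group → S → ℝ) (P : ℝ → Prop) :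
    M.Group × S → M.Group × S → Prop :=
  Relation.ReflTransGen fun a b => b.1 ∈ WP M J ∧ b.2 ∈ J ∧ P (γ b.1 b.2) ∧
    (b.1 = a.1 ∨ (b.2 = a.2 ∧ ∃ s ∈ J, s ≠ a.2 ∧ b.1 = M.simple s * a.1))

end Vale.Agent.P203
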