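import Vale.Agent.P203.Cx
import Vale.Agent.P203.Cox

/-! The simply laced unfolding of a Coxeter matrix. -/

namespace Vale.Agent.P203
open Classical

variable {S : Type} [Fintype S] [DecidableEq S] (M : CoxeterMatrix S)

/-- Number of vertices of the auxiliary graph with Perron-Frobenius eigenvalue `2 cos (π / m)`. -/
def nv (m : ℕ) : ℕ := if m = 0 then 3 else if m = 1 then 1 else m - 1

/-- The auxiliary graph: a triangle for `m = ∞`, the path `A_{m-1}` otherwise. -/
def padj (m : ℕ) (i j : Fin (nv m)) : Prop :=
  if m = 0 then i ≠ j else (i.1 + 1 = j.1 ∨ j.1 + 1 = i.1)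

/-- Its Perron-Frobenius eigenvector. -/
noncomputable def pw (m : ℕ) (i : Fin (nv m)) : ℝ :=
  if m ≤ 1 then 1 else Real.sin ((i.1 + 1 : ℕ) * Real.pi / m)

/-- The label of an unordered pair. -/
def mm (e : Sym2 S) : ℕ := Sym2.lift ⟨fun s t => M s t, fun s t => M.symmetric s t⟩ e

/-- The fibre of the unfolding. -/
abbrev Fb : Type := ∀ e : Sym2 S, Fin (nv (mm M e))

/-- Adjacency in the unfolded graph. -/
def uadj : Option (S × Fb M) → Option (S × Fb M) → Prop
  | none, none => False
  | none, some _ => True
  | some _, none => True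
  | some x, some y => x.1 ≠ y.1 ∧ padj _ (x.2 s(x.1, y.1)) (y.2 s(x.1, y.1)) ∧
      ∀ e, e ≠ s(x.1, y.1) → x.2 e = y.2 e

theorem padj_symm {m : ℕ} {i j : Fin (nv m)} (h : padj m i j) : padj m j i := by
  unfold padj at *
  split_ifs at * with hm
  · exact h.symm
  · exact h.symm

/-- The unfolded framed graph. -/
noncomputable def UG : Gr where
  V := Option (S × Fb M)
  fin := inferInstance
  adj := uadj M
  symm := by
    rintro (_ | x) (_ | y) h
    · exact h
    · trivial
    · trivial
    · obtain ⟨h1, h2, h3⟩ := h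
      have e : s(y.1, x.1) = s(x.1, y.1) := Sym2.eq_swap
      refine ⟨h1.symm, ?_, fun f hf => (h3 f (e ▸ hf)).symm⟩
      rw [e]; exact padj_symm h2
  irrefl := by
    rintro (_ | x) h
    · exact h
    · exact h.1 rfl
  o := none
  adj_o := by
    rintro (_ | x) h
    · exact h rfl
    · trivial

/-- The fibre over a generator. -/
def fib (s : S) : Ind (UG M) where
  F := {v | ∃ b, v = some (s, b)}
  ind := by rintro _ ⟨b, rfl⟩ _ ⟨b', rfl⟩ h; exact h.1 rfl
  no := by rintro ⟨b, h⟩; cases h

/-- The weights. -/
noncomputable def wt (b : Fb M) : ℝ := ∏ e, pw _ (b e)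

/-- Weighted sum over the fibre of `t`. -/
noncomputable def wsum (x : (UG M).V → ℕ) (t : S) : ℝ := ∑ b, wt M b * x (some (t, b))

/-- Weighted dimension of a representation at type `t`. -/
noncomputable def wd (N : Rp (UG M)) (t : S) : ℝ := wsum M N.dm t

/-- Weighted dimension of the cohomology of a class. -/
noncomputable def mass (ξ : Cl (UG M)) (q : ℤ) (t : S) : ℝ := wsum M (hd ξ q) t

/-- Kernel reflection functors along a word (the last letter acts first). -/
noncomputable def sigW (l : List S) (N : Rp (UG M)) : Rp (UG M) :=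
  l.foldr (fun s X => Rp.sig (fib M s) X) N

/-- The action of the Artin group on classes (junk value if it does not exist). -/
noncomputable def act : Art M →* Equiv.Perm (Cl (UG M)) :=
  if h : ∃ φ : Art M →* Equiv.Perm (Cl (UG M)), ∀ s, φ (sg M s) = TT (fib M s) then h.choose
  else 1

/-- The base class. -/
noncomputable def base : Cl (UG M) := (Cx.ofRp (simpleO (UG M)) 0).cl

end Vale.Agent.P203
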