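import Vale.Agent.P203.TTr
import Vale.Agent.P203.BW
import Vale.Agent.P203.Unf
import Vale.Agent.P203.CoxA

/-! Part Act: the Artin group acts on classes of complexes. -/

namespace Vale.Agent.P203
open Classical CoxeterSystem

variable {S : Type} [Fintype S] [DecidableEq S] (M : CoxeterMatrix S)

namespace ActP

theorem TT_congr {G : Gr} {F F' : Ind G} (h : F.F = F'.F) : TT F = TT F' := by
  cases F; cases F'; cases h; rfl

/-- Part of a fibre cut out by one coordinate. -/
def L (e : Sym2 S) (x : S) (P : ℕ → Prop) : Ind (UG M) where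
  F := {v | ∃ b, v = some (x, b) ∧ P (b e).1}
  ind := by rintro _ ⟨b, rfl, -⟩ _ ⟨b', rfl, -⟩ h; exact h.1 rfl
  no := by rintro ⟨b, h, -⟩; cases h

variable {M} {e : Sym2 S} {x y : S}

theorem L_prod (l : List ℕ) (hl : l.Nodup) (g : ℕ → Equiv.Perm (Cl (UG M)))
    (hg : ∀ i ∈ l, g i = TT (L M e x (· = i))) : (l.map g).prod = TT (L M e x (· ∈ l)) := by
  induction l with
  | nil => exact (TT_empty (Set.eq_empty_of_forall_notMem fun v hv => by
      obtain ⟨b, -, h⟩ := hv; simp at h)).symm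
  | cons i l ih =>
    rw [List.nodup_cons] at hl
    rw [List.map_cons, List.prod_cons, ih hl.2 fun j hj => hg j (List.mem_cons_of_mem _ hj),
      hg i List.mem_cons_self]
    refine TT_union (Set.ext fun v => ?_) (Set.disjoint_left.2 ?_)
    · simp only [L, List.mem_cons, Set.mem_union, Set.mem_ofPred_eq, and_or_left, exists_or]
    · rintro _ ⟨b, rfl, h⟩ ⟨b', h1, h2⟩
      cases h1
      exact hl.1 (h ▸ h2)

theorem adj_L (hxy : x ≠ y → s(x, y) = e) (hm : mm M e ≠ 0) {b b' : Fb M}
    (h : (UG M).adj (some (x, b)) (some (y, b'))) :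
    (b e).1 + 1 = (b' e).1 ∨ (b' e).1 + 1 = (b e).1 := by
  obtain rfl := hxy h.1
  have := h.2.1
  rwa [padj, if_neg hm] at this

theorem L_comm (hxy : x ≠ y → s(x, y) = e) (hm : mm M e ≠ 0) {P Q : ℕ → Prop}
    (h1 : x = y → ∀ i, P i → ¬ Q i) (h2 : x ≠ y → ∀ i j, P i → Q j → i + 1 ≠ j ∧ j + 1 ≠ i) :
    TT (L M e x P) * TT (L M e y Q) = TT (L M e y Q) * TT (L M e x P) := by
  refine TT_comm (Set.disjoint_left.2 ?_) ?_
  · rintro _ ⟨b, rfl, h⟩ ⟨b', h3, h4⟩
    cases h3
    exact h1 rfl _ h h4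
  · rintro _ ⟨b, rfl, h⟩ _ ⟨b', rfl, h'⟩ ha
    have := h2 ha.1 _ _ h h'
    have := adj_L hxy hm ha
    omega

theorem L_match (hxy : x ≠ y) (he : s(x, y) = e) (hm : mm M e ≠ 0) {i j : ℕ}
    (hj : j < nv (mm M e)) (hij : i + 1 = j ∨ j + 1 = i) :
    ∀ v ∈ (L M e x (· = i)).F, ∃! w, w ∈ (L M e y (· = j)).F ∧ (UG M).adj v w := by
  subst he
  rintro _ ⟨b, rfl, hb⟩
  refine ⟨some (y, Function.update b _ ⟨j, hj⟩), ⟨⟨_, rfl, by simp⟩, hxy, ?_,
    fun f hf => (Function.update_of_ne hf _ _).symm⟩, ?_⟩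
  · rw [padj, if_neg hm]
    simpa [hb] using hij
  · rintro _ ⟨⟨b', rfl, hb'⟩, -, -, h⟩
    refine congrArg (fun c => some (y, c)) (funext fun f => ?_)
    by_cases hf : f = s(x, y)
    · subst hf; rw [Function.update_self]; exact Fin.ext hb'
    · rw [Function.update_of_ne hf]; exact (h f hf).symm

theorem L_braid (hxy : x ≠ y) (he : s(x, y) = e) (hm : mm M e ≠ 0) {i : ℕ}
    (hi : i + 1 < nv (mm M e)) :
    TT (L M e x (· = i)) * TT (L M e y (· = i + 1)) * TT (L M e x (· = i)) =
      TT (L M e y (· = i + 1)) * TT (L M e x (· = i)) * TT (L M e y (· = i + 1)) := by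
  refine TT_braid (L_match hxy he hm hi (Or.inl rfl)) fun w hw => ?_
  obtain ⟨v, h1, h2⟩ := L_match hxy.symm (Sym2.eq_swap.trans he) hm (by omega : i < _)
    (Or.inr rfl) w hw
  exact ⟨v, ⟨h1.1, (UG M).symm h1.2⟩, fun u hu => h2 u ⟨hu.1, (UG M).symm hu.2⟩⟩

theorem half {s t : S} (hst : s ≠ t) (he : s(s, t) = e) (hm : mm M e ≠ 0)
    (f : S → Equiv.Perm (Cl (UG M))) (hs : f s = TT (L M e s (· % 2 = 0)))
    (ht : f t = TT (L M e t (· % 2 = 1))) :
    ((alternatingWord s t (nv (mm M e) + 1)).map f).prod =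
      ((alternatingWord t s (nv (mm M e) + 1)).map f).prod := by
  have he' : s(t, s) = e := Sym2.eq_swap.trans he
  have key : ∀ (x : S) (r : ℕ), (∀ i, i % 2 = r → (if i % 2 = 0 then s else t) = x) →
      TT (L M e x (· % 2 = r)) = (((List.range (nv (mm M e))).filter fun i => i % 2 = r).map
        fun i => TT (L M e (if i % 2 = 0 then s else t) (· = i))).prod := fun x r h => by
    rw [L_prod (e := e) (x := x) _ (List.nodup_range.filter _) _ fun i hi => by
      rw [h i (by simpa using (List.mem_filter.1 hi).2)]]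
    refine TT_congr (Set.ext fun v => exists_congr fun b => and_congr_right fun _ => ?_)
    simp
  refine brick _ (fun i => TT (L M e (if i % 2 = 0 then s else t) (· = i))) (fun i hi => ?_)
    (fun i j hij _ => ?_) s t f (hs.trans (key s 0 fun i h => if_pos h))
    (ht.trans (key t 1 fun i h => if_neg (by omega)))
  · by_cases h : i % 2 = 0
    · simp only [h, if_true, show ¬ (i + 1) % 2 = 0 by omega, if_false]
      exact L_braid hst he hm hi
    · simp only [h, if_true, show (i + 1) % 2 = 0 by omega, if_false]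
      exact L_braid hst.symm he' hm hi
  · refine L_comm ?_ hm (fun _ _ _ _ => by omega) fun _ _ _ _ _ => by omega
    split_ifs <;> simp [he, he']

theorem fib_eq (x : S) {r r' : ℕ} (h : ∀ i, i % 2 = r' ↔ ¬ i % 2 = r) :
    TT (fib M x) = TT (L M e x (· % 2 = r)) * TT (L M e x (· % 2 = r')) := by
  refine (TT_union (Set.ext fun v => ?_) (Set.disjoint_left.2 ?_)).symm
  · simp only [L, fib, Set.mem_union, Set.mem_ofPred_eq, h, ← exists_or, ← and_or_left,
      Classical.em, and_true]
  · rintro _ ⟨b, rfl, h1⟩ ⟨b', h3, h4⟩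
    cases h3
    exact (h _).1 h4 h1

theorem rels (s t : S) : ((alternatingWord s t (M s t)).map fun x => TT (fib M x)).prod =
    ((alternatingWord t s (M s t)).map fun x => TT (fib M x)).prod := by
  by_cases hst : s = t
  · rw [hst]
  by_cases hm : M s t = 0
  · rw [hm]; rfl
  have h1 := M.off_diagonal s t hst
  have hk : M s t = nv (mm M s(s, t)) + 1 := by
    change _ = nv (M s t) + 1
    rw [nv, if_neg hm, if_neg h1]; omega
  have hts : ¬ t = s := fun h => hst h.symm
  let f1 := fun x => TT (L M s(s, t) x (· % 2 = if x = s then 0 else 1))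
  let f2 := fun x => TT (L M s(s, t) x (· % 2 = if x = s then 1 else 0))
  have a1 : TT (fib M s) = f1 s * f2 s := fib_eq s fun i => by simp
  have a2 : TT (fib M t) = f1 t * f2 t := fib_eq t fun i => by simp [hts]
  have a3 : ∀ x y, (x = s ∨ x = t) → (y = s ∨ y = t) → f1 x * f2 y = f2 y * f1 x := by
    intro x y hx hy
    refine L_comm (e := s(s, t)) ?_ hm ?_ ?_
    · rcases hx with rfl | rfl <;> rcases hy with rfl | rfl <;> simp
    · rintro rfl i; split_ifs <;> omega
    · rcases hx with rfl | rfl <;> rcases hy with rfl | rfl <;> simp [hts] <;> omega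
  rw [alt_mul s t _ f1 f2 a1 a2 a3, alt_mul t s _ f1 f2 a2 a1 fun x y hx hy => a3 x y hx.symm hy.symm,
    hk, half hst rfl hm f1 (by simp [f1]) (by simp [f1, hts]),
    half hts Sym2.eq_swap hm f2 (by simp [f2, hts]) (by simp [f2])]

end ActP

theorem act_sg (s : S) : act M (sg M s) = TT (fib M s) := by
  have h := art_lift M (fun x => TT (fib M x)) ActP.rels
  rw [act, dif_pos h]
  exact h.choose_spec s

end Vale.Agent.P203
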