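import Vale.Agent.P203.CoxC

/-! Part Apt: convex functions on an apartment. -/

namespace Vale.Agent.P203
open Classical CoxeterSystem

variable {S : Type} [Fintype S] [DecidableEq S] {M : CoxeterMatrix S} {J : Finset S}
  {γ : M.Group → S → ℝ}

theorem Apt.kink (h : Apt M J γ) {u : M.Group} (hu : u ∈ WP M J) {s : S} (hs : s ∈ J) :
    vec J (γ (M.simple s * u)) = ac M (M.simple s) (vec J (γ u)) +
      (γ u s + γ (M.simple s * u) s - ∑ t ∈ J.erase s, aa M s t * γ u t) • P035.ee s := by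
  have e : ac M (M.simple s) = P035.refl M (P035.ee s) := P035.act_simple (cs M) s
  rw [e, P035.refl_apply, form_vec M J _ hs]
  ext a
  rcases a with _ | t
  · simp [vec, P035.ee, Finsupp.finsetSum_apply]
  · simp only [Finsupp.add_apply, Finsupp.sub_apply, Finsupp.smul_apply, vec_apply, smul_eq_mul]
    by_cases hts : t = s
    · subst hts
      simp only [if_pos hs, P035.ee, Finsupp.single_eq_same]; ring
    · have : P035.ee s (some t) = 0 := by simp [P035.ee, Ne.symm hts]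
      rw [this]
      split_ifs with ht
      · rw [h.eq u hu s hs t ht hts]; ring
      · ring

theorem Apt.max (h : Apt M J γ) {u v : M.Group} (hu : u ∈ WP M J) (hv : v ∈ WP M J) {t : S}
    (ht : t ∈ J) : ac M (v * u⁻¹) (vec J (γ u)) (some t) ≤ γ v t := by
  obtain ⟨l, hl, e⟩ := (cs M).exists_isReduced (v * u⁻¹)
  have hm := reduced_mem M hl (e ▸ mul_mem hv (inv_mem hu))
  have h1 := word_lb M (fun l' => vec J (γ ((cs M).wordProd l' * u))) l hl fun s l' hs => by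
    have hs' : s ∈ J := hm s (hs.subset (by simp))
    have h2 : (cs M).wordProd l' * u ∈ WP M J :=
      mul_mem (wordProd_mem M fun x hx => hm x (hs.subset (by simp [hx]))) hu
    refine ⟨_, sub_nonneg.2 (h.wall _ h2 s hs'), ?_⟩
    rw [wordProd_cons, mul_assoc]
    exact h.kink h2 hs'
  have h2 := h1 (some t)
  rw [← e, wordProd_nil, one_mul, inv_mul_cancel_right, vec_apply, if_pos ht] at h2
  exact h2

theorem Apt_lin (q : P035.V S →ₗ[ℝ] ℝ) (x : S → ℝ) :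
    q (vec J x) = ∑ y ∈ J, x y * q (P035.ee y) := by
  rw [vec, map_sum]
  exact Finset.sum_congr rfl fun y _ => by rw [map_smul, smul_eq_mul]

theorem Apt_ee_vec {y : S} (hy : y ∈ J) : P035.ee y = vec J fun t => if t = y then 1 else 0 := by
  simp [vec, hy]

theorem Apt_simple (s : S) (z : P035.V S) :
    ac M (M.simple s) z = z - P035.form M (P035.ee s) z • P035.ee s := by
  have e : ac M (M.simple s) = P035.refl M (P035.ee s) := P035.act_simple (cs M) s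
  rw [e, P035.refl_apply]

theorem Apt_cover (hJ : Spherical M J) (p : P035.V S →ₗ[ℝ] ℝ) :
    ∃ x ∈ WP M J, ∀ y ∈ J, 0 ≤ p (ac M x⁻¹ (P035.ee y)) := by
  have : Finite (WP M J) := hJ
  obtain ⟨ν, -, hν⟩ := exists_nu' M hJ
  obtain ⟨x, hx⟩ := Finite.exists_max fun x : WP M J => p (ac M x.1⁻¹ (vec J ν))
  refine ⟨x.1, x.2, fun y hy => ?_⟩
  have h1 := hx ⟨M.simple y * x.1, mul_mem (CoxB_simple_mem M hy) x.2⟩
  simp only at h1
  rw [mul_inv_rev, CoxB_inv_simple, P035.act_mul, Apt_simple, map_sub, map_smul, map_sub, map_smul,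
    form_vec M J ν hy, smul_eq_mul] at h1
  have h2 := hν y hy
  by_contra h3
  push Not at h3
  nlinarith

theorem Apt_fix (q : P035.V S →ₗ[ℝ] ℝ) {w : M.Group}
    (hw : w ∈ WP M (J.filter fun y => q (P035.ee y) = 0)) (z : P035.V S) : q (ac M w z) = q z := by
  refine CoxB_ind M (P := fun w => q (ac M w z) = q z) ?_ ?_ hw
  · rw [P035.act_one]
  · intro s hs w _ ih
    rw [P035.act_mul, P035.act_simple, P035.refl_apply, map_sub, map_smul,
      (Finset.mem_filter.1 hs).2, smul_zero, sub_zero, ih]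

theorem Apt_stab (q : P035.V S →ₗ[ℝ] ℝ) (h0 : ∀ y ∈ J, 0 ≤ q (P035.ee y)) {w : M.Group}
    (hw : w ∈ WP M J) (h1 : ∀ y ∈ J, 0 ≤ q (ac M w (P035.ee y))) :
    w ∈ WP M (J.filter fun y => q (P035.ee y) = 0) := by
  induction hn : ln M w using Nat.strong_induction_on generalizing w with
  | _ n ih =>
  by_cases e : w = 1
  · rw [e]; exact one_mem _
  obtain ⟨s, hs⟩ := (cs M).exists_rightDescent_of_ne_one e
  have hs' : ln M (w * M.simple s) < ln M w := hs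
  have hsJ := desc_right_mem M hw hs'
  have h2 : q (ac M w (P035.ee s)) = 0 := by
    refine le_antisymm ?_ (h1 s hsJ)
    have h3 := P035.act_ee_nonpos (cs := cs M) w s hs
    rw [Apt_ee_vec hsJ, ac_vec M hw, ← Apt_ee_vec hsJ, Apt_lin]
    exact Finset.sum_nonpos fun y hy => mul_nonpos_of_nonpos_of_nonneg (h3 (some y)) (h0 y hy)
  have h3 : ∀ z, q (ac M (w * M.simple s) z) = q (ac M w z) := fun z => by
    rw [P035.act_mul, Apt_simple, map_sub, map_smul, map_sub, map_smul, h2, smul_zero, sub_zero]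
  have h4 := ih _ (hn ▸ hs') (w := w * M.simple s) (mul_mem hw (CoxB_simple_mem M hsJ))
    (fun y hy => by rw [h3]; exact h1 y hy) rfl
  have h5 : q (P035.ee s) = 0 := by rw [← Apt_fix q h4, h3, h2]
  have h6 := mul_mem h4 (CoxB_simple_mem M (Finset.mem_filter.2 ⟨hsJ, h5⟩))
  have e1 : w * M.simple s * (cs M).simple s = w := (cs M).simple_mul_simple_cancel_right s
  rwa [e1] at h6

theorem Apt_stab' (p : P035.V S →ₗ[ℝ] ℝ) {x x' : M.Group} (hx : x ∈ WP M J) (hx' : x' ∈ WP M J)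
    (h0 : ∀ y ∈ J, 0 ≤ p (ac M x⁻¹ (P035.ee y))) (h1 : ∀ y ∈ J, 0 ≤ p (ac M x'⁻¹ (P035.ee y)))
    {y : S} (hy : p (ac M x⁻¹ (P035.ee y)) ≠ 0) : x' * x⁻¹ ∈ WP M (J.erase y) := by
  have h2 := Apt_stab (p ∘ₗ ac M x⁻¹) h0 (mul_mem hx (inv_mem hx')) fun z hz => by
    rw [LinearMap.comp_apply, ← P035.act_mul, inv_mul_cancel_left]; exact h1 z hz
  have h3 := inv_mem h2
  rw [mul_inv_rev, inv_inv] at h3
  refine WP_mono M (fun z hz => ?_) h3
  rw [Finset.mem_filter] at hz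
  exact Finset.mem_erase.2 ⟨by rintro rfl; exact hy hz.2, hz.1⟩

theorem Apt_move (h : Apt M J γ) {P : ℝ → Prop} {x w : M.Group} (hx : x ∈ WP M J) {y : S}
    (hy : y ∈ J) (hP : P (γ x y)) (hw : w ∈ WP M (J.erase y)) :
    P (γ (w * x) y) ∧ AptConn M J γ P (x, y) (w * x, y) := by
  refine CoxB_ind M (P := fun w => P (γ (w * x) y) ∧ AptConn M J γ P (x, y) (w * x, y)) ?_ ?_ hw
  · rw [one_mul]; exact ⟨hP, Relation.ReflTransGen.refl⟩
  · intro s hs w hw ih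
    rw [Finset.mem_erase] at hs
    have h1 : w * x ∈ WP M J := mul_mem (WP_mono M (Finset.erase_subset _ _) hw) hx
    have h2 : P (γ ((cs M).simple s * w * x) y) := by
      rw [mul_assoc]
      have := h.eq _ h1 s hs.2 y hy hs.1.symm
      change γ ((cs M).simple s * _) y = _ at this
      rw [this]; exact ih.1
    refine ⟨h2, ih.2.tail ⟨?_, hy, h2, Or.inr ⟨rfl, s, hs.2, hs.1, mul_assoc _ _ _⟩⟩⟩
    rw [mul_assoc]; exact mul_mem (CoxB_simple_mem M hs.2) h1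

/-- The segment between two vertices of the apartment. -/
noncomputable def Apt_p (u v : M.Group) (t t' : S) (θ : ℝ) : P035.V S →ₗ[ℝ] ℝ :=
  (1 - θ) • (Finsupp.lapply (some t) ∘ₗ ac M u) + θ • (Finsupp.lapply (some t') ∘ₗ ac M v)

theorem Apt_p_apply (u v : M.Group) (t t' : S) (θ : ℝ) (z : P035.V S) :
    Apt_p u v t t' θ z = (1 - θ) * ac M u z (some t) + θ * ac M v z (some t') := by
  simp [Apt_p]

theorem Apt_closed (u v : M.Group) (t t' : S) (hJ : Spherical M J) (T : M.Group → Prop) :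
    IsClosed {θ : ℝ | ∃ x ∈ WP M J, T x ∧ ∀ y ∈ J, 0 ≤ Apt_p u v t t' θ (ac M x⁻¹ (P035.ee y))} := by
  have : Finite (WP M J) := hJ
  have e : {θ : ℝ | ∃ x ∈ WP M J, T x ∧ ∀ y ∈ J, 0 ≤ Apt_p u v t t' θ (ac M x⁻¹ (P035.ee y))} =
      ⋃ x : WP M J, ⋃ _ : T x.1, ⋂ y ∈ J, {θ | 0 ≤ Apt_p u v t t' θ (ac M x.1⁻¹ (P035.ee y))} := by
    ext θ; simp only [Set.mem_setOf_eq, Set.mem_iUnion, Set.mem_iInter]
    exact ⟨fun ⟨x, a, b, c⟩ => ⟨⟨x, a⟩, b, c⟩, fun ⟨x, b, c⟩ => ⟨x.1, x.2, b, c⟩⟩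
  rw [e]
  refine isClosed_iUnion_of_finite fun x => isClosed_iUnion_of_finite fun _ =>
    isClosed_biInter fun y _ => isClosed_le continuous_const ?_
  simp only [Apt_p_apply]
  fun_prop

theorem Apt_sum_le (h : Apt M J γ) {u v x : M.Group} (hu : u ∈ WP M J) (hv : v ∈ WP M J)
    (hx : x ∈ WP M J) {t t' : S} (ht : t ∈ J) (ht' : t' ∈ J) {θ : ℝ} (h0 : 0 ≤ θ) (h1 : θ ≤ 1) :
    ∑ y ∈ J, γ x y * Apt_p u v t t' θ (ac M x⁻¹ (P035.ee y)) ≤ (1 - θ) * γ u t + θ * γ v t' := by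
  have := Apt_lin (J := J) (Apt_p u v t t' θ ∘ₗ ac M x⁻¹) (γ x)
  simp only [LinearMap.comp_apply] at this
  rw [← this, Apt_p_apply, ← P035.act_mul, ← P035.act_mul]
  exact add_le_add (mul_le_mul_of_nonneg_left (h.max hx hu ht) (sub_nonneg.2 h1))
    (mul_le_mul_of_nonneg_left (h.max hx hv ht') h0)

theorem Apt_start (u v : M.Group) (t t' y : S) :
    Apt_p u v t t' 0 (ac M u⁻¹ (P035.ee y)) = P035.ee y (some t) := by
  rw [Apt_p_apply, P035.act_act_inv]; ring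

theorem Apt_conn (h : Apt M J γ) (hJ : Spherical M J) {P : ℝ → Prop}
    {u v : M.Group} (hu : u ∈ WP M J) (hv : v ∈ WP M J)
    {t t' : S} (ht : t ∈ J) (ht' : t' ∈ J) (h1 : P (γ u t)) (h2 : P (γ v t'))
    (hG : ∀ θ : ℝ, 0 ≤ θ → θ ≤ 1 → ∀ x ∈ WP M J,
      (∀ y ∈ J, 0 ≤ Apt_p u v t t' θ (ac M x⁻¹ (P035.ee y))) →
      ∃ y ∈ J, Apt_p u v t t' θ (ac M x⁻¹ (P035.ee y)) ≠ 0 ∧ P (γ x y)) :
    AptConn M J γ P (u, t) (v, t') := by
  let T : M.Group → Prop := fun x => ∀ y ∈ J, P (γ x y) → AptConn M J γ P (u, t) (x, y)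
  have hT : ∀ x ∈ WP M J, ∀ y, AptConn M J γ P (u, t) (x, y) → T x :=
    fun x hx y hc z hz hP => Relation.ReflTransGen.tail hc ⟨hx, hz, hP, Or.inl rfl⟩
  by_contra hc
  obtain ⟨θ, hθ, ⟨x, hx, a1, a2⟩, x', hx', b1, b2⟩ := isPreconnected_closed_iff.1
    (isPreconnected_Icc (a := (0 : ℝ)) (b := 1)) _ _ (Apt_closed u v t t' hJ T)
    (Apt_closed u v t t' hJ fun x => ¬ T x) (fun θ _ => by
      obtain ⟨x, hx, h3⟩ := Apt_cover hJ (Apt_p u v t t' θ)
      by_cases h4 : T x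
      exacts [Or.inl ⟨x, hx, h4, h3⟩, Or.inr ⟨x, hx, h4, h3⟩])
    ⟨0, ⟨le_rfl, zero_le_one⟩, u, hu, hT u hu t Relation.ReflTransGen.refl, fun y _ => by
      rw [Apt_start]; exact P035.ee_nonneg y (some t)⟩
    ⟨1, ⟨zero_le_one, le_rfl⟩, v, hv, fun h3 => hc (h3 t' ht' h2), fun y _ => by
      rw [Apt_p_apply, P035.act_act_inv, sub_self, zero_mul, zero_add, one_mul]
      exact P035.ee_nonneg y (some t')⟩
  obtain ⟨y, hy, c1, c2⟩ := hG θ hθ.1 hθ.2 x hx a2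
  have h3 := (Apt_move h hx hy c2 (Apt_stab' _ hx hx' a2 b2 c1)).2
  rw [inv_mul_cancel_right] at h3
  exact b1 (hT x' hx' y ((a1 y hy c2).trans h3))

theorem Apt_neg {a b : S → ℝ} (ha : ∀ y ∈ J, 0 ≤ a y) (h : ∑ y ∈ J, b y * a y < 0) :
    ∃ y ∈ J, a y ≠ 0 ∧ b y < 0 := by
  by_contra hc
  push Not at hc
  refine absurd h (not_lt.2 (Finset.sum_nonneg fun y hy => ?_))
  by_cases e : a y = 0
  · rw [e, mul_zero]
  · exact mul_nonneg (hc y hy e) (ha y hy)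

theorem Apt.conn_neg (h : Apt M J γ) (hJ : Spherical M J)
    {u v : M.Group} (hu : u ∈ WP M J) (hv : v ∈ WP M J)
    {t t' : S} (ht : t ∈ J) (ht' : t' ∈ J) (h1 : γ u t < 0) (h2 : γ v t' < 0) :
    AptConn M J γ (· < 0) (u, t) (v, t') := by
  refine Apt_conn h hJ hu hv ht ht' h1 h2 fun θ a0 a1 x hx h3 => Apt_neg h3 ?_
  refine (Apt_sum_le h hu hv hx ht ht' a0 a1).trans_lt ?_
  rcases a0.eq_or_lt with rfl | a0
  · linarith
  · nlinarith

theorem Apt.zero_nbr (h : Apt M J γ) (hJ : Spherical M J)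
    {u v : M.Group} (hu : u ∈ WP M J) (hv : v ∈ WP M J)
    {t t' : S} (ht : t ∈ J) (ht' : t' ∈ J) (h1 : γ u t = 0) (h2 : γ v t' < 0) :
    ∃ u' ∈ WP M J, u' * u⁻¹ ∈ WP M (J.erase t) ∧ ∃ x ∈ J, γ u' x < 0 := by
  have h3 := Apt_closed u v t t' hJ fun x => ∃ y ∈ J, γ x y < 0
  have h4 := h3.closure_subset_iff.2 (show Set.Ioc (0 : ℝ) 1 ⊆ _ from fun θ hθ => by
    obtain ⟨x, hx, h5⟩ := Apt_cover hJ (Apt_p u v t t' θ)
    obtain ⟨y, hy, -, h6⟩ := Apt_neg (b := γ x) h5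
      ((Apt_sum_le h hu hv hx ht ht' hθ.1.le hθ.2).trans_lt (by nlinarith [hθ.1]))
    exact ⟨x, hx, ⟨y, hy, h6⟩, h5⟩)
  rw [closure_Ioc zero_ne_one] at h4
  obtain ⟨x, hx, h5, h6⟩ := h4 ⟨le_rfl, zero_le_one⟩
  refine ⟨x, hx, Apt_stab' (Apt_p u v t t' 0) hu hx (fun y _ => ?_) h6 ?_, h5⟩
  · rw [Apt_start]; exact P035.ee_nonneg y (some t)
  · rw [Apt_start]; simp [P035.ee]

theorem Apt.conn_zero (h : Apt M J γ) (hJ : Spherical M J)
    (h0 : ∀ w ∈ WP M J, ∀ x ∈ J, 0 ≤ γ w x)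
    {u v : M.Group} (hu : u ∈ WP M J) (hv : v ∈ WP M J)
    {t t' : S} (ht : t ∈ J) (ht' : t' ∈ J) (h1 : γ u t = 0) (h2 : γ v t' = 0)
    (hseg : ∀ θ : ℝ, 0 ≤ θ → θ ≤ 1 → ∃ x ∈ J,
      (1 - θ) * ac M u (P035.ee x) (some t) + θ * ac M v (P035.ee x) (some t') ≠ 0) :
    AptConn M J γ (· = 0) (u, t) (v, t') := by
  refine Apt_conn h hJ hu hv ht ht' h1 h2 fun θ a0 a1 x hx h3 => ?_
  have h4 := Apt_sum_le h hu hv hx ht ht' a0 a1
  rw [h1, h2, mul_zero, mul_zero, add_zero] at h4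
  have h5 := (Finset.sum_eq_zero_iff_of_nonneg fun y hy =>
    mul_nonneg (h0 x hx y hy) (h3 y hy)).1
    (le_antisymm h4 (Finset.sum_nonneg fun y hy => mul_nonneg (h0 x hx y hy) (h3 y hy)))
  by_contra hc
  push Not at hc
  obtain ⟨z, hz, h6⟩ := hseg θ a0 a1
  apply h6
  have h7 := Apt_lin (J := J) (Apt_p u v t t' θ ∘ₗ ac M x⁻¹) fun y => ac M x (P035.ee z) (some y)
  have h8 := ac_vec M hx fun a => if a = z then 1 else 0
  rw [← Apt_ee_vec hz] at h8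
  rw [← h8, LinearMap.comp_apply, P035.act_inv_act, Apt_p_apply] at h7
  rw [h7]
  refine Finset.sum_eq_zero fun y hy => mul_eq_zero_of_right _ ?_
  by_contra h9
  exact hc y hy h9 ((mul_eq_zero.1 (h5 y hy)).resolve_right h9)

end Vale.Agent.P203
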