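import Vale.Agent.P203.CoxA

/-! Part CoxB: standard parabolic subgroups. -/

namespace Vale.Agent.P203
open Classical CoxeterSystem

variable {S : Type} [DecidableEq S] (M : CoxeterMatrix S)

theorem aa_symm (s t : S) : aa M s t = aa M t s := by rw [aa, aa, M.symmetric s t]

theorem CoxB_div_le {s t : S} (h : s ≠ t) : Real.pi / M s t ≤ Real.pi / 2 := by
  rcases Nat.eq_zero_or_pos (M s t) with h0 | h0
  · rw [h0]; simp; positivity
  · have h2 : 2 ≤ M s t := by have := M.off_diagonal s t h; omega
    exact div_le_div_of_nonneg_left Real.pi_pos.le two_pos (by exact_mod_cast h2)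

theorem aa_nonneg {s t : S} (h : s ≠ t) : 0 ≤ aa M s t := by
  have h1 := CoxB_div_le M h
  have h2 : 0 ≤ Real.pi / M s t := by positivity
  exact mul_nonneg two_pos.le (Real.cos_nonneg_of_mem_Icc ⟨by linarith, h1⟩)
theorem aa_eq_zero_iff {s t : S} (h : s ≠ t) : aa M s t = 0 ↔ M s t = 2 := by
  constructor
  · intro h0
    by_contra h2
    have hp : 0 ≤ Real.pi / M s t := by positivity
    have hlt : Real.pi / M s t < Real.pi / 2 := by
      rcases Nat.eq_zero_or_pos (M s t) with h0 | h0
      · rw [h0]; simp; positivity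
      · have h3 : 2 < M s t := by have := M.off_diagonal s t h; omega
        exact div_lt_div_of_pos_left Real.pi_pos two_pos (by exact_mod_cast h3)
    have := Real.cos_pos_of_mem_Ioo (x := Real.pi / M s t) ⟨by linarith [Real.pi_pos], hlt⟩
    unfold aa at h0
    linarith
  · intro h2
    rw [aa, h2]; simp
theorem aa_lt_two {s t : S} (h : M s t ≠ 0) : aa M s t < 2 := by
  have h1 : (1 : ℝ) ≤ M s t := by exact_mod_cast Nat.one_le_iff_ne_zero.2 h
  have h2 : 0 < Real.pi / M s t := div_pos Real.pi_pos (by linarith)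
  have h3 : Real.pi / M s t ≤ Real.pi := div_le_self Real.pi_pos.le h1
  have := Real.cos_lt_cos_of_nonneg_of_le_pi le_rfl h3 h2
  rw [Real.cos_zero] at this
  unfold aa
  linarith
theorem form_ee_aa (s t : S) : P035.form M (P035.ee s) (P035.ee t) = -aa M s t := by
  rw [P035.form_ee, aa]; ring
theorem vec_apply (J : Finset S) (x : S → ℝ) (t : S) :
    vec J x (some t) = if t ∈ J then x t else 0 := by
  simp [vec, P035.ee, Finsupp.finset_sum_apply, Finsupp.single_apply]
theorem form_vec (J : Finset S) (x : S → ℝ) {s : S} (hs : s ∈ J) :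
    P035.form M (P035.ee s) (vec J x) = 2 * x s - ∑ t ∈ J.erase s, aa M s t * x t := by
  rw [vec, map_sum, ← Finset.add_sum_erase J _ hs, map_smul, P035.form_ee_self, sub_eq_add_neg,
    ← Finset.sum_neg_distrib, smul_eq_mul, mul_comm]
  congr 1
  refine Finset.sum_congr rfl fun t _ => ?_
  rw [map_smul, form_ee_aa, smul_eq_mul]; ring

theorem WP_mono {J K : Finset S} (h : J ⊆ K) : WP M J ≤ WP M K :=
  Subgroup.closure_mono (Set.image_mono h)
theorem AP_mono {J K : Finset S} (h : J ⊆ K) : AP M J ≤ AP M K :=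
  Subgroup.closure_mono (Set.image_mono h)
theorem sg_mem {J : Finset S} {s : S} (h : s ∈ J) : sg M s ∈ AP M J :=
  Subgroup.subset_closure ⟨s, h, rfl⟩
theorem wA_mem {J : Finset S} {l : List S} (h : ∀ x ∈ l, x ∈ J) : wA M l ∈ AP M J := by
  induction l with
  | nil => exact one_mem _
  | cons a l ih =>
    rw [wA_cons]
    exact mul_mem (sg_mem M (h a (by simp))) (ih fun x hx => h x (by simp [hx]))

theorem CoxB_simple_mem {J : Finset S} {s : S} (h : s ∈ J) : (cs M).simple s ∈ WP M J :=
  Subgroup.subset_closure ⟨s, h, rfl⟩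

theorem wordProd_mem {J : Finset S} {l : List S} (h : ∀ x ∈ l, x ∈ J) :
    (cs M).wordProd l ∈ WP M J := by
  induction l with
  | nil => rw [wordProd_nil]; exact one_mem _
  | cons a l ih =>
    rw [wordProd_cons]
    exact mul_mem (CoxB_simple_mem M (h a (by simp))) (ih fun x hx => h x (by simp [hx]))
theorem AP_empty {g : Art M} (h : g ∈ AP M ∅) : g = 1 := by
  simpa [AP] using h
theorem Spherical.mono {J K : Finset S} (h : J ⊆ K) (hK : Spherical M K) : Spherical M J := by
  have : Finite (WP M K) := hK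
  exact Finite.of_injective _ (Subgroup.inclusion_injective (WP_mono M h))
theorem spherical_empty : Spherical M ∅ := by
  unfold Spherical WP
  rw [Finset.coe_empty, Set.image_empty, Subgroup.closure_empty]
  infer_instance
theorem spherical_single (s : S) : Spherical M {s} := by
  unfold Spherical WP
  rw [Finset.coe_singleton, Set.image_singleton, ← Subgroup.zpowers_eq_closure]
  refine (isOfFinOrder_iff_pow_eq_one.2 ⟨2, two_pos, ?_⟩).finite_zpowers
  exact (cs M).simple_sq s
theorem Spherical.ne_zero {J : Finset S} (hJ : Spherical M J) {s t : S} (hs : s ∈ J) (ht : t ∈ J) :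
    M s t ≠ 0 := by
  intro h0
  have hst : s ≠ t := by rintro rfl; rw [M.diagonal] at h0; exact one_ne_zero h0
  have : Finite (WP M J) := hJ
  have hm : ∀ k, ∀ x ∈ alternatingWord s t k, x ∈ J := by
    intro k
    induction k with
    | zero => simp [alternatingWord]
    | succ k ih =>
      rw [alternatingWord_succ']
      intro x hx
      rcases List.mem_cons.1 hx with rfl | hx
      · split_ifs <;> assumption
      · exact ih x hx
  let f : ℕ → WP M J := fun k => ⟨_, wordProd_mem M (hm (2 * k))⟩
  have hf : ∀ k, ac M (f k).1 (P035.ee s) (some t) = 2 * k := by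
    intro k
    have := P035.act_alt (cs M) s t (2 * k)
    rw [if_pos (even_two_mul k), h0] at this
    change P035.act (cs M) ((cs M).wordProd (alternatingWord s t (2 * k))) (P035.ee s) (some t) = _
    rw [this]
    simp [P035.cheb_two, P035.ee, Finsupp.single_apply, hst]
  obtain ⟨a, b, hab, e⟩ := Finite.exists_ne_map_eq_of_infinite f
  have h1 := hf a
  rw [e, hf b] at h1
  exact hab (by exact_mod_cast (mul_left_cancel₀ (two_ne_zero (α := ℝ)) h1).symm)

theorem CoxB_ind {J : Finset S} {P : M.Group → Prop} (h1 : P 1)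
    (hs : ∀ s ∈ J, ∀ w ∈ WP M J, P w → P ((cs M).simple s * w)) {w : M.Group}
    (hw : w ∈ WP M J) : P w := by
  induction hw using Subgroup.closure_induction_left with
  | one => exact h1
  | mul_left x hx y hy ih => obtain ⟨s, hs', rfl⟩ := hx; exact hs s hs' y hy ih
  | inv_mul_cancel x hx y hy ih =>
    obtain ⟨s, hs', rfl⟩ := hx
    have : (M.simple s)⁻¹ = (cs M).simple s := (cs M).inv_simple s
    rw [this]; exact hs s hs' y hy ih

theorem ac_coord_out {J : Finset S} {w : M.Group} (hw : w ∈ WP M J) (x : P035.V S) {t : S}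
    (ht : t ∉ J) : ac M w x (some t) = x (some t) := by
  refine CoxB_ind M (P := fun w => ac M w x (some t) = x (some t)) ?_ ?_ hw
  · rw [P035.act_one]
  · intro s hs w _ ih
    have : s ≠ t := by rintro rfl; exact ht hs
    rw [P035.act_mul, P035.act_simple, P035.refl_apply, ← ih]
    simp [P035.ee, Finsupp.single_apply, this]
theorem ac_vec {J : Finset S} {w : M.Group} (hw : w ∈ WP M J) (x : S → ℝ) :
    ac M w (vec J x) = vec J fun t => ac M w (vec J x) (some t) := by
  ext a
  rcases a with _ | t
  · rw [P035.act_none]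
    simp [vec, P035.ee, Finsupp.finset_sum_apply]
  · rw [vec_apply]
    split_ifs with h
    · rfl
    · rw [ac_coord_out M hw _ h, vec_apply, if_neg h]
theorem simple_mem_iff {J : Finset S} {s : S} : M.simple s ∈ WP M J ↔ s ∈ J := by
  refine ⟨fun h => ?_, CoxB_simple_mem M⟩
  by_contra hs
  have h1 := ac_coord_out M h (P035.ee s) hs
  have h2 : ac M (M.simple s) (P035.ee s) = -P035.ee s := P035.act_simple_ee (cs := cs M) s
  rw [h2] at h1
  simp [P035.ee] at h1
  linarith

theorem CoxB_desc_right {J : Finset S} {w : M.Group} (hw : w ∈ WP M J) {s : S}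
    (h : ln M (w * M.simple s) < ln M w) : s ∈ J := by
  by_contra hs
  have h1 := ac_coord_out M hw (P035.ee s) hs
  have h2 := P035.act_ee_nonpos (cs := cs M) w s h (some s)
  rw [h1] at h2
  simp [P035.ee] at h2
  linarith

theorem CoxB_inv_simple (s : S) : (M.simple s)⁻¹ = M.simple s := (cs M).inv_simple s

theorem desc_left_mem {J : Finset S} {w : M.Group} (hw : w ∈ WP M J) {s : S}
    (h : ln M (M.simple s * w) < ln M w) : s ∈ J := by
  refine CoxB_desc_right M (inv_mem hw) ?_
  rw [← CoxB_inv_simple, ← mul_inv_rev, ln, ln, length_inv, length_inv]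
  exact h
theorem desc_right_mem {J : Finset S} {w : M.Group} (hw : w ∈ WP M J) {s : S}
    (h : ln M (w * M.simple s) < ln M w) : s ∈ J := CoxB_desc_right M hw h
theorem reduced_mem {J : Finset S} {l : List S} (hl : (cs M).IsReduced l)
    (hw : (cs M).wordProd l ∈ WP M J) : ∀ x ∈ l, x ∈ J := by
  induction l using List.reverseRecOn with
  | nil => simp
  | append_singleton l i ih =>
    obtain ⟨h1, h2⟩ := CoxA_red_concat M hl
    have hi : i ∈ J := desc_right_mem M hw h2
    have h3 : (cs M).wordProd l ∈ WP M J := by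
      have := mul_mem hw (CoxB_simple_mem M hi)
      rwa [wordProd_append, wordProd_singleton, simple_mul_simple_cancel_right] at this
    intro x hx
    rcases List.mem_append.1 hx with hx | hx
    · exact ih h1 h3 x hx
    · rw [List.mem_singleton.1 hx]; exact hi
theorem lf_mem {J : Finset S} {w : M.Group} (hw : w ∈ WP M J) : lf M w ∈ AP M J := by
  obtain ⟨a, ha, rfl⟩ := (cs M).exists_isReduced w
  rw [lf_eq M ha]
  exact wA_mem M (reduced_mem M ha hw)
theorem toW_mem {J : Finset S} {g : Art M} (hg : g ∈ AP M J) : toW M g ∈ WP M J := by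
  induction hg using Subgroup.closure_induction with
  | mem x hx => obtain ⟨s, hs, rfl⟩ := hx; rw [toW_sg]; exact CoxB_simple_mem M hs
  | one => rw [map_one]; exact one_mem _
  | mul x y _ _ h1 h2 => rw [map_mul]; exact mul_mem h1 h2
  | inv x _ h1 => rw [map_inv]; exact inv_mem h1

theorem add_right {T : Finset S} {w : M.Group} (h : ∀ t ∈ T, ln M w < ln M (w * M.simple t))
    {v : M.Group} (hv : v ∈ WP M T) : ln M (w * v) = ln M w + ln M v := by
  obtain ⟨l, hl, rfl⟩ := (cs M).exists_isReduced v
  induction l using List.reverseRecOn with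
  | nil => simp
  | append_singleton l i ih =>
    obtain ⟨h1, h2⟩ := CoxA_red_concat M hl
    have hm := reduced_mem M hl hv
    have hi : i ∈ T := hm i (by simp)
    have h3 : (cs M).wordProd l ∈ WP M T := wordProd_mem M fun x hx => hm x (by simp [hx])
    have h4 := ih h1 h3
    rw [wordProd_append, wordProd_singleton] at h2 ⊢
    rw [simple_mul_simple_cancel_right] at h2
    have h5 := P035.act_ee_nonneg (cs M) _ i h2
    have h6 : P035.ee i = vec T fun t => if t = i then 1 else 0 := by
      simp [vec, hi]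
    have h7 : 0 ≤ ac M (w * (cs M).wordProd l) (P035.ee i) := by
      rw [P035.act_mul, h6, ac_vec M h3, ← h6, vec, map_sum]
      refine Finset.sum_nonneg fun t ht => ?_
      rw [map_smul]
      exact smul_nonneg (h5 (some t)) (P035.act_ee_nonneg (cs M) w t (h t ht))
    have h8 : ¬ ln M (w * (cs M).wordProd l * (cs M).simple i) < ln M (w * (cs M).wordProd l) :=
      fun h9 => ((P035.isRoot_ee (cs := cs M) i).act _).not_both h7 (P035.act_ee_nonpos _ i h9)
    have h9 := (cs M).length_mul_simple (w * (cs M).wordProd l) i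
    have h10 := (cs M).length_mul_simple ((cs M).wordProd l) i
    rw [← mul_assoc]
    simp only [ln] at *
    omega
theorem add_left {T : Finset S} {w : M.Group} (h : ∀ t ∈ T, ln M w < ln M (M.simple t * w))
    {v : M.Group} (hv : v ∈ WP M T) : ln M (v * w) = ln M v + ln M w := by
  have := add_right M (T := T) (w := w⁻¹) (fun t ht => by
    rw [← CoxB_inv_simple, ← mul_inv_rev, ln, ln, length_inv, length_inv]; exact h t ht)
    (inv_mem hv)
  rw [← mul_inv_rev, ln, ln, ln, length_inv, length_inv, length_inv] at this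
  rw [ln, this, add_comm]
theorem minIn_iff {T : Finset S} {w : M.Group} :
    MinIn M w T ↔ ∀ t ∈ T, ln M w < ln M (w * M.simple t) := by
  constructor
  · intro h t ht
    exact lt_of_le_of_ne (h _ (CoxB_simple_mem M ht)) ((cs M).length_mul_simple_ne w t).symm
  · intro h v hv
    have := add_right M h hv
    simp only [ln] at this
    change (cs M).length w ≤ (cs M).length (w * v)
    omega
theorem exists_min_right (w : M.Group) (T : Finset S) :
    ∃ u, ∃ v ∈ WP M T, MinIn M u T ∧ w = u * v := by
  have hex : ∃ n, ∃ v ∈ WP M T, ln M (w * v) = n := ⟨_, 1, one_mem _, rfl⟩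
  obtain ⟨v, hv, e⟩ := Nat.find_spec hex
  refine ⟨w * v, v⁻¹, inv_mem hv, fun v' hv' => ?_, by group⟩
  have := Nat.find_min' hex ⟨v * v', mul_mem hv hv', rfl⟩
  rw [← e, ← mul_assoc] at this
  exact this
theorem exists_min_left (w : M.Group) (T : Finset S) :
    ∃ u, ∃ v ∈ WP M T, (∀ t ∈ T, ln M u < ln M (M.simple t * u)) ∧ w = v * u := by
  obtain ⟨u, v, hv, hu, e⟩ := exists_min_right M w⁻¹ T
  refine ⟨u⁻¹, v⁻¹, inv_mem hv, fun t ht => ?_, by rw [← mul_inv_rev, ← e, inv_inv]⟩
  rw [← CoxB_inv_simple, ← mul_inv_rev, ln, ln, length_inv, length_inv]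
  exact (minIn_iff M).1 hu t ht
theorem lf_coset {K : Finset S} {u u' : M.Group} (h : u' * u⁻¹ ∈ WP M K) :
    lf M u' * (lf M u)⁻¹ ∈ AP M K := by
  obtain ⟨m, v, hv, hm, rfl⟩ := exists_min_left M u K
  have hk := mul_mem h hv
  have e : u' = (u' * (v * m)⁻¹ * v) * m := by group
  rw [e]
  generalize u' * (v * m)⁻¹ * v = k at hk
  rw [lf_mul M (add_left M hm hk), lf_mul M (add_left M hm hv), mul_inv_rev, mul_assoc,
    mul_inv_cancel_left]
  exact mul_mem (lf_mem M hk) (inv_mem (lf_mem M hv))

end Vale.Agent.P203
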