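import Vale.Agent.P203.CoxE

/-! Part CoxC: dominant and antidominant vectors, reducible diagrams. -/

namespace Vale.Agent.P203
open Classical CoxeterSystem

variable {S : Type} [DecidableEq S] (M : CoxeterMatrix S)

theorem CoxC_form_vec (J : Finset S) (x : S → ℝ) (v : P035.V S) :
    P035.form M (vec J x) v = ∑ s ∈ J, x s * P035.form M (P035.ee s) v := by
  rw [vec, map_sum, LinearMap.sum_apply]
  refine Finset.sum_congr rfl fun s _ => ?_
  rw [map_smul, LinearMap.smul_apply, smul_eq_mul]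

theorem CoxC_sum_erase (J : Finset S) (s : S) (f : S → ℝ) :
    ∑ t ∈ J.erase s, aa M s t * f t = ∑ t ∈ J, (if s = t then 0 else aa M s t) * f t := by
  rw [← Finset.sum_erase J (a := s) (by simp)]
  refine Finset.sum_congr rfl fun t ht => ?_
  rw [if_neg (Finset.ne_of_mem_erase ht).symm]

theorem CoxC_psd {J : Finset S} {μ : S → ℝ} (h0 : ∀ t ∈ J, 0 < μ t)
    (h : ∀ s ∈ J, ∑ t ∈ J.erase s, aa M s t * μ t < 2 * μ s) (x : S → ℝ) :
    0 ≤ P035.form M (vec J x) (vec J x) := by
  set a : S → S → ℝ := fun s t => if s = t then 0 else aa M s t with ha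
  have a0 : ∀ s t, 0 ≤ a s t := fun s t => by
    simp only [ha]; split_ifs with e
    exacts [le_rfl, aa_nonneg M e]
  have asym : ∀ s t, a s t = a t s := fun s t => by
    simp only [ha, eq_comm (a := s), aa_symm M s t]
  have e1 : P035.form M (vec J x) (vec J x) =
      ∑ s ∈ J, 2 * x s ^ 2 - ∑ s ∈ J, ∑ t ∈ J, a s t * (x s * x t) := by
    rw [CoxC_form_vec, ← Finset.sum_sub_distrib]
    refine Finset.sum_congr rfl fun s hs => ?_
    rw [form_vec M J x hs, CoxC_sum_erase, mul_sub, Finset.mul_sum]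
    congr 1
    · ring
    · exact Finset.sum_congr rfl fun t _ => by ring
  have e2 : ∑ s ∈ J, ∑ t ∈ J, a s t * (x t ^ 2 * μ s / μ t) =
      ∑ s ∈ J, ∑ t ∈ J, a s t * (x s ^ 2 * μ t / μ s) := by
    rw [Finset.sum_comm]
    exact Finset.sum_congr rfl fun s _ => Finset.sum_congr rfl fun t _ => by rw [asym]
  have e3 : 2 * ∑ s ∈ J, ∑ t ∈ J, a s t * (x s * x t) ≤
      ∑ s ∈ J, ∑ t ∈ J, a s t * (x t ^ 2 * μ s / μ t) +
      ∑ s ∈ J, ∑ t ∈ J, a s t * (x s ^ 2 * μ t / μ s) := by
    rw [Finset.mul_sum, ← Finset.sum_add_distrib]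
    refine Finset.sum_le_sum fun s hs => ?_
    rw [Finset.mul_sum, ← Finset.sum_add_distrib]
    refine Finset.sum_le_sum fun t ht => ?_
    have p1 := h0 s hs
    have p2 := h0 t ht
    have : x t ^ 2 * μ s / μ t + x s ^ 2 * μ t / μ s - 2 * (x s * x t) =
        (x t * μ s - x s * μ t) ^ 2 / (μ s * μ t) := by field_simp; ring
    have h3 : 0 ≤ (x t * μ s - x s * μ t) ^ 2 / (μ s * μ t) := by positivity
    rw [← this] at h3
    nlinarith [mul_nonneg (a0 s t) h3]
  have e4 : ∑ s ∈ J, ∑ t ∈ J, a s t * (x s ^ 2 * μ t / μ s) ≤ ∑ s ∈ J, 2 * x s ^ 2 := by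
    refine Finset.sum_le_sum fun s hs => ?_
    have p1 := h0 s hs
    have h1 := h s hs
    rw [CoxC_sum_erase] at h1
    have : ∑ t ∈ J, a s t * (x s ^ 2 * μ t / μ s) = x s ^ 2 / μ s * ∑ t ∈ J, a s t * μ t := by
      rw [Finset.mul_sum]
      exact Finset.sum_congr rfl fun t _ => by ring
    rw [this]
    calc x s ^ 2 / μ s * ∑ t ∈ J, a s t * μ t ≤ x s ^ 2 / μ s * (2 * μ s) :=
          mul_le_mul_of_nonneg_left h1.le (by positivity)
      _ = 2 * x s ^ 2 := by field_simp
  linarith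

theorem CoxC_height {J : Finset S} {x : S → ℝ} (h0 : ∀ t ∈ J, 0 ≤ x t)
    (h : P035.form M (vec J x) (vec J x) = 2) : 1 ≤ ∑ t ∈ J, x t := by
  rw [CoxC_form_vec] at h
  have h1 : ∑ s ∈ J, x s * P035.form M (P035.ee s) (vec J x) ≤ ∑ s ∈ J, x s * (2 * ∑ t ∈ J, x t) := by
    refine Finset.sum_le_sum fun s hs => mul_le_mul_of_nonneg_left ?_ (h0 s hs)
    rw [form_vec M J x hs]
    have h2 : 0 ≤ ∑ t ∈ J.erase s, aa M s t * x t := Finset.sum_nonneg fun t ht =>
      mul_nonneg (aa_nonneg M (Finset.ne_of_mem_erase ht).symm) (h0 t (Finset.mem_of_mem_erase ht))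
    have h3 := Finset.single_le_sum h0 hs
    linarith
  rw [h, ← Finset.sum_mul] at h1
  have h2 := Finset.sum_nonneg h0
  nlinarith

theorem CoxC_spherical {J : Finset S} {μ : S → ℝ} (h0 : ∀ t ∈ J, 0 < μ t)
    (h : ∀ s ∈ J, ∑ t ∈ J.erase s, aa M s t * μ t < 2 * μ s) : Spherical M J := by
  rcases J.eq_empty_or_nonempty with rfl | hne
  · exact spherical_empty M
  obtain ⟨s0, hs0, hmin⟩ := J.exists_min_image (fun s => P035.form M (P035.ee s) (vec J μ)) hne
  set c := P035.form M (P035.ee s0) (vec J μ) with hc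
  have c0 : 0 < c := by rw [hc, form_vec M J μ hs0]; linarith [h s0 hs0]
  have key : ∀ l : List S, (cs M).IsReduced l → (∀ x ∈ l, x ∈ J) →
      P035.form M (ac M ((cs M).wordProd l) (vec J μ)) (vec J μ) ≤
        P035.form M (vec J μ) (vec J μ) - l.length * c ^ 2 := by
    intro l hl hm
    induction l using List.reverseRecOn with
    | nil => simp
    | append_singleton l i ih =>
      obtain ⟨h1, h2⟩ := CoxA_red_concat M hl
      have hi : i ∈ J := hm i (by simp)
      have hm' : ∀ x ∈ l, x ∈ J := fun x hx => hm x (by simp [hx])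
      have h3 := wordProd_mem M hm'
      have h4 := ih h1 hm'
      rw [wordProd_append, wordProd_singleton, simple_mul_simple_cancel_right] at h2
      have h5 := P035.act_ee_nonneg (cs M) _ i h2
      have h6 : P035.ee i = vec J fun t => if t = i then 1 else 0 := by simp [vec, hi]
      have h7 := ac_vec M h3 fun t => if t = i then 1 else 0
      rw [← h6] at h7
      have h8 := CoxC_height M (J := J)
        (x := fun t => ac M ((cs M).wordProd l) (P035.ee i) (some t)) (fun t _ => h5 (some t)) (by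
          rw [← h7, P035.form_act, P035.form_ee_self])
      have h9 : c ≤ P035.form M (ac M ((cs M).wordProd l) (P035.ee i)) (vec J μ) := by
        rw [h7, CoxC_form_vec]
        calc c ≤ (∑ t ∈ J, ac M ((cs M).wordProd l) (P035.ee i) (some t)) * c := by nlinarith
          _ ≤ _ := by
            rw [Finset.sum_mul]
            exact Finset.sum_le_sum fun t ht =>
              mul_le_mul_of_nonneg_left (hmin t ht) (h5 (some t))
      have h10 := hmin i hi
      rw [wordProd_append, wordProd_singleton, P035.act_mul, P035.act_simple, P035.refl_apply,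
        map_sub, map_smul, map_sub, map_smul, LinearMap.sub_apply, LinearMap.smul_apply,
        smul_eq_mul, List.length_append, List.length_singleton]
      push_cast
      nlinarith [mul_le_mul h10 h9 c0.le (c0.le.trans h10)]
  obtain ⟨N, hN⟩ := exists_nat_ge (2 * P035.form M (vec J μ) (vec J μ) / c ^ 2)
  have hb : ∀ l : List S, (cs M).IsReduced l → (∀ x ∈ l, x ∈ J) → l.length ≤ N := by
    intro l hl hm
    have h1 := key l hl hm
    have h3 := wordProd_mem M hm
    have h2 := CoxC_psd M h0 h fun t => ac M ((cs M).wordProd l) (vec J μ) (some t) + μ t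
    have e : (vec J fun t => ac M ((cs M).wordProd l) (vec J μ) (some t) + μ t) =
        ac M ((cs M).wordProd l) (vec J μ) + vec J μ := by
      conv_rhs => rw [ac_vec M h3]
      simp only [vec, add_smul, Finset.sum_add_distrib]
    rw [e] at h2
    simp only [map_add, LinearMap.add_apply] at h2
    rw [P035.form_act, P035.form_symm (vec J μ) (ac M _ _)] at h2
    rw [div_le_iff₀ (by positivity)] at hN
    have h4 : (l.length : ℝ) * c ^ 2 ≤ N * c ^ 2 := by linarith
    exact_mod_cast le_of_mul_le_mul_right h4 (by positivity)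
  have hf : ((fun l : List J => (cs M).wordProd (l.map Subtype.val)) ''
      {l | l.length ≤ N}).Finite := (List.finite_length_le J N).image _
  refine (hf.subset fun w hw => ?_).to_subtype
  obtain ⟨l, hl, rfl⟩ := (cs M).exists_isReduced w
  have hm := reduced_mem M hl hw
  refine ⟨l.pmap Subtype.mk hm, by simpa using hb l hl hm, ?_⟩
  simp [List.map_pmap]

theorem CoxC_gordan {J : Finset S} (hn : ¬ Spherical M J) :
    ∃ ν : S → ℝ, (∀ t ∈ J, 0 ≤ ν t) ∧ (∃ t ∈ J, 0 < ν t) ∧
      ∀ s ∈ J, 2 * ν s ≤ ∑ t ∈ J.erase s, aa M s t * ν t := by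
  by_contra hc
  apply hn
  let C : (J → ℝ) →ₗ[ℝ] (J → ℝ) :=
    Matrix.mulVecLin (Matrix.of fun s t : J => P035.form M (P035.ee s.1) (P035.ee t.1))
  have hC : ∀ (y : J → ℝ) (s : J), C y s =
      P035.form M (P035.ee s.1) (vec J fun t => if h : t ∈ J then y ⟨t, h⟩ else 0) := by
    intro y s
    rw [vec, map_sum, ← Finset.sum_coe_sort J]
    simp [C, Matrix.mulVec, dotProduct, mul_comm]
  have hd : Disjoint (C '' stdSimplex ℝ J) (Set.Iic 0) := by
    rw [Set.disjoint_left]
    rintro _ ⟨y, hy, rfl⟩ hle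
    apply hc
    refine ⟨fun t => if h : t ∈ J then y ⟨t, h⟩ else 0, fun t ht => ?_, ?_, fun s hs => ?_⟩
    · simp only [dif_pos ht]; exact hy.1 _
    · by_contra hz
      push Not at hz
      have : ∑ t, y t ≤ 0 := Finset.sum_nonpos fun t _ => by simpa using hz t.1 t.2
      linarith [hy.2]
    · have := hle ⟨s, hs⟩
      rw [hC, form_vec M J _ hs] at this
      simpa using this
  obtain ⟨f, u, v, h1, huv, h2⟩ := geometric_hahn_banach_compact_closed
    ((convex_stdSimplex ℝ J).linear_image C)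
    ((isCompact_stdSimplex ℝ J).image C.continuous_of_finiteDimensional)
    (convex_Iic 0) isClosed_Iic hd
  have hv : v < 0 := by simpa using h2 0 Set.self_mem_Iic
  have hf : ∀ s : J, f (Pi.single s 1) ≤ 0 := by
    intro s
    by_contra hp
    push Not at hp
    have := h2 ((v / f (Pi.single s 1)) • Pi.single s 1)
      (Set.mem_Iic.2 (smul_nonpos_of_nonpos_of_nonneg (div_nonpos_of_nonpos_of_nonneg hv.le hp.le)
        (Pi.single_nonneg.2 zero_le_one)))
    rw [map_smul, smul_eq_mul, div_mul_cancel₀ _ hp.ne'] at this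
    exact lt_irrefl _ this
  set μ : S → ℝ := fun t => if h : t ∈ J then -f (Pi.single ⟨t, h⟩ 1) else 0 with hμ
  have m0 : ∀ t ∈ J, 0 ≤ μ t := fun t ht => by
    simp only [hμ, dif_pos ht]; linarith [hf ⟨t, ht⟩]
  have m1 : ∀ s ∈ J, ∑ t ∈ J.erase s, aa M s t * μ t < 2 * μ s := by
    intro s hs
    have h3 := h1 _ ⟨_, single_mem_stdSimplex ℝ (⟨s, hs⟩ : J), rfl⟩
    have h4 : C (Pi.single ⟨s, hs⟩ 1) =
        ∑ t : J, P035.form M (P035.ee s) (P035.ee t.1) • Pi.single t 1 := by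
      ext t
      simp [C, Finset.sum_apply, Pi.single_apply, P035.form_symm (P035.ee s)]
    rw [h4, map_sum] at h3
    have h5 := hC (fun t => -f (Pi.single t 1)) ⟨s, hs⟩
    rw [form_vec M J _ hs] at h5
    have h6 : C (fun t => -f (Pi.single t 1)) ⟨s, hs⟩ =
        -∑ t : J, f (P035.form M (P035.ee s) (P035.ee t.1) • Pi.single t 1) := by
      simp [C, Matrix.mulVec, dotProduct]
    change _ = 2 * μ s - ∑ t ∈ J.erase s, aa M s t * μ t at h5
    linarith
  refine CoxC_spherical M (μ := μ) (fun s hs => ?_) m1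
  have h2 : 0 ≤ ∑ t ∈ J.erase s, aa M s t * μ t := Finset.sum_nonneg fun t ht =>
    mul_nonneg (aa_nonneg M (Finset.ne_of_mem_erase ht).symm) (m0 t (Finset.mem_of_mem_erase ht))
  linarith [m1 s hs]

theorem exists_nu {J : Finset S} (hJ : Irr M J) (hn : ¬ Spherical M J) :
    ∃ ν : S → ℝ, (∀ t ∈ J, 0 < ν t) ∧ ∀ s ∈ J, 2 * ν s ≤ ∑ t ∈ J.erase s, aa M s t * ν t := by
  obtain ⟨ν, h0, h1, h2⟩ := CoxC_gordan M hn
  induction hk : (J.filter fun t => ν t = 0).card using Nat.strong_induction_on generalizing ν with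
  | _ n ih =>
  by_cases hall : ∀ t ∈ J, 0 < ν t
  · exact ⟨ν, hall, h2⟩
  obtain ⟨s0, hs0, hp⟩ := h1
  obtain ⟨a, ha, b, hb, hab, pa, pb⟩ : ∃ a ∈ J, ∃ b ∈ J, Ed M a b ∧ 0 < ν a ∧ ν b = 0 := by
    by_contra hc
    push Not at hc
    apply hall
    intro t ht
    have key : ∀ t, Relation.ReflTransGen (fun a b => b ∈ J ∧ Ed M a b) s0 t → t ∈ J ∧ 0 < ν t := by
      intro t h
      induction h with
      | refl => exact ⟨hs0, hp⟩
      | tail _ h ih => exact ⟨h.1, lt_of_le_of_ne (h0 _ h.1) (hc _ ih.1 _ h.1 h.2 ih.2).symm⟩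
    exact (key t (hJ.2 s0 hs0 t ht)).2
  have hε : 0 < aa M b a * ν a := by
    refine mul_pos (lt_of_le_of_ne (aa_nonneg M hab.1.symm) fun e => hab.2 ?_) pa
    rw [M.symmetric a b]
    exact (aa_eq_zero_iff M hab.1.symm).1 e.symm
  have hle : ∀ t, ν t ≤ ν t + if t = b then aa M b a * ν a / 2 else 0 := fun t => by
    split_ifs <;> linarith
  refine ih _ ?_ (fun t => ν t + if t = b then aa M b a * ν a / 2 else 0)
    (fun t ht => (h0 t ht).trans (hle t)) ⟨s0, hs0, hp.trans_le (hle s0)⟩ (fun s hs => ?_) rfl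
  · rw [← hk]
    refine Finset.card_lt_card ⟨fun t ht => ?_, fun h => ?_⟩
    · rw [Finset.mem_filter] at ht ⊢
      exact ⟨ht.1, le_antisymm (ht.2 ▸ hle t) (h0 t ht.1)⟩
    · have := (Finset.mem_filter.1 (h (Finset.mem_filter.2 ⟨hb, pb⟩))).2
      rw [if_pos rfl] at this
      linarith
  · have h3 : ∑ t ∈ J.erase s, aa M s t * ν t ≤
        ∑ t ∈ J.erase s, aa M s t * (ν t + if t = b then aa M b a * ν a / 2 else 0) :=
      Finset.sum_le_sum fun t ht =>
        mul_le_mul_of_nonneg_left (hle t) (aa_nonneg M (Finset.ne_of_mem_erase ht).symm)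
    refine le_trans ?_ h3
    by_cases e : s = b
    · subst e
      have := Finset.single_le_sum (f := fun t => aa M s t * ν t) (s := J.erase s) (fun t ht =>
        mul_nonneg (aa_nonneg M (Finset.ne_of_mem_erase ht).symm)
          (h0 t (Finset.mem_of_mem_erase ht))) (Finset.mem_erase.2 ⟨hab.1, ha⟩)
      simp only [if_true, pb]
      linarith
    · simp only [if_neg e, add_zero]; exact h2 s hs

theorem exists_nu' {J : Finset S} (hJ : Spherical M J) :
    ∃ ν : S → ℝ, (∀ t ∈ J, 0 < ν t) ∧ ∀ s ∈ J, ∑ t ∈ J.erase s, aa M s t * ν t < 2 * ν s := by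
  obtain ⟨l, hl, e⟩ := (cs M).exists_isReduced (w0 M J)
  have h1 := word_lb M (fun _ => P035.rho) l hl fun t l' _ => ⟨1, zero_le_one, by
    have : ac M (M.simple t) = P035.refl M (P035.ee t) := P035.act_simple (cs M) t
    rw [this, P035.refl_apply, P035.form_ee_rho]; abel⟩
  rw [← e] at h1
  set v : P035.V S := P035.rho - ac M (w0 M J) P035.rho with hv
  have h2 : vec J (fun t => v (some t)) = v := by
    ext a
    rcases a with _ | t
    · rw [hv, Finsupp.sub_apply, P035.act_none]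
      simp [vec, P035.ee, Finsupp.finsetSum_apply]
    · rw [vec_apply]
      split_ifs with h
      · rfl
      · rw [hv, Finsupp.sub_apply, ac_coord_out M (w0_mem M hJ) _ h, sub_self]
  have h3 : ∀ s ∈ J, ∑ t ∈ J.erase s, aa M s t * v (some t) < 2 * v (some s) := by
    intro s hs
    have h4 := form_vec M J (fun t => v (some t)) hs
    obtain ⟨s', -, -, -, -, a2, -⟩ := w0_star M hJ hs
    have h5 : P035.form M (P035.ee s) (ac M (w0 M J) P035.rho) = -1 := by
      rw [← neg_neg (P035.ee s), ← a2, map_neg, LinearMap.neg_apply, P035.form_act,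
        P035.form_ee_rho]
    rw [h2] at h4
    conv_lhs at h4 => rw [hv, map_sub, h5, P035.form_ee_rho]
    linarith
  refine ⟨fun t => v (some t), fun s hs => ?_, h3⟩
  have h4 : 0 ≤ ∑ t ∈ J.erase s, aa M s t * v (some t) := Finset.sum_nonneg fun t ht =>
    mul_nonneg (aa_nonneg M (Finset.ne_of_mem_erase ht).symm) (sub_nonneg.2 h1 (some t))
  linarith [h3 s hs]

theorem irr_or_split {J : Finset S} (hJ : J.Nonempty) : Irr M J ∨
    ∃ J1 J2 : Finset S, J1.Nonempty ∧ J2.Nonempty ∧ Disjoint J1 J2 ∧ J = J1 ∪ J2 ∧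
      ∀ s ∈ J1, ∀ t ∈ J2, M s t = 2 := by
  obtain ⟨s0, hs0⟩ := hJ
  let R : S → S → Prop := Relation.ReflTransGen fun a b => b ∈ J ∧ Ed M a b
  by_cases h : ∀ t ∈ J, R s0 t
  · left
    have back : ∀ t, R s0 t → t ∈ J ∧ R t s0 := by
      intro t h
      induction h with
      | refl => exact ⟨hs0, Relation.ReflTransGen.refl⟩
      | tail _ h ih =>
        exact ⟨h.1, Relation.ReflTransGen.head
          ⟨ih.1, h.2.1.symm, by rw [M.symmetric]; exact h.2.2⟩ ih.2⟩
    exact ⟨⟨s0, hs0⟩, fun s hs t ht => (back s (h s hs)).2.trans (h t ht)⟩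
  · right
    push Not at h
    obtain ⟨t0, ht0, h⟩ := h
    refine ⟨J.filter (R s0), J.filter fun t => ¬ R s0 t,
      ⟨s0, Finset.mem_filter.2 ⟨hs0, Relation.ReflTransGen.refl⟩⟩,
      ⟨t0, Finset.mem_filter.2 ⟨ht0, h⟩⟩, Finset.disjoint_filter_filter_not _ _ _,
      (Finset.filter_union_filter_not_eq _ _).symm, fun s hs t ht => ?_⟩
    rw [Finset.mem_filter] at hs ht
    by_contra hc
    exact ht.2 (hs.2.tail ⟨ht.1, by rintro rfl; exact ht.2 hs.2, hc⟩)

theorem CoxC_comm {G : Type*} [Group G] (f : S → G) {J1 J2 : Finset S}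
    (h : ∀ s ∈ J1, ∀ t ∈ J2, f s * f t = f t * f s) {g1 g2 : G}
    (h1 : g1 ∈ Subgroup.closure (f '' (J1 : Set S))) (h2 : g2 ∈ Subgroup.closure (f '' (J2 : Set S))) :
    g1 * g2 = g2 * g1 := by
  change Commute g1 g2
  induction h1 using Subgroup.closure_induction with
  | mem x hx =>
    obtain ⟨s, hs, rfl⟩ := hx
    induction h2 using Subgroup.closure_induction with
    | mem y hy => obtain ⟨t, ht, rfl⟩ := hy; exact h s hs t ht
    | one => exact Commute.one_right _
    | mul _ _ _ _ a b => exact a.mul_right b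
    | inv _ _ a => exact a.inv_right
  | one => exact Commute.one_left _
  | mul _ _ _ _ a b => exact a.mul_left b
  | inv _ _ a => exact a.inv_left

theorem CoxC_union {G : Type*} [Group G] (f : S → G) {J1 J2 : Finset S}
    (h : ∀ s ∈ J1, ∀ t ∈ J2, f s * f t = f t * f s) {g : G}
    (hg : g ∈ Subgroup.closure (f '' ((J1 ∪ J2 : Finset S) : Set S))) :
    ∃ g1 ∈ Subgroup.closure (f '' (J1 : Set S)), ∃ g2 ∈ Subgroup.closure (f '' (J2 : Set S)),
      g = g1 * g2 := by
  induction hg using Subgroup.closure_induction with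
  | mem x hx =>
    obtain ⟨s, hs, rfl⟩ := hx
    rcases Finset.mem_union.1 hs with hs | hs
    · exact ⟨_, Subgroup.subset_closure ⟨s, hs, rfl⟩, 1, one_mem _, (mul_one _).symm⟩
    · exact ⟨1, one_mem _, _, Subgroup.subset_closure ⟨s, hs, rfl⟩, (one_mul _).symm⟩
  | one => exact ⟨1, one_mem _, 1, one_mem _, (mul_one _).symm⟩
  | mul x y _ _ h1 h2 =>
    obtain ⟨a, ha, b, hb, rfl⟩ := h1
    obtain ⟨c, hc, d, hd, rfl⟩ := h2
    refine ⟨_, mul_mem ha hc, _, mul_mem hb hd, ?_⟩
    rw [mul_assoc, ← mul_assoc b, ← CoxC_comm f h hc hb, mul_assoc, mul_assoc]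
  | inv x _ h1 =>
    obtain ⟨a, ha, b, hb, rfl⟩ := h1
    exact ⟨_, inv_mem ha, _, inv_mem hb, by rw [CoxC_comm f h ha hb, mul_inv_rev]⟩

theorem CoxC_sg_comm {s t : S} (h : M s t = 2) : sg M s * sg M t = sg M t * sg M s := by
  have := braid_A M s t
  rw [h] at this
  simpa [alternatingWord, wA] using this

theorem spherical_union {J1 J2 : Finset S} (h : ∀ s ∈ J1, ∀ t ∈ J2, M s t = 2)
    (h1 : Spherical M J1) (h2 : Spherical M J2) : Spherical M (J1 ∪ J2) := by
  have f1 : Finite (WP M J1) := h1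
  have f2 : Finite (WP M J2) := h2
  refine Finite.of_surjective (fun p : WP M J1 × WP M J2 => (⟨p.1.1 * p.2.1, mul_mem
    (WP_mono M Finset.subset_union_left p.1.2) (WP_mono M Finset.subset_union_right p.2.2)⟩ :
      WP M (J1 ∪ J2))) fun w => ?_
  obtain ⟨a, ha, b, hb, e⟩ := CoxC_union M.simple (fun s hs t ht => by
    have := congrArg (toW M) (CoxC_sg_comm M (h s hs t ht))
    rwa [map_mul, map_mul, toW_sg, toW_sg] at this) w.2
  exact ⟨(⟨a, ha⟩, ⟨b, hb⟩), Subtype.ext e.symm⟩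

theorem AP_comm {J1 J2 : Finset S} (h : ∀ s ∈ J1, ∀ t ∈ J2, M s t = 2) {g1 g2 : Art M}
    (h1 : g1 ∈ AP M J1) (h2 : g2 ∈ AP M J2) : g1 * g2 = g2 * g1 :=
  CoxC_comm (sg M) (fun s hs t ht => CoxC_sg_comm M (h s hs t ht)) h1 h2

theorem AP_union {J1 J2 : Finset S} (h : ∀ s ∈ J1, ∀ t ∈ J2, M s t = 2) {g : Art M}
    (hg : g ∈ AP M (J1 ∪ J2)) : ∃ g1 ∈ AP M J1, ∃ g2 ∈ AP M J2, g = g1 * g2 :=
  CoxC_union (sg M) (fun s hs t ht => CoxC_sg_comm M (h s hs t ht)) hg

theorem path_root {J : Finset S} (hJ : Irr M J) {s s' : S} (hs : s ∈ J) (hs' : s' ∈ J) :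
    ∃ u ∈ WP M J, P035.form M (P035.ee s) (ac M u (P035.ee s')) ≠ 0 := by
  have key : ∀ t, Relation.ReflTransGen (fun a b => b ∈ J ∧ Ed M a b) s' t →
      t ∈ J ∧ ∃ u ∈ WP M J, P035.form M (P035.ee t) (ac M u (P035.ee s')) ≠ 0 := by
    intro t h
    induction h with
    | refl => exact ⟨hs', 1, one_mem _, by rw [P035.act_one, P035.form_ee_self]; exact two_ne_zero⟩
    | @tail a b _ h ih =>
      obtain ⟨ha, u, hu, h1⟩ := ih
      refine ⟨h.1, ?_⟩
      by_cases h2 : P035.form M (P035.ee b) (ac M u (P035.ee s')) = 0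
      · refine ⟨_, mul_mem (CoxB_simple_mem M ha) hu, ?_⟩
        rw [P035.act_mul, P035.act_simple, P035.refl_apply, map_sub, map_smul, h2, zero_sub,
          form_ee_aa, smul_eq_mul, aa_symm]
        exact neg_ne_zero.2 (mul_ne_zero h1 (neg_ne_zero.2 fun e =>
          h.2.2 ((aa_eq_zero_iff M h.2.1).1 e)))
      · exact ⟨u, hu, h2⟩
  exact (key s (hJ.2 s' hs' s hs)).2

theorem Irr.exists_nbr {J : Finset S} (hJ : Irr M J) {s t : S} (hs : s ∈ J) (ht : t ∈ J)
    (hst : s ≠ t) : ∃ t' ∈ J, Ed M s t' := by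
  rcases (hJ.2 s hs t ht).cases_head with h | ⟨c, h, -⟩
  · exact absurd h hst
  · exact ⟨c, h.1, h.2⟩

end Vale.Agent.P203
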