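import Vale.Agent.P203.CoxB

/-! Part CoxD: intersections of standard parabolic subgroups of the Artin group (van der Lek). -/

namespace Vale.Agent.P203
open Classical CoxeterSystem

variable {S : Type} [DecidableEq S] (M : CoxeterMatrix S)

/-- The minimal representative of `w W_J`. -/
noncomputable def CoxD_mn (J : Finset S) (w : M.Group) : M.Group := (exists_min_right M w J).choose

theorem CoxD_mn_min (J : Finset S) (w : M.Group) : MinIn M (CoxD_mn M J w) J := by
  obtain ⟨v, -, h, -⟩ := (exists_min_right M w J).choose_spec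
  exact h

theorem CoxD_mn_mem (J : Finset S) (w : M.Group) : (CoxD_mn M J w)⁻¹ * w ∈ WP M J := by
  obtain ⟨v, hv, -, h⟩ := (exists_min_right M w J).choose_spec
  have : (CoxD_mn M J w)⁻¹ * w = v := by
    rw [inv_mul_eq_iff_eq_mul]; exact h
  rwa [this]

theorem CoxD_mn_eq {J : Finset S} {u w : M.Group} (hu : MinIn M u J) (h : u⁻¹ * w ∈ WP M J) :
    CoxD_mn M J w = u := by
  have hv : u⁻¹ * CoxD_mn M J w ∈ WP M J := by
    have := mul_mem h (inv_mem (CoxD_mn_mem M J w))
    rwa [mul_inv_rev, inv_inv, mul_assoc, mul_inv_cancel_left] at this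
  have h1 := add_right M ((minIn_iff M).1 hu) hv
  have h2 := CoxD_mn_min M J w _ (inv_mem hv)
  rw [mul_inv_cancel_left] at h1
  rw [mul_inv_rev, inv_inv, mul_inv_cancel_left] at h2
  have h3 : u⁻¹ * CoxD_mn M J w = 1 := (cs M).length_eq_zero_iff.1 (by
    simp only [ln] at h1
    change (cs M).length _ ≤ (cs M).length _ at h2
    omega)
  exact (inv_mul_eq_one.1 h3).symm

theorem CoxD_mn_in {J K : Finset S} {w : M.Group} (hw : w ∈ WP M K) : CoxD_mn M J w ∈ WP M K := by
  have h1 := add_right M ((minIn_iff M).1 (CoxD_mn_min M J w)) (CoxD_mn_mem M J w)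
  obtain ⟨a, ha, e1⟩ := (cs M).exists_isReduced (CoxD_mn M J w)
  obtain ⟨b, hb, e2⟩ := (cs M).exists_isReduced ((CoxD_mn M J w)⁻¹ * w)
  have e3 : (cs M).wordProd (a ++ b) = w := by
    rw [wordProd_append, ← e1, ← e2, mul_inv_cancel_left]
  have hab : (cs M).IsReduced (a ++ b) := by
    unfold CoxeterSystem.IsReduced
    rw [wordProd_append, List.length_append, ← ha.eq, ← hb.eq, ← e1, ← e2]; exact h1
  rw [e1]
  exact wordProd_mem M fun x hx => reduced_mem M hab (e3 ▸ hw) x (by simp [hx])

/-- Deodhar's lemma. -/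
theorem CoxD_deodhar {J : Finset S} {u : M.Group} (hu : MinIn M u J) (s : S) :
    MinIn M (M.simple s * u) J ∨ ∃ t ∈ J, M.simple s * u = u * M.simple t ∧
      ac M u (P035.ee t) = P035.ee s := by
  by_cases h : MinIn M (M.simple s * u) J
  · exact Or.inl h
  right
  rw [minIn_iff] at h
  push Not at h
  obtain ⟨t, ht, h⟩ := h
  have h1 : ln M (M.simple s * u * M.simple t) < ln M (M.simple s * u) :=
    lt_of_le_of_ne h ((cs M).length_mul_simple_ne _ t)
  have h2 := P035.act_ee_nonpos (cs := cs M) _ t h1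
  have h3 := P035.act_ee_nonneg (cs M) u t ((minIn_iff M).1 hu t ht)
  have hr := (cs M).isReflection_simple t
  have h4 := P035.act_rt_of_nonneg hr (w := u) (by rw [P035.rt_simple]; exact h3)
  rw [P035.rt_simple] at h4
  rw [P035.act_mul, h4] at h2
  have h5 := P035.eq_simple_of_act (hr.conj u) s h2
  refine ⟨t, ht, ?_, ?_⟩
  · change (cs M).simple s * u = u * (cs M).simple t
    rw [← h5]; group
  · rw [h4, ← P035.rt_simple (cs := cs M) s]
    congr 1

/-- The cocycle with values in `W_J`. -/
noncomputable def CoxD_d (J : Finset S) (x w : M.Group) : M.Group :=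
  (CoxD_mn M J (x * w))⁻¹ * x * CoxD_mn M J w

theorem CoxD_d_mem (J : Finset S) (x w : M.Group) : CoxD_d M J x w ∈ WP M J := by
  have := mul_mem (CoxD_mn_mem M J (x * w)) (inv_mem (CoxD_mn_mem M J w))
  have e : (CoxD_mn M J (x * w))⁻¹ * (x * w) * ((CoxD_mn M J w)⁻¹ * w)⁻¹ = CoxD_d M J x w := by
    rw [CoxD_d]; group
  rwa [e] at this

theorem CoxD_d_mul (J : Finset S) (s : S) (x w : M.Group) (h : ln M x < ln M (M.simple s * x)) :
    lf M (CoxD_d M J (M.simple s * x) w) =
      lf M (CoxD_d M J (M.simple s) (x * w)) * lf M (CoxD_d M J x w) := by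
  have e : CoxD_d M J (M.simple s * x) w = CoxD_d M J (M.simple s) (x * w) * CoxD_d M J x w := by
    rw [CoxD_d, CoxD_d, CoxD_d, mul_assoc (M.simple s) x w]; group
  rw [e]
  apply lf_mul
  have hm := CoxD_mn_mem M J (x * w)
  rcases CoxD_deodhar M (CoxD_mn_min M J (x * w)) s with h1 | ⟨t, ht, h1, h2⟩
  · have h2 : CoxD_mn M J (M.simple s * (x * w)) = M.simple s * CoxD_mn M J (x * w) :=
      CoxD_mn_eq M h1 (by rwa [mul_inv_rev, mul_assoc, inv_mul_cancel_left])
    have h3 : CoxD_d M J (M.simple s) (x * w) = 1 := by rw [CoxD_d, h2]; group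
    rw [h3, one_mul, ln, ln, length_one, zero_add]
  · have h3 : CoxD_mn M J (M.simple s * (x * w)) = CoxD_mn M J (x * w) := by
      refine CoxD_mn_eq M (CoxD_mn_min M J (x * w)) ?_
      have e2 : (CoxD_mn M J (x * w))⁻¹ * (M.simple s * (x * w)) =
          M.simple t * ((CoxD_mn M J (x * w))⁻¹ * (x * w)) := by
        have : M.simple s = CoxD_mn M J (x * w) * M.simple t * (CoxD_mn M J (x * w))⁻¹ := by
          rw [← h1]; group
        rw [this]; group
      rw [e2]
      exact mul_mem (CoxB_simple_mem M ht) hm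
    have h4 : CoxD_d M J (M.simple s) (x * w) = M.simple t := by
      rw [CoxD_d, h3, mul_assoc, h1]; group
    rw [h4]
    have hv := inv_mem (CoxD_d_mem M J x w)
    have h5 : 0 ≤ ac M x⁻¹ (P035.ee s) := by
      apply P035.act_ee_nonneg
      change ln M x⁻¹ < ln M (x⁻¹ * M.simple s)
      rw [← CoxB_inv_simple, ← mul_inv_rev, ln, ln, length_inv, length_inv]
      exact h
    have h6 : ac M (CoxD_mn M J w) (ac M (CoxD_d M J x w)⁻¹ (P035.ee t)) =
        ac M x⁻¹ (P035.ee s) := by
      rw [← h2, ← P035.act_mul, ← P035.act_mul, CoxD_d]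
      congr 2; group
    have h7 : ¬ ln M ((CoxD_d M J x w)⁻¹ * M.simple t) < ln M (CoxD_d M J x w)⁻¹ := by
      intro h7
      have h8 := P035.act_ee_nonpos (cs := cs M) _ t h7
      have h9 : P035.ee t = vec J fun a => if a = t then 1 else 0 := by simp [vec, ht]
      refine ((P035.isRoot_ee (cs := cs M) s).act x⁻¹).not_both h5 ?_
      change ac M x⁻¹ (P035.ee s) ≤ 0
      rw [← h6, h9, ac_vec M hv, ← h9, vec, map_sum]
      refine Finset.sum_nonpos fun a ha => ?_
      rw [map_smul]
      exact smul_nonpos_of_nonpos_of_nonneg (h8 (some a))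
        (P035.act_ee_nonneg (cs M) _ a ((minIn_iff M).1 (CoxD_mn_min M J w) a ha))
    rw [← CoxB_inv_simple, ← mul_inv_rev, ln, ln, length_inv, length_inv] at h7
    have h8 := (cs M).length_simple_mul (CoxD_d M J x w) t
    have h9 : ln M (M.simple t) = 1 := (cs M).length_simple t
    rw [h9]
    change ¬ (cs M).length ((cs M).simple t * _) < _ at h7
    change (cs M).length ((cs M).simple t * _) = 1 + (cs M).length _
    omega

/-- The permutation attached to a generator. -/
noncomputable def CoxD_perm (J : Finset S) (s : S) : Equiv.Perm (M.Group × Art M) where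
  toFun p := (M.simple s * p.1, lf M (CoxD_d M J (M.simple s) p.1) * p.2)
  invFun p := (M.simple s * p.1, (lf M (CoxD_d M J (M.simple s) (M.simple s * p.1)))⁻¹ * p.2)
  left_inv p := by
    have e : M.simple s * (M.simple s * p.1) = p.1 := (cs M).simple_mul_simple_cancel_left s
    simp only [e, inv_mul_cancel_left]
  right_inv p := by
    have e : M.simple s * (M.simple s * p.1) = p.1 := (cs M).simple_mul_simple_cancel_left s
    simp only [e, mul_inv_cancel_left]

theorem CoxD_word (J : Finset S) (l : List S) (hl : (cs M).IsReduced l) (p : M.Group × Art M) :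
    (l.map (CoxD_perm M J)).prod p =
      ((cs M).wordProd l * p.1, lf M (CoxD_d M J ((cs M).wordProd l) p.1) * p.2) := by
  induction l with
  | nil =>
    have : CoxD_d M J 1 p.1 = 1 := by rw [CoxD_d, one_mul]; group
    simp [this, lf_one]
  | cons s l ih =>
    have h1 : (cs M).IsReduced l := by simpa using hl.drop 1
    have h2 : ln M ((cs M).wordProd l) < ln M (M.simple s * (cs M).wordProd l) := by
      have h3 := hl.eq
      rw [wordProd_cons, List.length_cons, ← h1.eq] at h3
      change _ < (cs M).length ((cs M).simple s * _)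
      rw [h3]; exact Nat.lt_succ_self _
    rw [List.map_cons, List.prod_cons, Equiv.Perm.mul_apply, ih h1, wordProd_cons]
    have h3 := CoxD_d_mul M J s _ p.1 h2
    change (M.simple s * _, lf M (CoxD_d M J (M.simple s) _) * _) =
      (M.simple s * _ * _, lf M (CoxD_d M J (M.simple s * _) _) * _)
    rw [h3, mul_assoc, mul_assoc]

theorem CoxD_alt_red {s t : S} (hst : s ≠ t) (k : ℕ) (hk : k ≤ M s t) :
    (cs M).IsReduced (alternatingWord s t k) := by
  induction k generalizing s t with
  | zero => simp [alternatingWord, CoxeterSystem.IsReduced]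
  | succ k ih =>
    have h1 := ih hst.symm (by rw [M.symmetric t s]; omega)
    have hm : M t s = M s t := M.symmetric t s
    have h2 : ¬ ln M ((cs M).wordProd (alternatingWord t s k) * M.simple t) <
        ln M ((cs M).wordProd (alternatingWord t s k)) := by
      intro h
      refine ((P035.isRoot_ee (cs := cs M) t).act _).not_both ?_ (P035.act_ee_nonpos _ t h)
      have c1 := P035.cheb_nonneg (n := k + 1) (M.off_diagonal t s hst.symm) fun _ => by omega
      have c0 := P035.cheb_nonneg (n := k) (M.off_diagonal t s hst.symm) fun _ => by omega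
      rw [P035.act_alt]
      split_ifs
      · exact add_nonneg (smul_nonneg c1 (P035.ee_nonneg _)) (smul_nonneg c0 (P035.ee_nonneg _))
      · exact add_nonneg (smul_nonneg c0 (P035.ee_nonneg _)) (smul_nonneg c1 (P035.ee_nonneg _))
    have h3 := (cs M).length_mul_simple ((cs M).wordProd (alternatingWord t s k)) t
    have h4 := h1.eq
    unfold CoxeterSystem.IsReduced
    rw [alternatingWord_succ, wordProd_concat, List.length_concat]
    change ¬ (cs M).length (_ * (cs M).simple t) < (cs M).length _ at h2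
    omega

theorem CoxD_lift (J : Finset S) :
    ∃ φ : Art M →* Equiv.Perm (M.Group × Art M), ∀ s, φ (sg M s) = CoxD_perm M J s := by
  refine art_lift M _ fun s t => ?_
  by_cases hst : s = t
  · rw [hst]
  ext1 p
  rw [CoxD_word M J _ (CoxD_alt_red M hst _ le_rfl),
    CoxD_word M J _ (CoxD_alt_red M (Ne.symm hst) _ (M.symmetric s t).le), CoxA_braid_W]

theorem AP_inter {J K : Finset S} {g : Art M} (hJ : g ∈ AP M J) (hK : g ∈ AP M K) :
    g ∈ AP M (J ∩ K) := by
  obtain ⟨φ, hφ⟩ := CoxD_lift M J
  have h1 : ∀ g ∈ AP M J, ∀ w ∈ WP M J, ∀ a, φ g (w, a) = (toW M g * w, g * a) := by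
    intro g hg
    induction hg using Subgroup.closure_induction with
    | mem x hx =>
      obtain ⟨s, hs, rfl⟩ := hx
      intro w hw a
      have m1 : MinIn M 1 J := fun v _ => by rw [length_one]; exact Nat.zero_le _
      have e1 : CoxD_mn M J w = 1 := CoxD_mn_eq M m1 (by simpa using hw)
      have e2 : CoxD_mn M J (M.simple s * w) = 1 :=
        CoxD_mn_eq M m1 (by simpa using mul_mem (CoxB_simple_mem M hs) hw)
      have e3 : CoxD_d M J (M.simple s) w = M.simple s := by rw [CoxD_d, e1, e2]; group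
      rw [hφ, toW_sg]
      change (M.simple s * w, lf M (CoxD_d M J (M.simple s) w) * a) = _
      rw [e3, lf_simple]
    | one => intro w _ a; simp
    | mul x y hx hy h1 h2 =>
      intro w hw a
      rw [map_mul, Equiv.Perm.mul_apply, h2 w hw, h1 _ (mul_mem (toW_mem M hy) hw), map_mul,
        mul_assoc, mul_assoc]
    | inv x hx h1 =>
      intro w hw a
      rw [map_inv, Equiv.Perm.inv_eq_iff_eq, map_inv,
        h1 _ (mul_mem (inv_mem (toW_mem M hx)) hw), mul_inv_cancel_left, mul_inv_cancel_left]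
  have hd : ∀ s ∈ K, ∀ w ∈ WP M K, lf M (CoxD_d M J (M.simple s) w) ∈ AP M (J ∩ K) := by
    intro s hs w hw
    have hs' : M.simple s ∈ WP M K := CoxB_simple_mem M hs
    have a1 : CoxD_d M J (M.simple s) w ∈ WP M K :=
      mul_mem (mul_mem (inv_mem (CoxD_mn_in M (mul_mem hs' hw))) hs') (CoxD_mn_in M hw)
    have a2 := CoxD_d_mem M J (M.simple s) w
    obtain ⟨l, hl, e⟩ := (cs M).exists_isReduced (CoxD_d M J (M.simple s) w)
    rw [e] at a1 a2 ⊢
    rw [lf_eq M hl]
    exact wA_mem M fun x hx => Finset.mem_inter.2 ⟨reduced_mem M hl a2 x hx, reduced_mem M hl a1 x hx⟩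
  have h2 : ∀ g ∈ AP M K, (φ g (1, 1)).1 ∈ WP M K ∧ (φ g (1, 1)).2 ∈ AP M (J ∩ K) := by
    intro g hg
    induction hg using Subgroup.closure_induction_left with
    | one => rw [map_one]; exact ⟨one_mem _, one_mem _⟩
    | mul_left x hx y hy ih =>
      obtain ⟨s, hs, rfl⟩ := hx
      rw [map_mul, Equiv.Perm.mul_apply, hφ]
      exact ⟨mul_mem (CoxB_simple_mem M hs) ih.1, mul_mem (hd s hs _ ih.1) ih.2⟩
    | inv_mul_cancel x hx y hy ih =>
      obtain ⟨s, hs, rfl⟩ := hx
      rw [map_mul, Equiv.Perm.mul_apply, map_inv, hφ]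
      have := mul_mem (CoxB_simple_mem M hs) ih.1
      exact ⟨this, mul_mem (inv_mem (hd s hs _ this)) ih.2⟩
  have h3 := (h2 g hK).2
  rw [h1 g hJ 1 (one_mem _)] at h3
  simpa using h3

end Vale.Agent.P203
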