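import Vale.Agent.P203.CoxB

/-! Part CoxE: longest elements, antidominant vectors, lower bounds along reduced words. -/

namespace Vale.Agent.P203
open Classical CoxeterSystem

variable {S : Type} [DecidableEq S] (M : CoxeterMatrix S)

theorem CoxE_spec {J : Finset S} (hJ : Spherical M J) :
    w0 M J ∈ WP M J ∧ ∀ v ∈ WP M J, ln M v ≤ ln M (w0 M J) := by
  have : Finite (WP M J) := hJ
  have h : ∃ w ∈ WP M J, ∀ v ∈ WP M J, ln M v ≤ ln M w := by
    obtain ⟨w, hw⟩ := Finite.exists_max fun w : WP M J => ln M w.1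
    exact ⟨w.1, w.2, fun v hv => hw ⟨v, hv⟩⟩
  rw [w0, dif_pos h]
  exact h.choose_spec

theorem CoxE_sub_right {T : Finset S} {w : M.Group}
    (h : ∀ t ∈ T, ln M (w * M.simple t) < ln M w)
    {v : M.Group} (hv : v ∈ WP M T) : ln M (w * v) + ln M v = ln M w := by
  obtain ⟨l, hl, rfl⟩ := (cs M).exists_isReduced v
  induction l using List.reverseRecOn with
  | nil => simp
  | append_singleton l i ih =>
    obtain ⟨h1, h2⟩ := CoxA_red_concat M hl
    have hm := reduced_mem M hl hv
    have hi : i ∈ T := hm i (by simp)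
    have h3 : (cs M).wordProd l ∈ WP M T := wordProd_mem M fun x hx => hm x (by simp [hx])
    have h4 := ih h1 h3
    rw [wordProd_append, wordProd_singleton] at h2 ⊢
    rw [simple_mul_simple_cancel_right] at h2
    have h5 := P035.act_ee_nonneg (cs M) _ i h2
    have h6 : P035.ee i = vec T fun t => if t = i then 1 else 0 := by
      simp [vec, hi]
    have h7 : ac M (w * (cs M).wordProd l) (P035.ee i) ≤ 0 := by
      rw [P035.act_mul, h6, ac_vec M h3, ← h6, vec, map_sum]
      refine Finset.sum_nonpos fun t ht => ?_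
      rw [map_smul]
      exact smul_nonpos_of_nonneg_of_nonpos (h5 (some t)) (P035.act_ee_nonpos w t (h t ht))
    have h8 : ¬ ln M (w * (cs M).wordProd l) < ln M (w * (cs M).wordProd l * (cs M).simple i) :=
      fun h9 => ((P035.isRoot_ee (cs := cs M) i).act _).not_both
        (P035.act_ee_nonneg (cs M) _ i h9) h7
    have h9 := (cs M).length_mul_simple (w * (cs M).wordProd l) i
    have h10 := (cs M).length_mul_simple ((cs M).wordProd l) i
    rw [← mul_assoc]
    simp only [ln] at *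
    omega

theorem CoxE_desc {J : Finset S} (hJ : Spherical M J) {s : S} (hs : s ∈ J) :
    ln M (w0 M J * M.simple s) < ln M (w0 M J) :=
  lt_of_le_of_ne ((CoxE_spec M hJ).2 _ (mul_mem (CoxE_spec M hJ).1 (CoxB_simple_mem M hs)))
    ((cs M).length_mul_simple_ne _ s)

theorem CoxE_w0_sq {J : Finset S} (hJ : Spherical M J) : w0 M J * w0 M J = 1 := by
  have := CoxE_sub_right M (fun t ht => CoxE_desc M hJ ht) (CoxE_spec M hJ).1
  exact (cs M).length_eq_zero_iff.1 (by simp only [ln] at this; omega)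

theorem CoxE_w0_inv {J : Finset S} (hJ : Spherical M J) : (w0 M J)⁻¹ = w0 M J :=
  inv_eq_of_mul_eq_one_right (CoxE_w0_sq M hJ)

theorem w0_mem {J : Finset S} (hJ : Spherical M J) : w0 M J ∈ WP M J := (CoxE_spec M hJ).1
theorem ln_le_w0 {J : Finset S} (hJ : Spherical M J) {v : M.Group} (hv : v ∈ WP M J) :
    ln M v ≤ ln M (w0 M J) := (CoxE_spec M hJ).2 v hv
theorem w0_left {J : Finset S} (hJ : Spherical M J) {v : M.Group} (hv : v ∈ WP M J) :
    ln M v + ln M (v⁻¹ * w0 M J) = ln M (w0 M J) := by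
  have := CoxE_sub_right M (fun t ht => CoxE_desc M hJ ht) hv
  have e : v⁻¹ * w0 M J = (w0 M J * v)⁻¹ := by rw [mul_inv_rev, CoxE_w0_inv M hJ]
  rw [e, ln, ln, length_inv, add_comm]
  exact this
theorem w0_right {J : Finset S} (hJ : Spherical M J) {v : M.Group} (hv : v ∈ WP M J) :
    ln M (w0 M J * v⁻¹) + ln M v = ln M (w0 M J) := by
  have := CoxE_sub_right M (fun t ht => CoxE_desc M hJ ht) (inv_mem hv)
  rwa [ln, ln, length_inv] at this

theorem CoxE_lf_star {J : Finset S} (hJ : Spherical M J) {s t : S} (hs : s ∈ J)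
    (e : w0 M J * M.simple s = M.simple t * w0 M J) :
    lf M (w0 M J) * sg M s = sg M t * lf M (w0 M J) := by
  have h1 := CoxE_desc M hJ hs
  have h2 := (cs M).length_mul_simple (w0 M J) s
  have h3 : (cs M).length (w0 M J * M.simple s) + 1 = (cs M).length (w0 M J) := by
    change _ < (cs M).length _ at h1
    rcases h2 with h2 | h2
    · exact absurd h1 (by change ¬ (cs M).length (w0 M J * (cs M).simple s) < _; omega)
    · exact h2
  have e1 : w0 M J = w0 M J * M.simple s * M.simple s :=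
    ((cs M).simple_mul_simple_cancel_right s).symm
  have e2 : w0 M J = M.simple t * (w0 M J * M.simple s) := by
    rw [e]; exact ((cs M).simple_mul_simple_cancel_left t).symm
  have l1 : ∀ i, ln M (M.simple i) = 1 := fun i => (cs M).length_simple i
  have a1 := lf_mul M (u := w0 M J * M.simple s) (v := M.simple s) (by
    rw [← e1, l1]; exact h3.symm)
  have a2 := lf_mul M (u := M.simple t) (v := w0 M J * M.simple s) (by
    rw [← e2, l1, add_comm]; exact h3.symm)
  rw [← e1, lf_simple] at a1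
  rw [← e2, lf_simple] at a2
  calc lf M (w0 M J) * sg M s = sg M t * lf M (w0 M J * M.simple s) * sg M s := by rw [← a2]
    _ = sg M t * lf M (w0 M J) := by rw [mul_assoc, ← a1]

theorem CoxE_star {J : Finset S} (hJ : Spherical M J) {s : S} (hs : s ∈ J) :
    ∃ s' ∈ J, w0 M J * M.simple s = M.simple s' * w0 M J ∧
      w0 M J * M.simple s' = M.simple s * w0 M J ∧
      ac M (w0 M J) (P035.ee s) = -P035.ee s' ∧ ac M (w0 M J) (P035.ee s') = -P035.ee s := by
  have hu := mul_mem (w0_mem M hJ) (CoxB_simple_mem M hs)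
  have h1 := w0_right M hJ hu
  have h2 := (cs M).length_mul_simple (w0 M J) s
  have h3 : (cs M).length (w0 M J * (cs M).simple s) < (cs M).length (w0 M J) := CoxE_desc M hJ hs
  have e0 : w0 M J * (w0 M J * (cs M).simple s)⁻¹ = w0 M J * (cs M).simple s * (w0 M J)⁻¹ := by
    rw [mul_inv_rev, inv_simple, mul_assoc]
  rw [e0] at h1
  obtain ⟨t, ht⟩ := (cs M).length_eq_one_iff.1
    (show (cs M).length (w0 M J * (cs M).simple s * (w0 M J)⁻¹) = 1 by
      simp only [ln] at h1; omega)
  have htJ : t ∈ J := (simple_mem_iff M).1 (by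
    have := mul_mem hu (inv_mem (w0_mem M hJ))
    rwa [ht] at this)
  have e1 : w0 M J * (cs M).simple s = (cs M).simple t * w0 M J := by
    rw [← ht]; group
  have e2 : w0 M J * (cs M).simple t = (cs M).simple s * w0 M J := by
    have := congrArg (·⁻¹) e1
    simp only [mul_inv_rev, inv_simple, CoxE_w0_inv M hJ] at this
    exact this.symm
  have a1 : ac M (w0 M J) (P035.ee s) = -P035.ee t := by
    have := P035.act_rt_of_nonpos ((cs M).isReflection_simple s) (w := w0 M J) (by
      rw [P035.rt_simple]; exact P035.act_ee_nonpos _ s h3)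
    rw [P035.rt_simple] at this
    rw [this]
    congr 1
    rw [← P035.rt_simple (cs := cs M) t]
    congr 1
  refine ⟨t, htJ, e1, e2, a1, ?_⟩
  have := congrArg (ac M (w0 M J)) a1
  rw [← P035.act_mul, CoxE_w0_sq M hJ, P035.act_one, map_neg] at this
  rw [this, neg_neg]

theorem w0_star {J : Finset S} (hJ : Spherical M J) {s : S} (hs : s ∈ J) :
    ∃ s' ∈ J, w0 M J * M.simple s = M.simple s' * w0 M J ∧
      lf M (w0 M J) * sg M s = sg M s' * lf M (w0 M J) ∧
      ac M (w0 M J) (P035.ee s) = -P035.ee s' ∧ ac M (w0 M J) (P035.ee s') = -P035.ee s ∧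
      ∀ x : S → ℝ, ac M (w0 M J) (vec J x) (some s') = -x s := by
  obtain ⟨s', hs', e1, -, a1, a2⟩ := CoxE_star M hJ hs
  refine ⟨s', hs', e1, CoxE_lf_star M hJ hs e1, a1, a2, fun x => ?_⟩
  rw [vec, map_sum, Finsupp.finsetSum_apply, Finset.sum_eq_single_of_mem s hs]
  · rw [map_smul, a1]; simp [P035.ee]
  · intro t ht hts
    obtain ⟨t', -, -, -, b1, b2⟩ := CoxE_star M hJ ht
    have : t' ≠ s' := by
      rintro rfl
      rw [a2, neg_inj] at b2
      exact hts (Option.some.inj (Finsupp.single_left_injective one_ne_zero b2)).symm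
    rw [map_smul, b1]
    simp [P035.ee, this]

theorem CoxE_conj {J : Finset S} (hJ : Spherical M J) (l : List S) (hl : ∀ x ∈ l, x ∈ J) :
    ∃ l' : List S, (∀ x ∈ l', x ∈ J) ∧ lf M (w0 M J) * wA M l = wA M l' * lf M (w0 M J) ∧
      wA M l * lf M (w0 M J) = lf M (w0 M J) * wA M l' := by
  induction l with
  | nil => exact ⟨[], by simp, by simp [wA_nil], by simp [wA_nil]⟩
  | cons a l ih =>
    obtain ⟨l', h1, h2, h3⟩ := ih fun x hx => hl x (by simp [hx])
    have ha : a ∈ J := hl a (by simp)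
    obtain ⟨t, ht, e1, e2, -, -⟩ := CoxE_star M hJ ha
    refine ⟨t :: l', ?_, ?_, ?_⟩
    · intro x hx
      rcases List.mem_cons.1 hx with rfl | hx
      exacts [ht, h1 x hx]
    · rw [wA_cons, wA_cons, ← mul_assoc, CoxE_lf_star M hJ ha e1, mul_assoc, h2, mul_assoc]
    · rw [wA_cons, wA_cons, mul_assoc, h3, ← mul_assoc, ← CoxE_lf_star M hJ ht e2, mul_assoc]

theorem CoxE_lf_word {J : Finset S} {w : M.Group} (hw : w ∈ WP M J) :
    ∃ l : List S, (∀ x ∈ l, x ∈ J) ∧ lf M w = wA M l := by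
  obtain ⟨a, ha, rfl⟩ := (cs M).exists_isReduced w
  exact ⟨a, reduced_mem M ha hw, lf_eq M ha⟩

theorem AP_frac {J : Finset S} (hJ : Spherical M J) {g : Art M} (hg : g ∈ AP M J) :
    ∃ (N : ℕ) (l : List S), (∀ x ∈ l, x ∈ J) ∧ g = (lf M (w0 M J)) ^ N * (wA M l)⁻¹ := by
  induction hg using Subgroup.closure_induction_right with
  | one => exact ⟨0, [], by simp, by simp [wA_nil]⟩
  | mul_right x hx y hy ih =>
    obtain ⟨s, hs, rfl⟩ := hy
    obtain ⟨N, l, hl, rfl⟩ := ih
    obtain ⟨l', h1, -, h3⟩ := CoxE_conj M hJ l hl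
    have hs' : M.simple s ∈ WP M J := CoxB_simple_mem M hs
    obtain ⟨c, hc, e⟩ := CoxE_lf_word M (mul_mem (inv_mem hs') (w0_mem M hJ))
    have h4 := lf_mul M (u := M.simple s) (v := (M.simple s)⁻¹ * w0 M J) (by
      rw [mul_inv_cancel_left]; exact (w0_left M hJ hs').symm)
    rw [mul_inv_cancel_left, lf_simple, e] at h4
    refine ⟨N + 1, c ++ l', fun x hx => ?_, ?_⟩
    · rcases List.mem_append.1 hx with hx | hx
      exacts [hc x hx, h1 x hx]
    · have h5 : wA M c = (sg M s)⁻¹ * lf M (w0 M J) := by rw [h4, inv_mul_cancel_left]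
      rw [wA_append, h5, mul_assoc (sg M s)⁻¹, ← h3, pow_succ]
      group
  | mul_inv_cancel x hx y hy ih =>
    obtain ⟨s, hs, rfl⟩ := hy
    obtain ⟨N, l, hl, rfl⟩ := ih
    refine ⟨N, s :: l, fun x hx => ?_, by rw [wA_cons, mul_inv_rev, mul_assoc]⟩
    rcases List.mem_cons.1 hx with rfl | hx
    exacts [hs, hl x hx]

theorem AP_frac' {J : Finset S} (hJ : Spherical M J) {g : Art M} (hg : g ∈ AP M J) :
    ∃ (N : ℕ) (l : List S), (∀ x ∈ l, x ∈ J) ∧ g = ((lf M (w0 M J)) ^ N)⁻¹ * wA M l := by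
  obtain ⟨N, l, hl, e⟩ := AP_frac M hJ (inv_mem hg)
  have key : ∀ N : ℕ, ∃ l' : List S, (∀ x ∈ l', x ∈ J) ∧
      lf M (w0 M J) ^ N * wA M l = wA M l' * lf M (w0 M J) ^ N := by
    intro N
    induction N with
    | zero => exact ⟨l, hl, by simp⟩
    | succ N ih =>
      obtain ⟨l', h1, h2⟩ := ih
      obtain ⟨l'', h3, h4, -⟩ := CoxE_conj M hJ l' h1
      exact ⟨l'', h3, by rw [pow_succ', mul_assoc, h2, ← mul_assoc, h4, mul_assoc]⟩
  obtain ⟨l', h1, h2⟩ := key N
  refine ⟨N, l', h1, ?_⟩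
  have h3 : wA M l' = lf M (w0 M J) ^ N * wA M l * (lf M (w0 M J) ^ N)⁻¹ := by
    rw [h2, mul_inv_cancel_right]
  rw [h3, ← inv_inv g, e]
  group

theorem pow_w0_word {J : Finset S} (hJ : Spherical M J) (N : ℕ) :
    ∃ l : List S, (∀ x ∈ l, x ∈ J) ∧ (lf M (w0 M J)) ^ N = wA M l := by
  obtain ⟨c, hc, e⟩ := CoxE_lf_word M (w0_mem M hJ)
  induction N with
  | zero => exact ⟨[], by simp, by simp [wA_nil]⟩
  | succ N ih =>
    obtain ⟨l, hl, h⟩ := ih
    refine ⟨l ++ c, fun x hx => ?_, by rw [pow_succ, h, e, wA_append]⟩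
    rcases List.mem_append.1 hx with hx | hx
    exacts [hl x hx, hc x hx]

theorem CoxE_word_lb (x : List S → P035.V S) (l : List S) (hl : (cs M).IsReduced l)
    (h : ∀ s l', s :: l' <:+ l → ∃ κ : ℝ, 0 ≤ κ ∧
      x (s :: l') = ac M (M.simple s) (x l') + κ • P035.ee s) :
    ac M ((cs M).wordProd l) (x []) ≤ x l := by
  have key : ∀ l' p : List S, p ++ l' = l →
      ac M ((cs M).wordProd l) (x []) ≤ ac M ((cs M).wordProd p) (x l') := by
    intro l'
    induction l' with
    | nil => intro p e; rw [← e, List.append_nil]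
    | cons s l' ih =>
      intro p e
      obtain ⟨κ, h0, h1⟩ := h s l' ⟨p, e⟩
      have e' : (p ++ [s]) ++ l' = l := by rw [← e]; simp
      have h2 := ih _ e'
      have h3 : (cs M).IsReduced (p ++ [s]) := by
        have := hl.take (p ++ [s]).length
        rwa [← e', List.take_left] at this
      have h4 := (CoxA_red_concat M h3).2
      rw [wordProd_append, wordProd_singleton, simple_mul_simple_cancel_right] at h4
      have h5 := P035.act_ee_nonneg (cs M) _ s h4
      rw [wordProd_append, wordProd_singleton, P035.act_mul] at h2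
      rw [h1, map_add, map_smul]
      exact h2.trans (le_add_of_nonneg_right (smul_nonneg h0 h5))
  have := key l [] rfl
  rwa [wordProd_nil, P035.act_one] at this

/-- A nonnegative antidominant vector of a spherical subdiagram vanishes. -/
theorem antidom_zero {K : Finset S} (hK : Spherical M K) (x : S → ℝ) (h0 : ∀ s ∈ K, 0 ≤ x s)
    (h : ∀ s ∈ K, 2 * x s ≤ ∑ t ∈ K.erase s, aa M s t * x t) : ∀ s ∈ K, x s = 0 := by
  intro s hs
  obtain ⟨l, hl, e⟩ := (cs M).exists_isReduced (w0 M K)
  have hm := reduced_mem M hl (e ▸ w0_mem M hK)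
  have h1 := CoxE_word_lb M (fun _ => -vec K x) l hl fun t l' ht => by
    have htK : t ∈ K := hm t (ht.subset (by simp))
    refine ⟨-P035.form M (P035.ee t) (vec K x), ?_, ?_⟩
    · rw [form_vec M K x htK]; linarith [h t htK]
    · have : ac M (M.simple t) = P035.refl M (P035.ee t) := P035.act_simple (cs M) t
      rw [this, P035.refl_apply, map_neg]; abel
  obtain ⟨s', hs', -, -, -, -, h2⟩ := w0_star M hK hs
  have h3 := h1 (some s')
  rw [← e, map_neg, Finsupp.neg_apply, Finsupp.neg_apply, h2, vec_apply, if_pos hs'] at h3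
  linarith [h0 s hs, h0 s' hs']

/-- Lower bound along a reduced word: `x l` is the vector obtained after applying the letters
of `l`, the last one first. -/
theorem word_lb (x : List S → P035.V S) (l : List S) (hl : (cs M).IsReduced l)
    (h : ∀ s l', s :: l' <:+ l → ∃ κ : ℝ, 0 ≤ κ ∧
      x (s :: l') = ac M (M.simple s) (x l') + κ • P035.ee s) :
    ac M ((cs M).wordProd l) (x []) ≤ x l := CoxE_word_lb M x l hl h

end Vale.Agent.P203
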