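import Vale.Agent.P203.CoxB

/-! Part SalO: the orders on the Salvetti posets and on cosets; local finiteness. -/

namespace Vale.Agent.P203
open Classical CoxeterSystem

variable {S : Type} [DecidableEq S] {M : CoxeterMatrix S}

theorem minIn_one (T : Finset S) : MinIn M 1 T := fun v _ => by simp

theorem MinIn.add {w v : M.Group} {T : Finset S} (h : MinIn M w T) (hv : v ∈ WP M T) :
    ln M (w * v) = ln M w + ln M v := add_right M ((minIn_iff M).1 h) hv

theorem MinIn.eq_one {w : M.Group} {T : Finset S} (h : MinIn M w T) (hw : w ∈ WP M T) : w = 1 := by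
  have := h w⁻¹ (inv_mem hw)
  rw [mul_inv_cancel, length_one, Nat.le_zero] at this
  exact (cs M).length_eq_zero_iff.1 this

theorem MinIn.mul {w w' : M.Group} {T T' : Finset S} (hT : T ⊆ T') (h' : MinIn M w' T')
    (hw : w ∈ WP M T') (h : MinIn M w T) : MinIn M (w' * w) T := by
  intro v hv
  have e1 := h'.add hw
  have e2 := h'.add (mul_mem hw (WP_mono M hT hv))
  have e3 := h v hv
  rw [mul_assoc]
  simp only [ln, cs] at e1 e2
  omega

theorem finite_sph [Fintype S] : {w : M.Group | ∃ T, Spherical M T ∧ w ∈ WP M T}.Finite := by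
  have : {w : M.Group | ∃ T, Spherical M T ∧ w ∈ WP M T} =
      ⋃ T ∈ {T | Spherical M T}, (WP M T : Set M.Group) := by
    ext w; simp
  rw [this]
  exact (Set.toFinite _).biUnion fun T hT => Set.finite_coe_iff.1 hT

theorem SalTLE.refl (p : SalT M) : SalTLE M p p := by
  exact ⟨subset_rfl, 1, one_mem _, minIn_one _, by rw [lf_one, mul_one]⟩
theorem SalTLE.trans {p q r : SalT M} (h1 : SalTLE M p q) (h2 : SalTLE M q r) : SalTLE M p r := by
  obtain ⟨a1, w, hw, m, e⟩ := h1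
  obtain ⟨a2, w', hw', m', e'⟩ := h2
  refine ⟨a1.trans a2, w' * w, mul_mem hw' (WP_mono M a2 hw), MinIn.mul a1 m' hw m, ?_⟩
  rw [lf_mul M (m'.add hw), e, e', mul_assoc]
theorem SalTLE.antisymm {p q : SalT M} (h1 : SalTLE M p q) (h2 : SalTLE M q p) : p = q := by
  obtain ⟨a1, w, hw, m, e⟩ := h1
  rw [m.eq_one (WP_mono M h2.1 hw), lf_one, mul_one] at e
  exact Subtype.ext (Prod.ext e (Finset.Subset.antisymm a1 h2.1))
theorem SalTLE.eq_of_subset {p q : SalT M} (h1 : SalTLE M p q) (h2 : q.1.2 ⊆ p.1.2) : p = q := by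
  obtain ⟨a1, w, hw, m, e⟩ := h1
  rw [m.eq_one (WP_mono M h2 hw), lf_one, mul_one] at e
  exact Subtype.ext (Prod.ext e (Finset.Subset.antisymm a1 h2))
theorem SalLE.refl (p : SalCell M) : SalLE M p p := by
  refine ⟨subset_rfl, ?_, ?_⟩
  · rw [inv_mul_cancel]; exact one_mem _
  · rw [inv_mul_cancel]; exact minIn_one _
theorem SalLE.trans {p q r : SalCell M} (h1 : SalLE M p q) (h2 : SalLE M q r) : SalLE M p r := by
  obtain ⟨a1, hw, m⟩ := h1
  obtain ⟨a2, hw', m'⟩ := h2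
  have e : r.1.1⁻¹ * p.1.1 = (r.1.1⁻¹ * q.1.1) * (q.1.1⁻¹ * p.1.1) := by group
  refine ⟨a1.trans a2, ?_, ?_⟩
  · rw [e]; exact mul_mem hw' (WP_mono M a2 hw)
  · rw [e]; exact MinIn.mul a1 m' hw m
theorem SalLE.eq_of_subset {p q : SalCell M} (h1 : SalLE M p q) (h2 : q.1.2 ⊆ p.1.2) : p = q := by
  obtain ⟨a1, hw, m⟩ := h1
  have e := m.eq_one (WP_mono M h2 hw)
  exact Subtype.ext (Prod.ext (inv_mul_eq_one.1 e).symm (Finset.Subset.antisymm a1 h2))

theorem cst_eq_iff {g g' : Art M} {T : Finset S} :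
    cst M g T = cst M g' T ↔ g⁻¹ * g' ∈ AP M T := by
  simp only [cst]
  rw [← QuotientGroup.eq]
  constructor
  · intro h
    exact eq_of_heq (Sigma.mk.inj h).2
  · intro h
    rw [h]
theorem exists_cst (a : Cs M) : ∃ g, a = cst M g a.1 := by
  obtain ⟨T, x⟩ := a
  obtain ⟨g, rfl⟩ := QuotientGroup.mk_surjective x
  exact ⟨g, rfl⟩
theorem csLE_iff {g g' : Art M} {T T' : Finset S} :
    CsLE M (cst M g T) (cst M g' T') ↔ T ⊆ T' ∧ g'⁻¹ * g ∈ AP M T' := by
  refine and_congr_right fun hT => ⟨?_, fun h => ⟨g, rfl, cst_eq_iff.2 h⟩⟩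
  rintro ⟨k, h1, h2⟩
  have h1' : g⁻¹ * k ∈ AP M T := cst_eq_iff.1 h1
  have h2' : g'⁻¹ * k ∈ AP M T' := cst_eq_iff.1 h2
  have := mul_mem h2' (inv_mem (AP_mono M hT h1'))
  simpa using this
theorem CsLE.refl (a : Cs M) : CsLE M a a := by
  obtain ⟨g, hg⟩ := exists_cst a
  exact ⟨subset_rfl, g, hg, hg⟩
theorem CsLE.trans {a b c : Cs M} (h1 : CsLE M a b) (h2 : CsLE M b c) : CsLE M a c := by
  obtain ⟨g1, e1⟩ := exists_cst a
  obtain ⟨g2, e2⟩ := exists_cst b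
  obtain ⟨g3, e3⟩ := exists_cst c
  rw [e1, e2, csLE_iff] at h1
  rw [e2, e3, csLE_iff] at h2
  rw [e1, e3, csLE_iff]
  refine ⟨h1.1.trans h2.1, ?_⟩
  have := mul_mem h2.2 (AP_mono M h2.1 h1.2)
  simpa [mul_assoc] using this
theorem CsLE.eq_of_subset {a b : Cs M} (h1 : CsLE M a b) (h2 : b.1 ⊆ a.1) : a = b := by
  obtain ⟨h, g, e1, e2⟩ := h1
  rw [e1, e2, Finset.Subset.antisymm h h2]
theorem SalTLE.cst {p q : SalT M} (h : SalTLE M p q) :
    CsLE M (cst M p.1.1 p.1.2) (cst M q.1.1 q.1.2) := by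
  obtain ⟨a1, w, hw, -, e⟩ := h
  refine csLE_iff.2 ⟨a1, ?_⟩
  rw [e, inv_mul_cancel_left]
  exact lf_mem M hw

theorem salT_locFin [Fintype S] (p : SalT M) : {q | SalTLE M p q ∨ SalTLE M q p}.Finite := by
  have hf := (finite_sph (M := M)).prod (Set.finite_univ (α := Finset S))
  refine (((hf.image fun x => (p.1.1 * (lf M x.1)⁻¹, x.2)).union
    (hf.image fun x => (p.1.1 * lf M x.1, x.2))).preimage
      (Subtype.val_injective (p := fun p : Art M × Finset S => Spherical M p.2)).injOn).subset ?_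
  rintro q (⟨-, w, hw, -, e⟩ | ⟨-, w, hw, -, e⟩)
  · exact Or.inl ⟨(w, q.1.2), ⟨⟨_, q.2, hw⟩, trivial⟩, Prod.ext (by simp [e]) rfl⟩
  · exact Or.inr ⟨(w, q.1.2), ⟨⟨_, p.2, hw⟩, trivial⟩, Prod.ext e.symm rfl⟩
theorem sal_locFin [Fintype S] (p : SalCell M) : {q | SalLE M p q ∨ SalLE M q p}.Finite := by
  have hf := (finite_sph (M := M)).prod (Set.finite_univ (α := Finset S))
  refine (((hf.image fun x => (p.1.1 * x.1⁻¹, x.2)).union
    (hf.image fun x => (p.1.1 * x.1, x.2))).preimage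
      (Subtype.val_injective (p := fun p : M.Group × Finset S => Spherical M p.2)).injOn).subset ?_
  rintro q (⟨-, hw, -⟩ | ⟨-, hw, -⟩)
  · exact Or.inl ⟨(_, q.1.2), ⟨⟨_, q.2, hw⟩, trivial⟩, Prod.ext (by simp) rfl⟩
  · exact Or.inr ⟨(_, q.1.2), ⟨⟨_, p.2, hw⟩, trivial⟩, Prod.ext (by simp) rfl⟩

end Vale.Agent.P203
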