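import Vale.Agent.P203.SphA
import Vale.Agent.P203.SalO
import Vale.Agent.P203.Flg

/-! Part Del: Deligne's theorem for the spherical parabolic subgroups. -/

namespace Vale.Agent.P203
open Classical CoxeterSystem

variable {S : Type} [Fintype S] [DecidableEq S] {M : CoxeterMatrix S}

theorem SalTLE.len {p q : SalT M} (h : SalTLE M p q) :
    p.1.1 = q.1.1 ∨ lenA M q.1.1 < lenA M p.1.1 := by
  obtain ⟨-, w, -, -, e⟩ := h
  by_cases hw : w = 1
  · left; rw [e, hw, lf_one, mul_one]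
  · right
    have : ln M w ≠ 0 := fun h => hw ((cs M).length_eq_zero_iff.1 h)
    rw [e, lenA_mul, lenA_lf]
    omega

theorem salTLE_of_eq {p q : SalT M} (h1 : p.1.1 = q.1.1) (h2 : p.1.2 ⊆ q.1.2) : SalTLE M p q :=
  ⟨h2, 1, one_mem _, minIn_one _, by rw [lf_one, mul_one, h1]⟩

theorem lf_inj {g : Art M} {w w' : M.Group} (h : g * lf M w = g * lf M w') : w = w' := by
  have := congrArg (toW M) (mul_left_cancel h)
  rwa [toW_lf, toW_lf] at this

theorem exists_asc {T : Finset S} (hT : Spherical M T) {w : M.Group} (hw : w ∈ WP M T)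
    (hne : w ≠ w0 M T) : ∃ s ∈ T, ln M w < ln M (w * M.simple s) := by
  have h1 := w0_left M hT hw
  have h2 : w⁻¹ * w0 M T ≠ 1 := fun h => hne (inv_mul_eq_one.1 h)
  obtain ⟨s, hs⟩ := (cs M).exists_leftDescent_of_ne_one h2
  have hs' : ln M (M.simple s * (w⁻¹ * w0 M T)) < ln M (w⁻¹ * w0 M T) := hs
  refine ⟨s, desc_left_mem M (mul_mem (inv_mem hw) (w0_mem M hT)) hs', ?_⟩
  have h3 := (cs M).length_mul_le (w * M.simple s) (M.simple s * (w⁻¹ * w0 M T))
  have h4 : w * M.simple s * (M.simple s * (w⁻¹ * w0 M T)) = w0 M T := by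
    rw [mul_assoc]
    erw [(cs M).simple_mul_simple_cancel_left]
    simp
  rw [h4] at h3
  simp only [ln] at *
  omega

theorem simple_mem' {T : Finset S} {s : S} (hs : s ∈ T) : M.simple s ∈ WP M T :=
  (simple_mem_iff M).2 hs

/-- The Morse argument shared by the two theorems below. -/
theorem cells_wc (E : Set (SalT M)) (m : Art M) (B : ℤ) (h1 : ∀ q ∈ E, lenA M q.1.1 ≤ B)
    (h2 : ∀ q ∈ E, q.1.2.Nonempty → ∀ q', SalTLE M q' q → q'.1 ≠ (q.1.1, ∅) → q' ∈ E)
    (h3 : ∀ q ∈ E, q.1.2 = ∅ → q.1.1 ≠ m → ∃ a ∈ E, a.1.1 = q.1.1 ∧ a.1.2.Nonempty ∧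
      ∀ b ∈ E, b.1.1 = q.1.1 → b.1.2 ⊆ a.1.2)
    (h4 : (⟨(m, ∅), spherical_empty M⟩ : SalT M) ∈ E) (h4' : ∀ q ∈ E, q.1.2.Nonempty → q.1.1 ≠ m)
    (h5 : ∀ p ∈ E, p.1.2.Nonempty →
      ((SC.flag (SalTLE M)).full {q | SalTLE M q p ∧ q ≠ p ∧ q.1 ≠ (p.1.1, ∅)}).WC) :
    ((SC.flag (SalTLE M)).full E).WC := by
  let N := Fintype.card S
  let k2 : SalT M → ℕ := fun q => if q.1.2 = ∅ then N + 1 else q.1.2.card
  let key : SalT M → ℕ ×ₗ ℕ := fun q => toLex ((B - lenA M q.1.1).toNat, k2 q)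
  let top : SalT M := ⟨(m, ∅), spherical_empty M⟩
  have hlt : ∀ a ∈ E, ∀ b ∈ E, (key a < key b ↔ lenA M b.1.1 < lenA M a.1.1 ∨
      (lenA M a.1.1 = lenA M b.1.1 ∧ k2 a < k2 b)) := by
    intro a ha b hb
    have := h1 a ha
    have := h1 b hb
    simp only [key, Prod.Lex.toLex_lt_toLex]
    omega
  have k2e : ∀ q : SalT M, q.1.2 = ∅ → k2 q = N + 1 := fun q h => if_pos h
  have k2n : ∀ q : SalT M, q.1.2.Nonempty → k2 q = q.1.2.card := fun q h => if_neg h.ne_empty
  have k2l : ∀ q : SalT M, q.1.2.card ≤ N := fun q => Finset.card_le_univ _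
  refine (SC.flg_morse (SalTLE M) {top} E (Set.singleton_subset_iff.2 h4) key
    (InvImage.wf key wellFounded_lt).wellFoundedOn (fun a ha b hb hab hle e => ?_)
    fun y hy => ?_).1 (SC.flg_cone _ _ (a := top) rfl fun b hb hb' => absurd hb hb')
  · have n1 := (hlt a ha.1 b hb.1).not.1 (by rw [e]; exact lt_irrefl _)
    have n2 := (hlt b hb.1 a ha.1).not.1 (by rw [e]; exact lt_irrefl _)
    have e2 : k2 a = k2 b := by omega
    have hss : a.1.2 ⊂ b.1.2 := ⟨hle.1, fun h => hab (hle.eq_of_subset h)⟩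
    have hb' : b.1.2.Nonempty := Finset.nonempty_iff_ne_empty.2 fun h =>
      Finset.not_ssubset_empty _ (h ▸ hss)
    have := Finset.card_lt_card hss
    have := k2l b
    rw [k2n b hb'] at e2
    rcases a.1.2.eq_empty_or_nonempty with h | h
    · rw [k2e a h] at e2; omega
    · rw [k2n a h] at e2; omega
  rcases y.1.2.eq_empty_or_nonempty with hX | hX
  · have hym : y.1.1 ≠ m := fun e => hy.2 (Subtype.ext (Prod.ext e hX))
    obtain ⟨a, haE, ha1, ha2, ha3⟩ := h3 y hy.1 hX hym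
    refine SC.flg_cone _ _ (a := a) ⟨Or.inr ⟨haE, (hlt a haE y hy.1).2 (Or.inr ⟨by rw [ha1], ?_⟩)⟩,
      fun e => ha2.ne_empty (e ▸ hX), Or.inr (salTLE_of_eq ha1.symm (by simp [hX]))⟩ ?_
    · rw [k2n a ha2, k2e y hX]
      exact Nat.lt_succ_of_le (k2l a)
    · rintro b ⟨b1, b2, b3 | b3⟩ -
      · exact absurd (b3.eq_of_subset (by simp [hX])) b2
      · rcases b1 with b1 | b1
        · rw [Set.mem_singleton_iff] at b1
          subst b1
          exact absurd (b3.eq_of_subset (Finset.empty_subset _)) hy.2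
        · have := (hlt b b1.1 y hy.1).1 b1.2
          rcases b3.len with e | e
          · exact Or.inr (salTLE_of_eq (e.symm.trans ha1.symm) (ha3 b b1.1 e.symm))
          · omega
  · convert h5 y hy.1 hX using 2
    ext b
    constructor
    · rintro ⟨b1, b2, b3⟩
      have hle : SalTLE M b y := by
        refine b3.resolve_right fun b3 => ?_
        rcases b1 with b1 | b1
        · rw [Set.mem_singleton_iff] at b1
          subst b1
          exact hX.ne_empty (Finset.subset_empty.1 b3.1)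
        · have := (hlt b b1.1 y hy.1).1 b1.2
          rw [k2n y hX, k2n b (hX.mono b3.1)] at this
          have h' := Finset.card_le_card b3.1
          rcases b3.len with e | e
          · rw [e] at this; omega
          · omega
      refine ⟨hle, b2, fun e => ?_⟩
      have e1 : b.1.1 = y.1.1 := (congrArg Prod.fst e :)
      have e2 : b.1.2 = ∅ := congrArg Prod.snd e
      rcases b1 with b1 | b1
      · rw [Set.mem_singleton_iff] at b1
        subst b1
        exact h4' y hy.1 hX e1.symm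
      · have := (hlt b b1.1 y hy.1).1 b1.2
        rw [k2n y hX, k2e b e2, e1] at this
        have := k2l y
        omega
    · rintro ⟨b1, b2, b3⟩
      have hb := h2 y hy.1 hX b b1 b3
      refine ⟨Or.inr ⟨hb, (hlt b hb y hy.1).2 ?_⟩, b2, Or.inl b1⟩
      rcases b1.len with e | e
      · refine Or.inr ⟨by rw [e], ?_⟩
        have hb' : b.1.2.Nonempty := Finset.nonempty_iff_ne_empty.2 fun h => b3 (Prod.ext e h)
        rw [k2n y hX, k2n b hb']
        exact Finset.card_lt_card ⟨b1.1, fun h => b2 (b1.eq_of_subset h)⟩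
      · exact Or.inl e

/-- The boundary of a cell with its bottom vertex removed is contractible. -/
theorem bd_wc (p : SalT M) (hne : p.1.2.Nonempty) :
    ((SC.flag (SalTLE M)).full {q | SalTLE M q p ∧ q ≠ p ∧ q.1 ≠ (p.1.1, ∅)}).WC := by
  induction hn : p.1.2.card using Nat.strong_induction_on generalizing p with
  | _ n ih =>
  obtain ⟨⟨g, T⟩, hT⟩ := p
  simp only at hne hn hT
  refine cells_wc _ (g * lf M (w0 M T)) (lenA M g + ln M (w0 M T)) ?_ ?_ ?_ ?_ ?_ ?_
  · rintro q ⟨⟨-, w, hw, -, e⟩, -⟩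
    have := ln_le_w0 M hT hw
    rw [e, lenA_mul, lenA_lf]
    simp only
    omega
  · rintro q ⟨q1, q2, -⟩ - q' hq' hn'
    refine ⟨hq'.trans q1, fun e => q2 (q1.antisymm (e ▸ hq')), fun e => hn' ?_⟩
    have e1 : q'.1.1 = g := congrArg Prod.fst e
    have e2 : q'.1.2 = ∅ := congrArg Prod.snd e
    refine Prod.ext ?_ e2
    rcases hq'.len with h | h
    · exact h
    · rcases q1.len with h' | h'
      · exact e1.trans h'.symm
      · rw [e1] at h
        simp only at h'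
        omega
  · rintro q ⟨⟨-, w, hw, -, e⟩, -, q3⟩ hX hm
    simp only at e hw
    have hg : q.1.1 ≠ g := fun h => q3 (Prod.ext h hX)
    obtain ⟨s, hs, hs'⟩ := exists_asc hT hw fun h => hm (by rw [e, h])
    refine ⟨⟨(q.1.1, T.filter fun t => ln M w < ln M (w * M.simple t)),
      Spherical.mono M (Finset.filter_subset _ _) hT⟩, ⟨⟨Finset.filter_subset _ _, w, hw,
        (minIn_iff M).2 fun t ht => (Finset.mem_filter.1 ht).2, e⟩,
        fun h => hg (congrArg (fun x : SalT M => x.1.1) h), fun h => hg (congrArg Prod.fst h)⟩,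
      rfl, ⟨s, Finset.mem_filter.2 ⟨hs, hs'⟩⟩, ?_⟩
    rintro b ⟨⟨b1, w', -, b2, e'⟩, -⟩ hb t ht
    have : w' = w := lf_inj (e'.symm.trans (hb.trans e))
    subst this
    exact Finset.mem_filter.2 ⟨b1 ht, (minIn_iff M).1 b2 t ht⟩
  · obtain ⟨s, hs⟩ := hne
    refine ⟨⟨Finset.empty_subset _, w0 M T, w0_mem M hT, (minIn_iff M).2 (by simp), rfl⟩,
      fun h => ?_, fun h => ?_⟩
    · have : (∅ : Finset S) = T := congrArg (fun x : SalT M => x.1.2) h
      rw [← this] at hs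
      simp at hs
    · have h1 : g * lf M (w0 M T) = g := congrArg Prod.fst h
      have h2 : w0 M T = 1 := lf_inj (g := g) (by rw [h1, lf_one, mul_one])
      have h3 := ln_le_w0 M hT (simple_mem' hs)
      have h4 : ln M (M.simple s) = 1 := (cs M).length_simple s
      have h5 : ln M 1 = 0 := (cs M).length_one
      rw [h2] at h3
      omega
  · rintro q ⟨⟨q1, w, hw, q2, e⟩, -⟩ ⟨t, ht⟩ hm
    have : w = w0 M T := lf_inj (e.symm.trans hm)
    subst this
    have h1 := (minIn_iff M).1 q2 t ht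
    have h2 := ln_le_w0 M hT (mul_mem hw (simple_mem' (q1 ht)))
    omega
  · rintro q ⟨q1, q2, -⟩ hq
    exact ih _ (hn ▸ Finset.card_lt_card ⟨q1.1, fun h => q2 (q1.eq_of_subset h)⟩) q hq rfl

/-- The elements below `m`. -/
def Below (T : Finset S) (m k : Art M) : Prop :=
  ∃ l : List S, (∀ x ∈ l, x ∈ T) ∧ k = m * (wA M l)⁻¹

theorem Below.len {T : Finset S} {m k : Art M} (h : Below T m k) : lenA M k ≤ lenA M m := by
  obtain ⟨l, -, rfl⟩ := h
  rw [lenA_mul, lenA_inv, lenA_wA]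
  omega

theorem below_iff {μ : Mass M} (hG : μ.Good) {T : Finset S} (hT : Spherical M T) {m k : Art M} :
    Below T m k ↔ μ.InI 1 T 0 (lf M (w0 M T) * m⁻¹ * k) := by
  rw [Mass.inI_top hG hT]
  refine exists_congr fun l => and_congr_right fun _ => ?_
  rw [mul_assoc, mul_right_inj, inv_mul_eq_iff_eq_mul]

theorem below_wc {μ : Mass M} (hG : μ.Good) {T : Finset S} (hT : Spherical M T) (m : Art M) :
    ((SC.flag (SalTLE M)).full {q | q.1.2 ⊆ T ∧ Below T m (q.1.1 * lf M (w0 M q.1.2))}).WC := by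
  have hO : μ.Out 1 T 0 := fun t _ _ q _ => μ.base q t
  have Y3 : ∀ (k : Art M) (X : Finset S), X ⊆ T → Below T m (k * lf M (w0 M X)) → ∀ w ∈ WP M X,
      Below T m (k * lf M w) := by
    intro k X hX h w hw
    have hXs := Spherical.mono M hX hT
    have hu := mul_mem (inv_mem hw) (w0_mem M hXs)
    have e : lf M (w0 M X) = lf M w * lf M (w⁻¹ * w0 M X) := by
      rw [← lf_mul M (by rw [mul_inv_cancel_left, w0_left M hXs hw]), mul_inv_cancel_left]
    have := ((below_iff hG hT).1 h).down_lf hG hO (WP_mono M hX hu)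
    rw [below_iff hG hT]
    convert this using 1
    rw [e]
    simp only [mul_assoc, mul_inv_cancel, mul_one]
  refine cells_wc _ m (lenA M m) ?_ ?_ ?_ ?_ ?_ fun p _ hp => bd_wc p hp
  · rintro q ⟨q1, q2⟩
    simpa [lf_one] using (Y3 _ _ q1 q2 1 (one_mem _)).len
  · rintro q ⟨q1, q2⟩ - q' ⟨a1, u, hu, a2, e⟩ -
    refine ⟨a1.trans q1, ?_⟩
    have hw := w0_mem M q'.2
    rw [e, mul_assoc, ← lf_mul M (a2.add hw)]
    exact Y3 _ _ q1 q2 _ (mul_mem hu (WP_mono M a1 hw))
  · rintro q ⟨q1, q2⟩ - hm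
    have hq := Y3 _ _ q1 q2 1 (one_mem _)
    rw [lf_one, mul_one] at hq
    have hA := Spherical.mono M (Finset.filter_subset (fun s => Below T m (q.1.1 * sg M s)) T) hT
    refine ⟨⟨(q.1.1, T.filter fun s => Below T m (q.1.1 * sg M s)), hA⟩,
      ⟨Finset.filter_subset _ _, ?_⟩, rfl, ?_, ?_⟩
    · rw [below_iff hG hT, ← mul_assoc]
      refine Mass.up_closed hG hT hO ((below_iff hG hT).1 hq) (Finset.filter_subset _ _)
        (fun s hs => ?_) (w0_mem M hA)
      rw [mul_assoc]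
      exact (below_iff hG hT).1 (Finset.mem_filter.1 hs).2
    · obtain ⟨l, hl, e⟩ := hq
      cases l with
      | nil => exact absurd (by simpa [wA_nil] using e) hm
      | cons s l =>
        refine ⟨s, Finset.mem_filter.2 ⟨hl s (by simp), l, fun x hx => hl x (by simp [hx]), ?_⟩⟩
        rw [e, wA_cons]
        simp [mul_assoc]
    · rintro b ⟨b1, b2⟩ hb t ht
      have := Y3 _ _ b1 b2 _ (simple_mem' ht)
      rw [lf_simple, hb] at this
      exact Finset.mem_filter.2 ⟨b1 ht, this⟩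
  · refine ⟨Finset.empty_subset _, [], by simp, ?_⟩
    have := AP_empty M (lf_mem M (w0_mem M (spherical_empty M)))
    simp only [this, wA_nil, inv_one]
  · rintro q ⟨q1, q2⟩ ⟨t, ht⟩ e
    have := (Y3 _ _ q1 q2 _ (simple_mem' ht)).len
    rw [lf_simple, e, lenA_mul, lenA_sg] at this
    omega

theorem deligne {μ : Mass M} (hG : μ.Good) {T : Finset S} (hT : Spherical M T) (h : Art M) :
    ((SC.flag (SalTLE M)).full {q | q.1.2 ⊆ T ∧ h⁻¹ * q.1.1 ∈ AP M T}).WC := by
  refine SC.wc_of_local _ ⟨⟨(h, ∅), spherical_empty M⟩, SC.flg_single _ _, fun v hv => by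
    rw [Finset.mem_singleton.1 hv]
    exact ⟨Finset.empty_subset _, by simp⟩⟩ fun F => ?_
  have hex : ∀ q : SalT M, ∃ N : ℕ, q.1.2 ⊆ T ∧ h⁻¹ * q.1.1 ∈ AP M T → ∀ N', N ≤ N' →
      Below T (h * lf M (w0 M T) ^ N') (q.1.1 * lf M (w0 M q.1.2)) := by
    intro q
    by_cases hq : q.1.2 ⊆ T ∧ h⁻¹ * q.1.1 ∈ AP M T
    swap
    · exact ⟨0, fun h => absurd h hq⟩
    obtain ⟨N, l, hl, e⟩ := AP_frac M hT
      (mul_mem hq.2 (lf_mem M (WP_mono M hq.1 (w0_mem M q.2))))
    refine ⟨N, fun _ N' hN => ?_⟩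
    obtain ⟨k, rfl⟩ := Nat.exists_eq_add_of_le hN
    obtain ⟨l', hl', e'⟩ := pow_w0_word M hT k
    refine ⟨l ++ l', fun x hx => (List.mem_append.1 hx).elim (hl x) (hl' x), ?_⟩
    rw [mul_assoc, inv_mul_eq_iff_eq_mul] at e
    rw [e, pow_add, e', wA_append]
    simp [mul_assoc]
  choose N hN using hex
  refine ⟨_, below_wc hG hT (h * lf M (w0 M T) ^ F.sup N), fun a ha => ⟨ha.1, fun q hq => ?_⟩,
    fun a haF ha => ⟨ha.1, fun q hq => ⟨(ha.2 q hq).1,
      hN q (ha.2 q hq) _ (Finset.le_sup (haF hq))⟩⟩⟩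
  obtain ⟨q1, l, hl, e⟩ := ha.2 q hq
  refine ⟨q1, ?_⟩
  rw [eq_mul_inv_of_mul_eq e, mul_assoc, mul_assoc, inv_mul_cancel_left]
  exact mul_mem (pow_mem (lf_mem M (w0_mem M hT)) _) (mul_mem (inv_mem (wA_mem M hl))
    (inv_mem (lf_mem M (WP_mono M q1 (w0_mem M q.2)))))

end Vale.Agent.P203
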