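import Vale.Agent.P203.Mu

/-! Part IfB: pushing and the diamond property. -/

namespace Vale.Agent.P203
open Classical CoxeterSystem

variable {S : Type} [Fintype S] [DecidableEq S] {M : CoxeterMatrix S} {h g : Art M}
  {J K : Finset S} {n : ℕ} {l : List S} {Q : Rp (UG M)}

omit [Fintype S] in
theorem spherical_pair {s t : S} (h : M s t ≠ 0) : Spherical M {s, t} := by
  set a := M.simple s with ha
  set b := M.simple t with hb
  have haa : a * a = 1 := (cs M).simple_mul_simple_self s
  have hbb : b * b = 1 := (cs M).simple_mul_simple_self t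
  have hr : (a * b) ^ M s t = 1 := (cs M).simple_mul_simple_pow s t
  have hfin : IsOfFinOrder (a * b) :=
    isOfFinOrder_iff_pow_eq_one.2 ⟨_, Nat.pos_of_ne_zero h, hr⟩
  have hinv : (a * b)⁻¹ = b * a := by
    rw [mul_inv_rev, inv_eq_of_mul_eq_one_right haa, inv_eq_of_mul_eq_one_right hbb]
  have key : ∀ w ∈ WP M {s, t}, w ∈ Subgroup.zpowers (a * b) ∨ w * a ∈ Subgroup.zpowers (a * b) := by
    have step : ∀ w y, y ∈ M.simple '' (({s, t} : Finset S) : Set S) →
        (w ∈ Subgroup.zpowers (a * b) ∨ w * a ∈ Subgroup.zpowers (a * b)) →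
        (w * y ∈ Subgroup.zpowers (a * b) ∨ w * y * a ∈ Subgroup.zpowers (a * b)) := by
      rintro w y ⟨x, hx, rfl⟩ hw
      have hx' : x = s ∨ x = t := by simpa using hx
      rcases hx' with rfl | rfl
      · rcases hw with hw | hw
        · right; rwa [mul_assoc, haa, mul_one]
        · left; exact hw
      · rcases hw with hw | hw
        · right
          rw [mul_assoc, ← hb, ← hinv]
          exact mul_mem hw (inv_mem (Subgroup.mem_zpowers _))
        · left
          have := mul_mem hw (Subgroup.mem_zpowers (a * b))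
          rwa [mul_assoc, ← mul_assoc a a, haa, one_mul] at this
    intro w hw
    induction hw using Subgroup.closure_induction_right with
    | one => exact Or.inl (one_mem _)
    | mul_right x _ y hy ih => exact step x y hy ih
    | mul_inv_cancel x _ y hy ih =>
      have : y⁻¹ = y := by
        obtain ⟨z, _, rfl⟩ := hy
        exact (cs M).inv_simple z
      rw [this]; exact step x y hy ih
  have hZ : (Subgroup.zpowers (a * b) : Set M.Group).Finite := hfin.finite_zpowers
  have : (WP M {s, t} : Set M.Group).Finite :=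
    (hZ.union (hZ.image (· * a))).subset fun w hw => (key w hw).imp id fun hw' =>
      ⟨w * a, hw', by simp [mul_assoc, haa]⟩
  exact this

theorem sigW_w0 (hK : Spherical M K) (hr : (cs M).IsReduced l) (e : (cs M).wordProd l = w0 M K)
    (h0 : Van K Q) : ∀ s ∈ K, wd M (sigW M l Q) s = 0 := by
  refine socle hK (h0.sigW (reduced_mem M hr (e ▸ w0_mem M hK))) fun s hs v hv => ?_
  obtain ⟨l', hl', e'⟩ := (cs M).exists_isReduced ((M.simple s)⁻¹ * w0 M K)
  have h1 := w0_left M hK ((simple_mem_iff M).2 hs)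
  have e2 : wA M l = wA M (s :: l') := by
    rw [wA_cons, ← lf_eq M hr, ← lf_eq M hl', ← e', e, ← lf_simple, ← lf_mul]
    · simp
    · simpa using h1.symm
  exact (sigW_congr e2 Q).mono.outInj (Rp.outInj_sig _ hv)

theorem Mass.Low.mono {μ : Mass M} {n' : ℕ} {t : S} (h : μ.Low g n t) (hn : n ≤ n') :
    μ.Low g n' t := fun q hq => h q (by omega)

theorem low_coset {μ : Mass M} {k : Art M} (hk : k ∈ AP M K) {t : S} (ht : t ∉ K) :
    μ.Low (g * k) n t ↔ μ.Low g n t :=
  forall₂_congr fun q _ => by rw [μ.hh_coset hk ht]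

theorem mu_push (hO : (mu M).Out h J n) (hKJ : K ⊆ J) (hK : Spherical M K)
    (hg : h⁻¹ * g ∈ AP M J) (h1 : ∀ t ∈ J, t ∉ K → (mu M).Low g n t) :
    ∃ k ∈ AP M K, (mu M).InI h J n (g * k) := by
  obtain ⟨d, hd⟩ : ∃ d : ℕ, ∀ t ∈ K, (mu M).Low g (n + d) t := by
    obtain ⟨q0, hq⟩ := (mu M).bdd g
    exact ⟨q0.natAbs, fun t _ q hq' => hq q (by omega) t⟩
  induction d generalizing g with
  | zero =>
    refine ⟨1, one_mem _, by simpa using hg, fun t ht => ?_⟩
    rw [mul_one]
    by_cases htK : t ∈ K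
    · exact hd t htK
    · exact h1 t ht htK
  | succ d ih =>
    obtain ⟨l, hl, e⟩ := (cs M).exists_isReduced (w0 M K)
    have hlK := reduced_mem M hl (e ▸ w0_mem M hK)
    have hout : ∀ t, t ∉ K → (∃ s ∈ K, Ed M s t) → (mu M).Low g n t := by
      rintro t ht ⟨s, hs, hst⟩
      by_cases htJ : t ∈ J
      · exact h1 t htJ ht
      · exact hO.shift hg t htJ ⟨s, hKJ hs, hst⟩
    have hO' : (mu M).Out g K (n + (d + 1)) := fun t ht hs => (hout t ht hs).mono (by omega)
    obtain ⟨N, hN⟩ := exists_hIs (XX M g) (-((n + (d + 1) : ℕ) : ℤ))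
    have hI : (mu M).InI g K (n + (d + 1)) g := ⟨by simp, hd⟩
    obtain ⟨h2, h3⟩ := hIs_down hO' hI hlK hN
    have hV : Van K N := ⟨by rw [hN.dm_eq, hd_XX_o, if_neg (by omega)], fun t ht hs => by
      rw [← bb_eq hN]
      exact hout t ht hs _ (by omega)⟩
    have hw : (wA M l)⁻¹ ∈ AP M K := inv_mem (wA_mem M hlK)
    obtain ⟨k, hk, hk'⟩ := ih (g := g * (wA M l)⁻¹)
      (by rw [← mul_assoc]; exact mul_mem hg (AP_mono M hKJ hw))
      (fun t ht htK => (low_coset hw htK).2 (h1 t ht htK)) (fun t ht q hq => by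
        by_cases hq' : q = -((n + (d + 1) : ℕ) : ℤ)
        · rw [hq']
          exact (bb_eq h3 t).trans (sigW_w0 hK hl e.symm hV t ht)
        · exact h2.2 t ht q (by omega))
    exact ⟨(wA M l)⁻¹ * k, mul_mem hw hk, by rwa [← mul_assoc]⟩

theorem mu_diamond (hO : (mu M).Out h J n) (hKJ : K ⊆ J) (hK : Spherical M K)
    (hg : (mu M).InI h J n g) (h1 : ∀ s ∈ K, (mu M).InI h J n (g * sg M s)) :
    ∀ w ∈ WP M K, (mu M).InI h J n (g * lf M w) := by
  obtain ⟨N, hN⟩ := exists_hIs (XX M g) (-(n : ℤ))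
  have key : ∀ l : List S, (cs M).IsReduced l → (∀ x ∈ l, x ∈ K) →
      (mu M).InI h J n (g * wA M l) := by
    intro l
    induction l using List.reverseRecOn with
    | nil => intro _ _; simpa [wA_nil] using hg
    | append_singleton l x ih =>
      intro hr hl
      have hl' : ∀ y ∈ l, y ∈ K := fun y hy => hl y (List.mem_append_left _ hy)
      have hx : x ∈ K := hl x (by simp)
      have h2 := ih (by simpa using hr.take l.length) hl'
      obtain ⟨N', hN'⟩ := exists_hIs (XX M (g * wA M l)) (-(n : ℤ))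
      have h3 := (hIs_down hO h2 (fun y hy => hKJ (hl' y hy)) hN').2
      rw [mul_inv_cancel_right] at h3
      have h4 := inI_up hO h2 (hKJ hx) hN' (outInj_of_sigW hK hx hl' hr fun t ht =>
        outInj_of_low ((h1 t ht).2 t (hKJ ht)) h3)
      rwa [wA_append, wA_cons, wA_nil, mul_one, ← mul_assoc]
  intro w hw
  obtain ⟨l, hl, e⟩ := (cs M).exists_isReduced w
  rw [e, lf_eq M hl]
  exact key l hl (reduced_mem M hl (e ▸ hw))

end Vale.Agent.P203
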