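import Vale.Agent.P203.IfB
import Vale.Agent.P203.Apt

/-! Part IfC: the antipodal case. -/

namespace Vale.Agent.P203
open Classical CoxeterSystem

variable {S : Type} [Fintype S] [DecidableEq S] {M : CoxeterMatrix S} {h k : Art M}
  {J : Finset S} {n : ℕ} {c : S → ℝ} {s t t' x : S} {u v : M.Group} {lam : ℝ} {X : Rp (UG M)}

/-- The chosen reduced word. -/
noncomputable def rw0 (u : M.Group) : List S := ((cs M).exists_isReduced u).choose

omit [Fintype S] [DecidableEq S] in
theorem rw0_red (u : M.Group) : (cs M).IsReduced (rw0 u) :=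
  ((cs M).exists_isReduced u).choose_spec.1

omit [Fintype S] [DecidableEq S] in
theorem rw0_eq (u : M.Group) : (cs M).wordProd (rw0 u) = u :=
  ((cs M).exists_isReduced u).choose_spec.2.symm

omit [Fintype S] in
theorem rw0_mem (hu : u ∈ WP M J) : ∀ x ∈ rw0 u, x ∈ J :=
  reduced_mem M (rw0_red u) (by rwa [rw0_eq])

/-- The apartment function of a representation. -/
noncomputable def gam (c : S → ℝ) (X : Rp (UG M)) (u : M.Group) (t : S) : ℝ :=
  wd M (sigW M (rw0 u) X) t - c t

/-- The slack of the threshold. -/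
noncomputable def slack (J : Finset S) (c : S → ℝ) (X : Rp (UG M)) (s : S) : ℝ :=
  (∑ t ∈ Finset.univ.erase s, aa M s t * if t ∈ J then c t else wd M X t) +
    DW M * X.dm (UG M).o - 2 * c s

theorem sig_up (X : Rp (UG M)) (h : ln M u < ln M (M.simple x * u)) :
    (sigW M (rw0 (M.simple x * u)) X).Iso ((sigW M (rw0 u) X).sig (fib M x)) := by
  refine sigW_congr (l' := x :: rw0 u) ?_ X
  have h1 := (cs M).length_simple_mul u x
  have h2 : ln M (M.simple x) = 1 := (cs M).length_simple x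
  have := lf_mul M (u := M.simple x) (v := u) (by
    change ln M (M.simple x * u) = ln M u + 1 ∨ ln M (M.simple x * u) + 1 = ln M u at h1
    omega)
  rw [lf_simple] at this
  rw [wA_cons]
  exact this

theorem gam_one (X : Rp (UG M)) (t : S) : gam c X 1 t = wd M X t - c t := by
  have : (sigW M (rw0 (1 : M.Group)) X).Iso (sigW M [] X) :=
    sigW_congr (l := rw0 (1 : M.Group)) (l' := []) (lf_one M) X
  rw [gam, this.wd_eq, sigW_nil]

omit [Fintype S] [DecidableEq S] in
theorem ln_cases (u : M.Group) (x : S) : ln M u < ln M (M.simple x * u) ∨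
    ln M (M.simple x * u) < ln M (M.simple x * (M.simple x * u)) := by
  have h1 := (cs M).length_simple_mul u x
  have e : M.simple x * (M.simple x * u) = u := (cs M).simple_mul_simple_cancel_left x
  rw [e]
  change ln M (M.simple x * u) = ln M u + 1 ∨ ln M (M.simple x * u) + 1 = ln M u at h1
  omega

theorem gam_off (X : Rp (UG M)) (u : M.Group) (h : t ≠ x) :
    gam c X (M.simple x * u) t = gam c X u t := by
  have e : M.simple x * (M.simple x * u) = u := (cs M).simple_mul_simple_cancel_left x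
  rcases ln_cases u x with h1 | h1
  · rw [gam, gam, (sig_up X h1).wd_eq, wd_sig_off _ h]
  · have := (sig_up X h1).wd_eq t
    rw [e, wd_sig_off _ h] at this
    rw [gam, gam, this]

theorem split_sum (X : Rp (UG M)) (hu : u ∈ WP M J) (x : S) :
    (∑ t ∈ Finset.univ.erase x, aa M x t * wd M (sigW M (rw0 u) X) t) +
      DW M * (sigW M (rw0 u) X).dm (UG M).o =
    (∑ t ∈ J.erase x, aa M x t * gam c X u t) + slack J c X x + 2 * c x := by
  have : ∑ t ∈ J.erase x, aa M x t * gam c X u t =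
      ∑ t ∈ Finset.univ.erase x, aa M x t * if t ∈ J then gam c X u t else 0 := by
    symm
    rw [← Finset.sum_subset (Finset.erase_subset_erase x (Finset.subset_univ J))]
    · exact Finset.sum_congr rfl fun t ht => by rw [if_pos (Finset.mem_of_mem_erase ht)]
    · intro t ht ht'
      rw [if_neg fun h => ht' (Finset.mem_erase.2 ⟨Finset.ne_of_mem_erase ht, h⟩), mul_zero]
  rw [this, slack, dm_sigW_o]
  have e : ∑ t ∈ Finset.univ.erase x, aa M x t * wd M (sigW M (rw0 u) X) t =
      (∑ t ∈ Finset.univ.erase x, aa M x t * if t ∈ J then gam c X u t else 0) +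
      ∑ t ∈ Finset.univ.erase x, aa M x t * if t ∈ J then c t else wd M X t := by
    rw [← Finset.sum_add_distrib]
    refine Finset.sum_congr rfl fun t _ => ?_
    by_cases ht : t ∈ J
    · simp only [ht, if_true, gam]; ring
    · simp only [ht, if_false]
      rw [wd_sigW_off _ fun h => ht (rw0_mem hu t h)]; ring
  rw [e]; ring

theorem kink_up (X : Rp (UG M)) (hu : u ∈ WP M J) (h : ln M u < ln M (M.simple x * u)) :
    slack J c X x ≤ gam c X u x + gam c X (M.simple x * u) x -
      ∑ t ∈ J.erase x, aa M x t * gam c X u t := by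
  have h1 := wd_sig_ge (sigW M (rw0 u) X) x
  rw [split_sum (c := c) X hu, ← (sig_up X h).wd_eq] at h1
  unfold gam at h1 ⊢
  linarith

theorem kink_eq (hu : u ∈ WP M J) (h : ln M u < ln M (M.simple x * u))
    (hI : ∀ v ∈ (fib M x).F, (sigW M (rw0 u) X).InOn v) :
    gam c X u x + gam c X (M.simple x * u) x - ∑ t ∈ J.erase x, aa M x t * gam c X u t =
      slack J c X x := by
  have h1 := wd_sig_eq hI
  rw [split_sum (c := c) X hu, ← (sig_up X h).wd_eq] at h1
  unfold gam at h1 ⊢
  linarith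

theorem kink_ge (X : Rp (UG M)) (hu : u ∈ WP M J) (hx : x ∈ J) :
    slack J c X x ≤ gam c X u x + gam c X (M.simple x * u) x -
      ∑ t ∈ J.erase x, aa M x t * gam c X u t := by
  rcases ln_cases u x with h1 | h1
  · exact kink_up X hu h1
  · have e : M.simple x * (M.simple x * u) = u := (cs M).simple_mul_simple_cancel_left x
    have := kink_up (c := c) X (mul_mem ((simple_mem_iff M).2 hx) hu) h1
    rw [e, Finset.sum_congr rfl fun t ht => by
      rw [gam_off X u (Finset.ne_of_mem_erase ht)]] at this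
    linarith

theorem gam_apt (h : ∀ x ∈ J, 0 ≤ slack J c X x) : Apt M J (gam c X) where
  eq u _ _ _ _ _ h := gam_off X u h
  wall u hu x hx := by have := kink_ge (c := c) X hu hx; have := h x hx; linarith

theorem orth {γ : M.Group → S → ℝ} (hA : Apt M J γ) (hs : s ∈ J) (ht : t ∈ J) (hu : u ∈ WP M J)
    (hl : 0 < lam)
    (hp : ∀ x ∈ J, ac M u (P035.ee x) (some t) = lam * P035.form M (P035.ee s) (P035.ee x))
    (h1 : γ u t ≤ 0) (h2 : γ (u * M.simple s) t ≤ 0) (hv : v ∈ WP M J) :
    P035.form M (P035.ee s) (ac M v⁻¹ (vec J (γ v))) = 0 := by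
  have lin : ∀ z : S → ℝ, ac M u (vec J z) (some t) = lam * P035.form M (P035.ee s) (vec J z) := by
    intro z
    simp only [vec, map_sum, map_smul, Finsupp.coe_finsetSum, Finset.sum_apply, Finset.mul_sum,
      Finsupp.coe_smul, Pi.smul_apply, smul_eq_mul]
    exact Finset.sum_congr rfl fun x hx => by rw [hp x hx]; ring
  have a1 := hA.max hv hu ht
  have a2 := hA.max hv (mul_mem hu ((simple_mem_iff M).2 hs)) ht
  have e : ac M v⁻¹ (vec J (γ v)) = _ := ac_vec M (inv_mem hv) (γ v)
  have e1 : ac M (u * v⁻¹) (vec J (γ v)) = ac M u (ac M v⁻¹ (vec J (γ v))) :=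
    P035.act_mul _ _ _ _
  have e2 : ac M (u * M.simple s * v⁻¹) (vec J (γ v)) = ac M u (ac M v⁻¹ (vec J (γ v)) -
      P035.form M (P035.ee s) (ac M v⁻¹ (vec J (γ v))) • P035.ee s) := by
    rw [← P035.refl_apply, ← P035.act_simple (cs M)]
    exact (P035.act_mul _ _ _ _).trans (P035.act_mul _ _ _ _)
  have e3 := lin fun t => ac M v⁻¹ (vec J (γ v)) (some t)
  rw [← e] at e3
  rw [e1, e3] at a1
  rw [e2, map_sub, map_smul, Finsupp.sub_apply, e3, Finsupp.smul_apply, hp s hs,
    P035.form_ee_self, smul_eq_mul] at a2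
  have : lam * P035.form M (P035.ee s) (ac M v⁻¹ (vec J (γ v))) = 0 := by linarith
  exact (mul_eq_zero.1 this).resolve_left hl.ne'

theorem slack_zero (hI : Irr M J) (hs : s ∈ J) (h0 : ∀ x ∈ J, 0 ≤ slack J c X x)
    (h : ∀ v ∈ WP M J, P035.form M (P035.ee s) (ac M v⁻¹ (vec J (gam c X v))) = 0) (hx : x ∈ J) :
    slack J c X x = 0 := by
  obtain ⟨w, hw, hne⟩ := path_root M hI hs hx
  have hw' := inv_mem hw
  have a1 := h _ hw'
  have a2 := h _ (mul_mem ((simple_mem_iff M).2 hx) hw')
  have e : ∀ y, ac M (M.simple x * w⁻¹)⁻¹ y = ac M w (ac M (M.simple x) y) := by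
    intro y
    have : (M.simple x)⁻¹ = M.simple x := (cs M).inv_simple x
    rw [mul_inv_rev, inv_inv, this]
    exact P035.act_mul _ _ _ _
  have e2 : ∀ y, ac M (M.simple x) (ac M (M.simple x) y) = y := by
    intro y
    have : M.simple x * M.simple x = 1 := (cs M).simple_mul_simple_self x
    rw [← P035.act_mul, this, P035.act_one]
  have e3 : ac M (M.simple x) (P035.ee x) = -P035.ee x := P035.act_simple_ee x
  rw [inv_inv] at a1
  rw [(gam_apt h0).kink hw' hx, e, map_add, e2, map_smul, e3, map_add, map_smul, map_add, a1,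
    map_smul, map_neg, map_neg, zero_add, smul_eq_mul, mul_neg, neg_eq_zero] at a2
  have := kink_ge (c := c) X hw' hx
  have h3 := (mul_eq_zero.1 a2).resolve_right hne
  have := h0 x hx
  linarith

theorem gam_lin (hJ : Spherical M J) (h0 : ∀ x ∈ J, slack J c X x = 0)
    (hX : ∀ t ∈ J, ∀ v ∈ (fib M t).F, X.InOn v) (l : List S) (hr : (cs M).IsReduced l)
    (hl : ∀ x ∈ l, x ∈ J) :
    vec J (gam c X ((cs M).wordProd l)) = ac M ((cs M).wordProd l) (vec J (gam c X 1)) := by
  induction l with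
  | nil => rw [wordProd_nil]; exact (P035.act_one _ _).symm
  | cons x l ih =>
    have hr' : (cs M).IsReduced l := by simpa using hr.drop 1
    have hl' : ∀ y ∈ l, y ∈ J := fun y hy => hl y (List.mem_cons_of_mem _ hy)
    have hx : x ∈ J := hl x List.mem_cons_self
    have hu := wordProd_mem M hl'
    have e : (cs M).wordProd (x :: l) = M.simple x * (cs M).wordProd l := wordProd_cons _ _ _
    have hlt : ln M ((cs M).wordProd l) < ln M (M.simple x * (cs M).wordProd l) := by
      rw [← e]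
      have a1 : ln M _ = _ := hr
      have a2 : ln M _ = _ := hr'
      rw [a1, a2]; simp
    have hI : ∀ v ∈ (fib M x).F, (sigW M (rw0 ((cs M).wordProd l)) X).InOn v := fun v hv =>
      (sigW_congr (lf_eq M hr').symm X).epi.inOn (inOn_sigW hJ hx hl' hr hX v hv)
    rw [e, (gam_apt fun y hy => (h0 y hy).ge).kink hu hx, kink_eq hu hlt hI, h0 x hx, zero_smul,
      add_zero, ih hr' hl']
    exact (P035.act_mul _ _ _ _).symm

theorem anti_core (hJ : Spherical M J) (hs : s ∈ J) (ht : t ∈ J) (ht' : t' ∈ J) (hE : Ed M s t')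
    (hu : u ∈ WP M J) (hl : 0 < lam)
    (hp : ∀ x ∈ J, ac M u (P035.ee x) (some t) = lam * P035.form M (P035.ee s) (P035.ee x))
    {s' : S} (hs' : s' ∈ J) (hw : ∀ x : S → ℝ, ac M (w0 M J) (vec J x) (some s') = -x t')
    (d : ℕ) : ∀ X : Rp (UG M), ∑ v, X.dm v = d → (∀ x ∈ J, slack J c X x = 0) →
      gam c X u t ≤ 0 → gam c X (u * M.simple s) t ≤ 0 →
      gam c X (w0 M J) s' = -gam c X 1 t' := by
  induction d using Nat.strong_induction_on with
  | _ d ih =>
  intro X hd h0 h1 h2
  by_cases hX : ∀ t ∈ J, ∀ v ∈ (fib M t).F, X.InOn v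
  · have := gam_lin hJ h0 hX _ (rw0_red (w0 M J)) (rw0_mem (w0_mem M hJ))
    rw [rw0_eq] at this
    rw [← hw, ← this, vec_apply, if_pos hs']
  push Not at hX
  obtain ⟨x, hx, _, ⟨b, rfl⟩, hv⟩ := hX
  obtain ⟨X', Q, f, g, hex, hlt, hoff, hQ⟩ := Rp.exists_rad hv
  have hne : ∀ y b', y ≠ x → (some (y, b') : (UG M).V) ≠ some (x, b) := by
    intro y b' hy e
    exact hy (congrArg Prod.fst (Option.some.inj e))
  have hwd : ∀ y, y ≠ x → wd M X' y = wd M X y := fun y hy =>
    wsum_congr fun b' => hoff _ (hne y b' hy)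
  have ho : (UG M).o ≠ some (x, b) := fun e => by cases e
  have h0' : ∀ y ∈ J, slack J c X' y = 0 := by
    intro y hy
    rw [← h0 y hy, slack, slack, hoff _ ho]
    congr 2
    refine Finset.sum_congr rfl fun z _ => ?_
    by_cases hz : z ∈ J
    · simp [hz]
    · simp only [hz, if_false]
      rw [hwd z fun e => hz (e ▸ hx)]
  have hle : ∀ w y, gam c X' w y ≤ gam c X w y := fun w y =>
    sub_le_sub_right ((hex.mono.sigW _).wd_le y) _
  have hI := ih _ (by
    rw [← hd]
    exact Finset.sum_lt_sum (fun v _ => hex.mono.dm_le v) ⟨_, Finset.mem_univ _, hlt⟩) X' rfl h0'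
    ((hle _ _).trans h1) ((hle _ _).trans h2)
  have e1 : gam c X (w0 M J) s' = gam c X' (w0 M J) s' := by
    refine le_antisymm (sub_le_sub_right ?_ _) (hle _ _)
    obtain ⟨f', g', hex'⟩ := hex.sigW (rw0 (w0 M J))
    have hz := sigW_w0 hJ (rw0_red _) (rw0_eq _) (Q := Q) ⟨hQ _ ho, fun y hy _ =>
      wsum_eq_zero_iff.2 fun b' => hQ _ (hne y b' fun e => hy (e ▸ hx))⟩ s' hs'
    refine wsum_mono fun b' => ?_
    have a1 := hex'.dm_le (some (s', b'))
    have a2 := wsum_eq_zero_iff.1 hz b'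
    omega
  have e2 : gam c X 1 t' = gam c X' 1 t' := by
    by_cases hxt : t' = x
    · subst hxt
      exfalso
      have o1 := orth (gam_apt fun y hy => (h0 y hy).ge) hs ht hu hl hp h1 h2 (one_mem _)
      have o2 := orth (gam_apt fun y hy => (h0' y hy).ge) hs ht hu hl hp ((hle _ _).trans h1)
        ((hle _ _).trans h2) (one_mem _)
      rw [inv_one, P035.act_one, form_vec M _ _ hs] at o1 o2
      have a0 : gam c X' 1 s = gam c X 1 s := by rw [gam_one, gam_one, hwd s hE.1]
      have a1 : ∑ y ∈ J.erase s, aa M s y * gam c X' 1 y <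
          ∑ y ∈ J.erase s, aa M s y * gam c X 1 y := by
        refine Finset.sum_lt_sum (fun y hy => mul_le_mul_of_nonneg_left (hle _ _)
          (aa_nonneg M (Finset.ne_of_mem_erase hy).symm))
          ⟨t', Finset.mem_erase.2 ⟨hE.1.symm, ht'⟩, mul_lt_mul_of_pos_left ?_
            (lt_of_le_of_ne (aa_nonneg M hE.1) fun e => hE.2 ((aa_eq_zero_iff M hE.1).1 e.symm))⟩
        rw [gam_one, gam_one]
        exact sub_lt_sub_right (wsum_lt (fun _ => hex.mono.dm_le _) ⟨b, hlt⟩) _
      linarith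
    · rw [gam_one, gam_one, hwd t' hxt]
  rw [e1, e2, hI]

theorem mu_anti (hA : (mu M).Adm h J n c) (hJ : Spherical M J) (hI : Irr M J)
    (hk : (mu M).InI h J n k) (hs : s ∈ J) (ht : t ∈ J) (ht' : t' ∈ J) (hE : Ed M s t')
    (hu : u ∈ WP M J) (hl : 0 < lam)
    (h0 : ∀ v ∈ WP M J, ∀ x ∈ J, c x ≤ (mu M).bb (k * (lf M v)⁻¹) n x)
    (hp : ∀ x ∈ J, ac M u (P035.ee x) (some t) = lam * P035.form M (P035.ee s) (P035.ee x))
    (h1 : (mu M).bb (k * (lf M u)⁻¹) n t = c t)
    (h2 : (mu M).bb (k * (lf M (u * M.simple s))⁻¹) n t = c t) : (mu M).bb k n t' = c t' := by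
  obtain ⟨N, hN⟩ := exists_hIs (XX M k) (-(n : ℤ))
  have hg : ∀ v ∈ WP M J, ∀ x, gam c N v x = (mu M).bb (k * (lf M v)⁻¹) n x - c x := by
    intro v hv x
    rw [gam, ← bb_eq (hIs_down hA.1 hk (rw0_mem hv) hN).2]; rfl
  have hsl : ∀ x ∈ J, 0 ≤ slack J c N x := by
    intro x hx
    have := hA.2 x hx
    rw [slack, dm_o_eq hN, sub_nonneg]
    refine this.trans (le_of_eq ?_)
    congr 1
    refine Finset.sum_congr rfl fun y _ => ?_
    by_cases hy : y ∈ J
    · simp [hy]
    · simp only [hy, if_false]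
      have := (mu M).hh_coset (g := h) hk.1 hy (-(n : ℤ))
      rw [mul_inv_cancel_left] at this
      rw [← bb_eq hN]
      exact congrArg _ this.symm
  have hus := mul_mem hu ((simple_mem_iff M).2 hs)
  have a1 : gam c N u t ≤ 0 := by rw [hg u hu, h1, sub_self]
  have a2 : gam c N (u * M.simple s) t ≤ 0 := by rw [hg _ hus, h2, sub_self]
  have hz : ∀ x ∈ J, slack J c N x = 0 := fun x hx =>
    slack_zero hI hs hsl (fun v hv => orth (gam_apt hsl) hs ht hu hl hp a1 a2 hv) hx
  obtain ⟨s', hs', -, -, -, -, hw⟩ := w0_star M hJ ht'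
  have := anti_core hJ hs ht ht' hE hu hl hp hs' hw _ N rfl hz a1 a2
  rw [hg _ (w0_mem M hJ), hg _ (one_mem _), lf_one, inv_one, mul_one] at this
  have b1 := h0 _ (w0_mem M hJ) s' hs'
  have b2 := h0 _ (one_mem _) t' ht'
  rw [lf_one, inv_one, mul_one] at b2
  linarith

end Vale.Agent.P203
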