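import Vale.Agent.P203.SphA
import Vale.Agent.P203.CoxD
import Vale.Agent.P203.SCc

/-! Part Lk: links in the Artin complex, the strengthened property (C), reducible diagrams. -/

namespace Vale.Agent.P203
open Classical CoxeterSystem

variable {S : Type} [Fintype S] [DecidableEq S] {M : CoxeterMatrix S}

theorem vtx_eq_iff {g g' : Art M} {t : S} :
    vtx M g t = vtx M g' t ↔ g⁻¹ * g' ∈ AP M (Finset.univ.erase t) := by
  simp only [vtx]
  rw [← QuotientGroup.eq]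
  constructor
  · intro h
    exact eq_of_heq (Sigma.mk.inj h).2
  · intro h
    rw [h]

theorem vtx_of_mem {g g' : Art M} {K : Finset S} (h : g⁻¹ * g' ∈ AP M K) {t : S} (ht : t ∉ K) :
    vtx M g t = vtx M g' t :=
  vtx_eq_iff.2 (AP_mono M (fun x hx => Finset.mem_erase.2
    ⟨fun (e : x = t) => ht (e ▸ hx), Finset.mem_univ _⟩) h)

theorem cos_trans {H : Subgroup (Art M)} {a b c : Art M} (h1 : a⁻¹ * b ∈ H) (h2 : b⁻¹ * c ∈ H) :
    a⁻¹ * c ∈ H := by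
  have := mul_mem h1 h2
  simpa [mul_assoc] using this

theorem cos_symm {H : Subgroup (Art M)} {a b : Art M} (h1 : a⁻¹ * b ∈ H) : b⁻¹ * a ∈ H := by
  have := inv_mem h1
  simpa using this

theorem cos_refl {H : Subgroup (Art M)} (a : Art M) : a⁻¹ * a ∈ H := by simp

theorem cos_mul {H : Subgroup (Art M)} (a : Art M) {k : Art M} (hk : k ∈ H) :
    a⁻¹ * (a * k) ∈ H := by simpa using hk

theorem Dl_mono {h : Art M} {J K : Finset S} (hJ : J ⊆ K) {a : Finset (Vt M)}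
    (ha : (Dl M h J).face a) : (Dl M h K).face a := by
  obtain ⟨g, hg, ha⟩ := ha
  exact ⟨g, AP_mono M hJ hg, fun y hy => ⟨hJ (ha y hy).1, (ha y hy).2⟩⟩

theorem Dl_pair {h g : Art M} {J : Finset S} (hg : h⁻¹ * g ∈ AP M J) {s t : S} (hs : s ∈ J)
    (ht : t ∈ J) : (Dl M h J).face {vtx M g s, vtx M g t} := by
  refine ⟨g, hg, fun y hy => ?_⟩
  rcases Finset.mem_insert.1 hy with rfl | hy
  · exact ⟨hs, rfl⟩
  · rw [Finset.mem_singleton.1 hy]
    exact ⟨ht, rfl⟩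

theorem Dl_single {h : Art M} {J : Finset S} {y : Vt M} :
    (Dl M h J).face {y} ↔ ∃ g, h⁻¹ * g ∈ AP M J ∧ y.1 ∈ J ∧ y = vtx M g y.1 := by
  simp [Dl]

theorem Dl_congr {h g : Art M} {J : Finset S} (hg : h⁻¹ * g ∈ AP M J) : Dl M g J = Dl M h J := by
  refine SC.ext' fun a => exists_congr fun k => and_congr_left fun _ => ?_
  exact ⟨cos_trans hg, cos_trans (cos_symm hg)⟩

theorem Dl_link {h g : Art M} {J : Finset S} (hg : h⁻¹ * g ∈ AP M J) {s : S} (hs : s ∈ J) :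
    (Dl M h J).link (vtx M g s) = Dl M g (J.erase s) := by
  refine SC.ext' fun a => ⟨?_, ?_⟩
  · rintro ⟨hn, k, hk, ha⟩
    have e : vtx M g s = vtx M k s := (ha _ (Finset.mem_insert_self _ _)).2
    have h1 := AP_inter M (cos_trans (cos_symm hg) hk) (vtx_eq_iff.1 e)
    refine ⟨k, AP_mono M (fun x hx => ?_) h1, fun y hy => ?_⟩
    · simp only [Finset.mem_inter, Finset.mem_erase] at hx ⊢
      exact ⟨hx.2.1, hx.1⟩
    · have := ha y (Finset.mem_insert_of_mem hy)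
      refine ⟨Finset.mem_erase.2 ⟨fun e' => hn ?_, this.1⟩, this.2⟩
      rw [e, ← e', ← this.2]
      exact hy
  · rintro ⟨k, hk, ha⟩
    refine ⟨fun hy => (Finset.mem_erase.1 (ha _ hy).1).1 rfl, k,
      cos_trans hg (AP_mono M (Finset.erase_subset _ _) hk), fun y hy => ?_⟩
    rcases Finset.mem_insert.1 hy with rfl | hy
    · exact ⟨hs, vtx_of_mem hk (Finset.notMem_erase _ _)⟩
    · exact ⟨Finset.mem_of_mem_erase (ha y hy).1, (ha y hy).2⟩

theorem Dl_type_ne {h : Art M} {J : Finset S} {a b : Vt M} (hab : a ≠ b)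
    (hf : (Dl M h J).face {a, b}) : a.1 ≠ b.1 := by
  obtain ⟨g, -, hf⟩ := hf
  intro e
  apply hab
  rw [(hf a (by simp)).2, (hf b (by simp)).2, e]

theorem Dl_conn {h : Art M} {J : Finset S} (hJ : 2 ≤ J.card) {a b : Vt M}
    (ha : (Dl M h J).face {a}) (hb : (Dl M h J).face {b}) : (Dl M h J).Conn a b := by
  have hsym : ∀ {x y : Vt M}, (Dl M h J).Conn x y → (Dl M h J).Conn y x := by
    intro x y hxy
    induction hxy with
    | refl => exact Relation.ReflTransGen.refl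
    | tail _ huv ih => exact ih.head (by rwa [Finset.pair_comm])
  have key : ∀ k ∈ AP M J, ∀ g, h⁻¹ * g ∈ AP M J → ∀ s ∈ J, ∀ t ∈ J,
      (Dl M h J).Conn (vtx M g s) (vtx M (g * k) t) := by
    intro k hk
    induction hk using Subgroup.closure_induction with
    | mem x hx =>
      obtain ⟨u, hu, rfl⟩ := hx
      intro g hg s hs t ht
      obtain ⟨t', ht', hne⟩ := Finset.exists_mem_ne (by omega : 1 < J.card) u
      have e : vtx M g t' = vtx M (g * sg M u) t' :=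
        vtx_of_mem (cos_mul g (sg_mem M (Finset.mem_singleton_self u)))
          (by simpa using hne)
      refine (Relation.ReflTransGen.single (Dl_pair hg hs ht')).tail ?_
      rw [e]
      exact Dl_pair (cos_trans hg (cos_mul g (sg_mem M hu))) ht' ht
    | one =>
      intro g hg s hs t ht
      rw [mul_one]
      exact Relation.ReflTransGen.single (Dl_pair hg hs ht)
    | mul x y hx _ ihx ihy =>
      intro g hg s hs t ht
      rw [← mul_assoc]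
      exact (ihx g hg s hs s hs).trans (ihy _ (cos_trans hg (cos_mul g hx)) s hs t ht)
    | inv x hx ih =>
      intro g hg s hs t ht
      have := ih (g * x⁻¹) (cos_trans hg (cos_mul g (inv_mem hx))) t ht s hs
      rw [inv_mul_cancel_right] at this
      exact hsym this
  obtain ⟨g, hg, hs, e⟩ := Dl_single.1 ha
  obtain ⟨g', hg', ht, e'⟩ := Dl_single.1 hb
  have := key _ (cos_trans (cos_symm hg) hg') g hg _ hs _ ht
  rwa [mul_inv_cancel_left, ← e, ← e'] at this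

/-- Left translation of vertices. -/
def vtr (k : Art M) (y : Vt M) : Vt M := ⟨y.1, k • y.2⟩

theorem vtr_vtx (k g : Art M) (t : S) : vtr k (vtx M g t) = vtx M (k * g) t := rfl

theorem vtr_vtr (k k' : Art M) (y : Vt M) : vtr k (vtr k' y) = vtr (k * k') y := by
  simp only [vtr, mul_smul]
  rfl

theorem vtr_one (y : Vt M) : vtr 1 y = y := by
  simp only [vtr, one_smul]
  rfl

theorem vtr_face {h h' k : Art M} (e : h' = k * h) {J : Finset S} (a : Finset (Vt M))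
    (ha : (Dl M h J).face a) : (Dl M h' J).face (a.image (vtr k)) := by
  obtain ⟨g, hg, ha⟩ := ha
  refine ⟨k * g, by simpa [e, mul_assoc] using hg, fun y hy => ?_⟩
  obtain ⟨z, hz, rfl⟩ := Finset.mem_image.1 hy
  refine ⟨(ha z hz).1, ?_⟩
  show vtr k z = vtx M (k * g) z.1
  rw [← vtr_vtx, ← (ha z hz).2]

theorem Dl_restrict {h : Art M} {J1 J2 : Finset S} (hd : Disjoint J1 J2)
    (hc : ∀ s ∈ J1, ∀ t ∈ J2, M s t = 2) {a : Finset (Vt M)} (ha : (Dl M h (J1 ∪ J2)).face a)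
    (h1 : ∀ y ∈ a, y.1 ∈ J1) : (Dl M h J1).face a := by
  obtain ⟨g, hg, ha⟩ := ha
  obtain ⟨g1, m1, g2, m2, e⟩ := AP_union M hc hg
  refine ⟨h * g1, cos_mul h m1, fun y hy => ⟨h1 y hy, (ha y hy).2.trans (vtx_of_mem (K := J2) ?_
    (Finset.disjoint_left.1 hd (h1 y hy)))⟩⟩
  rw [inv_mul_eq_iff_eq_mul.1 e, ← mul_assoc h g1 g2]
  exact cos_symm (cos_mul _ m2)

theorem Dl_join {h : Art M} {J1 J2 : Finset S} (hd : Disjoint J1 J2)
    (hc : ∀ s ∈ J1, ∀ t ∈ J2, M s t = 2) {a b : Finset (Vt M)} (ha : (Dl M h J1).face a)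
    (hb : (Dl M h J2).face b) : (Dl M h (J1 ∪ J2)).face (a ∪ b) := by
  obtain ⟨g1, m1, ha⟩ := ha
  obtain ⟨g2, m2, hb⟩ := hb
  refine ⟨g1 * (h⁻¹ * g2), cos_trans (AP_mono M Finset.subset_union_left m1)
    (cos_mul _ (AP_mono M Finset.subset_union_right m2)), fun y hy => ?_⟩
  rcases Finset.mem_union.1 hy with hy | hy
  · exact ⟨Finset.mem_union_left _ (ha y hy).1, (ha y hy).2.trans
      (vtx_of_mem (cos_mul _ m2) (Finset.disjoint_left.1 hd (ha y hy).1))⟩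
  · have e : g1 * (h⁻¹ * g2) = g2 * (h⁻¹ * g1) := by
      have := AP_comm M hc m1 m2
      rw [mul_assoc, mul_assoc] at this
      exact mul_left_cancel this
    rw [e]
    exact ⟨Finset.mem_union_right _ (hb y hy).1, (hb y hy).2.trans
      (vtx_of_mem (cos_mul _ m1) (Finset.disjoint_right.1 hd (hb y hy).1))⟩

theorem Dl_restrict' {h : Art M} {J1 J2 : Finset S} (hd : Disjoint J1 J2)
    (hc : ∀ s ∈ J1, ∀ t ∈ J2, M s t = 2) {a : Finset (Vt M)} (ha : (Dl M h (J1 ∪ J2)).face a)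
    (h1 : ∀ y ∈ a, y.1 ∉ J1) : (Dl M h J2).face a := by
  refine Dl_restrict hd.symm (fun s hs t ht => (M.symmetric s t).trans (hc t ht s hs))
    (by rwa [Finset.union_comm]) fun y hy => ?_
  obtain ⟨g, -, ha⟩ := ha
  exact (Finset.mem_union.1 (ha y hy).1).resolve_left (h1 y hy)

/-- Left translation identifies the complexes of different cosets. -/
theorem Dl_wc_iff (h : Art M) (J : Finset S) : (Dl M h J).WC ↔ (Dl M 1 J).WC := by
  constructor
  · refine SC.wc_of_retract (vtr h) (vtr h⁻¹) (vtr_face (by simp)) (vtr_face (by simp))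
      fun v _ => ?_
    rw [vtr_vtr, inv_mul_cancel, vtr_one]
  · refine SC.wc_of_retract (vtr h⁻¹) (vtr h) (vtr_face (by simp)) (vtr_face (by simp))
      fun v _ => ?_
    rw [vtr_vtr, mul_inv_cancel, vtr_one]

theorem Dl_wc_union {h : Art M} {J1 J2 : Finset S} (hd : Disjoint J1 J2)
    (hc : ∀ s ∈ J1, ∀ t ∈ J2, M s t = 2) (h1 : (Dl M h J1).WC) : (Dl M h (J1 ∪ J2)).WC := by
  refine SC.wc_join _ {y | y.1 ∈ J1} ?_ fun a b ha h1 hb h2 =>
    Dl_join hd hc (Dl_restrict hd hc ha h1) (Dl_restrict' hd hc hb h2)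
  convert h1 using 1
  refine SC.ext' fun a => ⟨fun ha => Dl_restrict hd hc ha.1 ha.2, fun ha =>
    ⟨Dl_mono Finset.subset_union_left ha, fun y hy => ?_⟩⟩
  obtain ⟨g, -, ha⟩ := ha
  exact (ha y hy).1

namespace Mass
variable {μ : Mass M} {h : Art M} {J : Finset S} {n : ℕ} {c : S → ℝ}

theorem mem_gen (R : ℝ → ℝ → Prop) {y : Vt M} :
    (∃ g t, h⁻¹ * g ∈ AP M J ∧ t ∈ J ∧ y = vtx M g t ∧ μ.Low g n t ∧ R (μ.bb g n t) (c t)) ↔
    (Dl M h J).face {y} ∧ ∃ g, y = vtx M g y.1 ∧ μ.Low g n y.1 ∧ R (μ.bb g n y.1) (c y.1) := by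
  rw [Dl_single]
  constructor
  · rintro ⟨g, t, hg, ht, rfl, h1, h2⟩
    exact ⟨⟨g, hg, ht, rfl⟩, g, rfl, h1, h2⟩
  · rintro ⟨⟨g, hg, ht, e⟩, g', e', h1, h2⟩
    have hv := μ.hh_vtx (e.symm.trans e')
    refine ⟨g, y.1, hg, ht, e, fun q hq => (hv q).trans (h1 q hq), ?_⟩
    rwa [bb, hv]

theorem mem_Neg {y : Vt M} : y ∈ μ.Neg h J n c ↔
    (Dl M h J).face {y} ∧ ∃ g, y = vtx M g y.1 ∧ μ.Low g n y.1 ∧ μ.bb g n y.1 < c y.1 :=
  mem_gen (· < ·)

theorem mem_Zer {y : Vt M} : y ∈ μ.Zer h J n c ↔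
    (Dl M h J).face {y} ∧ ∃ g, y = vtx M g y.1 ∧ μ.Low g n y.1 ∧ μ.bb g n y.1 = c y.1 :=
  mem_gen (· = ·)

theorem Adm.restrict {J1 J2 : Finset S} (hc : ∀ s ∈ J1, ∀ t ∈ J2, M s t = 2)
    (hA : μ.Adm h (J1 ∪ J2) n c) : μ.Adm h J1 n c := by
  refine ⟨fun t ht ⟨s, hs, hst⟩ => hA.1 t (fun h => ?_) ⟨s, Finset.mem_union_left _ hs, hst⟩,
    fun s hs => (hA.2 s (Finset.mem_union_left _ hs)).trans (le_of_eq ?_)⟩
  · exact hst.2 (hc s hs t ((Finset.mem_union.1 h).resolve_left ht))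
  · congr 1
    refine Finset.sum_congr rfl fun t ht => ?_
    by_cases h1 : t ∈ J1
    · rw [if_pos h1, if_pos (Finset.mem_union_left _ h1)]
    · by_cases h2 : t ∈ J2
      · rw [(aa_eq_zero_iff M (Finset.mem_erase.1 ht).1.symm).2 (hc s hs t h2), zero_mul, zero_mul]
      · rw [if_neg h1, if_neg (by simp [h1, h2])]

theorem Adm.link (hA : μ.Adm h J n c) {g : Art M} (hg : h⁻¹ * g ∈ AP M J) {s : S} (hs : s ∈ J)
    (hl : μ.Low g n s) (hc : c s ≤ μ.bb g n s) : μ.Adm g (J.erase s) n c := by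
  refine ⟨fun t ht ⟨u, hu, hut⟩ => ?_, fun u hu => (hA.2 u (Finset.mem_of_mem_erase hu)).trans
    (add_le_add_left (Finset.sum_le_sum fun t ht => mul_le_mul_of_nonneg_left ?_
      (aa_nonneg M (Finset.mem_erase.1 ht).1.symm)) _)⟩
  · by_cases hts : t = s
    · exact hts ▸ hl
    · exact hA.1.shift hg t (fun h => ht (Finset.mem_erase.2 ⟨hts, h⟩))
        ⟨u, Finset.mem_of_mem_erase hu, hut⟩
  · by_cases hts : t = s
    · rw [hts, if_pos hs, if_neg (Finset.notMem_erase _ _)]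
      exact hc
    · by_cases htJ : t ∈ J
      · rw [if_pos htJ, if_pos (Finset.mem_erase.2 ⟨hts, htJ⟩)]
      · rw [if_neg htJ, if_neg fun h => htJ (Finset.mem_of_mem_erase h)]
        have := μ.hh_coset (g := h) hg htJ (-(n : ℤ))
        rw [mul_inv_cancel_left] at this
        exact le_of_eq this.symm

theorem mem_Neg_link {g : Art M} (hg : h⁻¹ * g ∈ AP M J) {s : S} (hs : s ∈ J) {y : Vt M} :
    y ∈ μ.Neg g (J.erase s) n c ↔ y ∈ μ.Neg h J n c ∧ (Dl M g (J.erase s)).face {y} := by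
  rw [mem_Neg, mem_Neg]
  refine ⟨fun H => ⟨⟨?_, H.2⟩, H.1⟩, fun H => ⟨H.2, H.1.2⟩⟩
  rw [← Dl_congr hg]
  exact Dl_mono (Finset.erase_subset _ _) H.1

theorem mem_Zer_link {g : Art M} (hg : h⁻¹ * g ∈ AP M J) {s : S} (hs : s ∈ J) {y : Vt M} :
    y ∈ μ.Zer g (J.erase s) n c ↔ y ∈ μ.Zer h J n c ∧ (Dl M g (J.erase s)).face {y} := by
  rw [mem_Zer, mem_Zer]
  refine ⟨fun H => ⟨⟨?_, H.2⟩, H.1⟩, fun H => ⟨H.2, H.1.2⟩⟩
  rw [← Dl_congr hg]
  exact Dl_mono (Finset.erase_subset _ _) H.1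

/-- Property (C) with some threshold vertices added. -/
theorem pc_plus (hP : ∀ K ⊆ J, μ.PC K ∧ μ.PD K) (hA : μ.Adm h J n c)
    (hne : (μ.Neg h J n c).Nonempty) {F : Set (Vt M)} (hF : F ⊆ μ.Zer h J n c) :
    ((Dl M h J).full (μ.Neg h J n c ∪ F)).WC := by
  induction J using Finset.strongInduction generalizing h F with
  | _ J ih =>
  let key : Vt M → ℕ := fun y => (Fintype.equivFin S y.1 : ℕ)
  refine (SC.morse (Dl M h J) _ _ Set.subset_union_left key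
    (InvImage.wf key wellFounded_lt).wellFoundedOn (fun a _ b _ hab hf e => ?_)
    fun y hy _ => ?_).1 ((hP J subset_rfl).1 h n c hA hne)
  · exact Dl_type_ne hab hf ((Fintype.equivFin S).injective (Fin.ext e))
  have hyZ := hF (hy.1.resolve_left hy.2)
  obtain ⟨z, hz, hf⟩ := (hP J subset_rfl).2 h n c hA hne y hyZ
  obtain ⟨g, s, hg, hs, rfl, hl, hb⟩ := hyZ
  have hzl : (Dl M g (J.erase s)).face {z} := by
    rw [← Dl_link hg hs]
    exact ⟨fun e => hy.2 (Finset.mem_singleton.1 e ▸ hz), hf⟩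
  have := ih (J.erase s) (Finset.erase_ssubset hs)
    (fun K hK => hP K (hK.trans (Finset.erase_subset _ _))) (hA.link hg hs hl hb.ge)
    ⟨z, (mem_Neg_link hg hs).2 ⟨hz, hzl⟩⟩
    (F := {b | b ∈ F ∧ key b < key (vtx M g s) ∧ (Dl M g (J.erase s)).face {b}})
    fun b hb => (mem_Zer_link hg hs).2 ⟨hF hb.1, hb.2.2⟩
  rw [Dl_link hg hs]
  convert this using 1
  refine SC.ext' fun a => and_congr_right fun ha => forall₂_congr fun v hv => ?_
  have hv' := (Dl M g (J.erase s)).down (Finset.singleton_subset_iff.2 hv) ha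
  constructor
  · rintro (H | ⟨H | H, H'⟩)
    · exact Or.inl ((mem_Neg_link hg hs).2 ⟨H, hv'⟩)
    · exact Or.inl ((mem_Neg_link hg hs).2 ⟨H, hv'⟩)
    · exact Or.inr ⟨H, H', hv'⟩
  · rintro (H | H)
    · exact Or.inl ((mem_Neg_link hg hs).1 H).1
    · exact Or.inr ⟨Or.inr H.1, H.2.1⟩

theorem Neg_type {y : Vt M} (hy : y ∈ μ.Neg h J n c) : y.1 ∈ J := by
  obtain ⟨g, t, -, ht, rfl, -⟩ := hy
  exact ht

theorem Neg_mono {K : Finset S} (hJ : J ⊆ K) {y : Vt M} (hy : y ∈ μ.Neg h J n c) :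
    y ∈ μ.Neg h K n c :=
  mem_Neg.2 ⟨Dl_mono hJ (mem_Neg.1 hy).1, (mem_Neg.1 hy).2⟩

theorem pc_half {J1 J2 : Finset S} (hd : Disjoint J1 J2) (hc : ∀ s ∈ J1, ∀ t ∈ J2, M s t = 2)
    (h1 : μ.PC J1) (hA : μ.Adm h (J1 ∪ J2) n c) {z : Vt M} (hz : z ∈ μ.Neg h (J1 ∪ J2) n c)
    (hz1 : z.1 ∈ J1) : ((Dl M h (J1 ∪ J2)).full (μ.Neg h (J1 ∪ J2) n c)).WC := by
  have hres : ∀ y ∈ μ.Neg h (J1 ∪ J2) n c, y.1 ∈ J1 → y ∈ μ.Neg h J1 n c := fun y hy hy1 =>
    mem_Neg.2 ⟨Dl_restrict hd hc (mem_Neg.1 hy).1 (by simpa using hy1), (mem_Neg.1 hy).2⟩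
  refine SC.wc_join _ {y | y.1 ∈ J1} ?_ fun a b ha h1 hb h2 =>
    ⟨Dl_join hd hc (Dl_restrict hd hc ha.1 h1) (Dl_restrict' hd hc hb.1 h2), fun y hy =>
      (Finset.mem_union.1 hy).elim (ha.2 y) (hb.2 y)⟩
  convert h1 h n c (hA.restrict hc) ⟨z, hres z hz hz1⟩ using 1
  exact SC.ext' fun a => ⟨fun ha => ⟨Dl_restrict hd hc ha.1.1 ha.2, fun y hy =>
    hres y (ha.1.2 y hy) (ha.2 y hy)⟩, fun ha => ⟨⟨Dl_mono Finset.subset_union_left ha.1,
      fun y hy => Neg_mono Finset.subset_union_left (ha.2 y hy)⟩, fun y hy => Neg_type (ha.2 y hy)⟩⟩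

theorem pd_half {J1 J2 : Finset S} (hd : Disjoint J1 J2) (hc : ∀ s ∈ J1, ∀ t ∈ J2, M s t = 2)
    (h1 : μ.PD J1) (hA : μ.Adm h (J1 ∪ J2) n c) {z : Vt M} (hz : z ∈ μ.Neg h (J1 ∪ J2) n c)
    {y : Vt M} (hy : y ∈ μ.Zer h (J1 ∪ J2) n c) (hy1 : y.1 ∈ J1) :
    ∃ z ∈ μ.Neg h (J1 ∪ J2) n c, (Dl M h (J1 ∪ J2)).face {y, z} := by
  have hyf := Dl_restrict hd hc (mem_Zer.1 hy).1 (by simpa using hy1)
  by_cases hz1 : z.1 ∈ J1
  · obtain ⟨z', hz', hf⟩ := h1 h n c (hA.restrict hc) ⟨z, mem_Neg.2 ⟨Dl_restrict hd hc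
      (mem_Neg.1 hz).1 (by simpa using hz1), (mem_Neg.1 hz).2⟩⟩ y
      (mem_Zer.2 ⟨hyf, (mem_Zer.1 hy).2⟩)
    exact ⟨z', Neg_mono Finset.subset_union_left hz', Dl_mono Finset.subset_union_left hf⟩
  · exact ⟨z, hz, Dl_join hd hc hyf (Dl_restrict' hd hc (mem_Neg.1 hz).1 (by simpa using hz1))⟩

theorem pcd_union {J1 J2 : Finset S} (hd : Disjoint J1 J2) (hc : ∀ s ∈ J1, ∀ t ∈ J2, M s t = 2)
    (h1 : μ.PC J1 ∧ μ.PD J1) (h2 : μ.PC J2 ∧ μ.PD J2) :
    μ.PC (J1 ∪ J2) ∧ μ.PD (J1 ∪ J2) := by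
  have hc' : ∀ s ∈ J2, ∀ t ∈ J1, M s t = 2 := fun s hs t ht => (M.symmetric s t).trans (hc t ht s hs)
  constructor
  · rintro h n c hA ⟨z, hz⟩
    rcases Finset.mem_union.1 (Neg_type hz) with H | H
    · exact pc_half hd hc h1.1 hA hz H
    · rw [Finset.union_comm] at hA hz ⊢
      exact pc_half hd.symm hc' h2.1 hA hz H
  · rintro h n c hA ⟨z, hz⟩ y hy
    have : y.1 ∈ J1 ∪ J2 := by
      obtain ⟨g, t, -, ht, rfl, -⟩ := hy
      exact ht
    rcases Finset.mem_union.1 this with H | H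
    · exact pd_half hd hc h1.2 hA hz hy H
    · rw [Finset.union_comm] at hA hz hy ⊢
      exact pd_half hd.symm hc' h2.2 hA hz hy H

end Mass
end Vale.Agent.P203
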