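import Vale.Agent.P203.SphC

/-! Part NonS: irreducible non-spherical diagrams and the main induction. -/

namespace Vale.Agent.P203.Mass
open Classical CoxeterSystem

variable {S : Type} [Fintype S] [DecidableEq S] {M : CoxeterMatrix S} {μ : Mass M}
  {J : Finset S}

theorem wf_of_rank {V κ κ' : Type} [LT κ] [Preorder κ'] [WellFoundedLT κ'] (s : Set V)
    (key : V → κ) (r : V → κ') (h : ∀ a ∈ s, ∀ b ∈ s, key a < key b → r a < r b) :
    s.WellFoundedOn fun a b => key a < key b :=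
  Subrelation.wf (fun {a b : s} hab => h a a.2 b b.2 hab)
    (InvImage.wf (fun a : s => r a) wellFounded_lt)

theorem exists_lev (μ : Mass M) (n : ℕ) (y : Vt M) :
    ∃ m : ℕ, n ≤ m ∧ ∀ q < -(m : ℤ), μ.vv y q = 0 := by
  obtain ⟨q0, hq⟩ := μ.bdd y.2.out
  exact ⟨n + q0.natAbs, by omega, fun q h => hq q (by omega) _⟩

/-- The level of a vertex. -/
noncomputable def lev (μ : Mass M) (n : ℕ) (y : Vt M) : ℕ := Nat.find (μ.exists_lev n y)

/-- The height of a vertex in its level. -/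
noncomputable def tau (μ : Mass M) (n : ℕ) (c ν : S → ℝ) (y : Vt M) : ℝ :=
  (μ.vv y (-(μ.lev n y : ℤ)) - if μ.lev n y = n then c y.1 else 0) / ν y.1

/-- The Morse function. -/
noncomputable def ky (μ : Mass M) (n : ℕ) (c ν : S → ℝ) (y : Vt M) : ℕ ×ₗ ℝ :=
  toLex (μ.lev n y, μ.tau n c ν y)

/-- The threshold through a vertex. -/
noncomputable def cc (μ : Mass M) (n : ℕ) (c ν : S → ℝ) (y : Vt M) (t : S) : ℝ :=
  (if μ.lev n y = n then c t else 0) + μ.tau n c ν y * ν t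

section
variable {h : Art M} {n : ℕ} {c ν : S → ℝ} {y z : Vt M}

theorem le_lev (y : Vt M) : n ≤ μ.lev n y := (Nat.find_spec (μ.exists_lev n y)).1

theorem low_lev (y : Vt M) : ∀ q < -(μ.lev n y : ℤ), μ.vv y q = 0 :=
  (Nat.find_spec (μ.exists_lev n y)).2

theorem lev_le {m : ℕ} (h1 : n ≤ m) (h2 : ∀ q < -(m : ℤ), μ.vv y q = 0) : μ.lev n y ≤ m :=
  Nat.find_min' _ ⟨h1, h2⟩

theorem type_mem (hy : (Dl M h J).face {y}) : y.1 ∈ J := by
  obtain ⟨_, t, -, ht, rfl⟩ := face_one.1 hy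
  exact ht

theorem tau_pos (hν : 0 < ν y.1) (h1 : μ.lev n y ≠ n) : 0 < μ.tau n c ν y := by
  rw [tau, if_neg h1, sub_zero]
  refine div_pos (lt_of_le_of_ne (μ.nonneg _ _ _) fun e => ?_) hν
  have a := le_lev (μ := μ) (n := n) y
  have := lev_le (μ := μ) (y := y) (n := n) (m := μ.lev n y - 1) (by omega) fun q hq => by
    by_cases hq' : q = -(μ.lev n y : ℤ)
    · rw [hq']; exact e.symm
    · exact low_lev (n := n) y q (by omega)
  omega

theorem tau_nonneg (hν : ∀ t ∈ J, 0 < ν t) (hy : (Dl M h J).face {y}) (h1 : y ∉ μ.Neg h J n c) :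
    0 ≤ μ.tau n c ν y := by
  by_cases e : μ.lev n y = n
  · have a := low_lev (μ := μ) (n := n) y
    rw [tau, if_pos e]
    rw [e] at a ⊢
    exact div_nonneg (sub_nonneg.2 (not_lt.1 fun b => h1 (mem_Neg_iff.2 ⟨hy, a, b⟩)))
      (hν _ (type_mem hy)).le
  · exact (tau_pos (hν _ (type_mem hy)) e).le

theorem lower_iff (hν : ∀ t ∈ J, 0 < ν t) (hy : (Dl M h J).face {y}) (h1 : y ∉ μ.Neg h J n c)
    (hz : (Dl M h J).face {z}) : (z ∈ μ.Neg h J n c ∨ μ.ky n c ν z < μ.ky n c ν y) ↔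
      z ∈ μ.Neg h J (μ.lev n y) (μ.cc n c ν y) := by
  have p := hν _ (type_mem hz)
  have a := le_lev (μ := μ) (n := n) y
  have b := le_lev (μ := μ) (n := n) z
  have lz := low_lev (μ := μ) (n := n) z
  have t0 := mul_nonneg (tau_nonneg hν hy h1) p.le
  simp only [mem_Neg_iff, hz, true_and, ky, Prod.Lex.toLex_lt_toLex]
  rcases lt_trichotomy (μ.lev n z) (μ.lev n y) with l | l | l
  · refine iff_of_true (Or.inr (Or.inl l)) ⟨fun q hq => lz q (by omega), ?_⟩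
    rw [lz _ (by omega), cc, if_neg (by omega), zero_add]
    exact mul_pos (tau_pos (hν _ (type_mem hy)) (by omega)) p
  · have e : μ.tau n c ν z < μ.tau n c ν y ↔ μ.vv z (-(μ.lev n y : ℤ)) < μ.cc n c ν y z.1 := by
      rw [tau, div_lt_iff₀ p, l, cc, sub_lt_iff_lt_add']
    rw [e]
    constructor
    · rintro (⟨h2, h3⟩ | h2 | h2)
      · have := lev_le le_rfl h2
        have e' : μ.lev n y = n := by omega
        refine ⟨l ▸ lz, ?_⟩
        rw [cc, if_pos e', e']; linarith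
      · omega
      · exact ⟨l ▸ lz, h2.2⟩
    · exact fun h2 => Or.inr (Or.inr ⟨l, h2.2⟩)
  · refine iff_of_false ?_ fun h2 => ?_
    · rintro (⟨h2, -⟩ | h2 | h2)
      · have := lev_le le_rfl h2; omega
      · omega
      · omega
    · have := lev_le a h2.1; omega

theorem level_iff (hν : ∀ t ∈ J, 0 < ν t) (hy : (Dl M h J).face {y}) (hz : (Dl M h J).face {z}) :
    μ.ky n c ν z = μ.ky n c ν y ↔ z ∈ μ.Zer h J (μ.lev n y) (μ.cc n c ν y) := by
  have p := hν _ (type_mem hz)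
  have a := le_lev (μ := μ) (n := n) y
  have b := le_lev (μ := μ) (n := n) z
  have lz := low_lev (μ := μ) (n := n) z
  have e : μ.lev n z = μ.lev n y →
      (μ.tau n c ν z = μ.tau n c ν y ↔ μ.vv z (-(μ.lev n y : ℤ)) = μ.cc n c ν y z.1) := by
    intro l
    rw [tau, div_eq_iff p.ne', l, cc, sub_eq_iff_eq_add']
  simp only [mem_Zer_iff, hz, true_and, ky, toLex_inj, Prod.mk.injEq]
  refine ⟨fun h2 => ⟨h2.1 ▸ lz, (e h2.1).1 h2.2⟩, fun h2 => ?_⟩
  have l : μ.lev n z = μ.lev n y := by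
    refine le_antisymm (lev_le a h2.1) (not_lt.1 fun l => ?_)
    have := h2.2
    rw [lz _ (by omega), cc, if_neg (by omega), zero_add] at this
    exact (mul_pos (tau_pos (hν _ (type_mem hy)) (by omega)) p).ne this
  exact ⟨l, (e l).2 h2.2⟩

theorem adm_cc (hν : ∀ t ∈ J, 0 < ν t)
    (hν' : ∀ s ∈ J, 2 * ν s ≤ ∑ t ∈ J.erase s, aa M s t * ν t) (hA : μ.Adm h J n c) {g : Art M}
    (hg : h⁻¹ * g ∈ AP M J) {s : S} (hs : s ∈ J) (h1 : vtx M g s ∉ μ.Neg h J n c) :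
    μ.Adm g (J.erase s) (μ.lev n (vtx M g s)) (μ.cc n c ν (vtx M g s)) := by
  have t0 := tau_nonneg hν (face_one.2 ⟨g, s, hg, hs, rfl⟩) h1
  have a := le_lev (μ := μ) (n := n) (vtx M g s)
  have hB : μ.Adm h J (μ.lev n (vtx M g s))
      fun t => if μ.lev n (vtx M g s) = n then c t else 0 := by
    by_cases e : μ.lev n (vtx M g s) = n
    · simpa [e] using hA
    · refine ⟨fun t ht hs q hq => hA.1 t ht hs q (by omega), fun x _ => ?_⟩
      simp only [e, if_false, mul_zero]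
      refine add_nonneg (Finset.sum_nonneg fun t ht => mul_nonneg
        (aa_nonneg M (Finset.ne_of_mem_erase ht).symm) ?_) ?_
      · split_ifs
        · exact le_rfl
        · exact μ.nonneg _ _ _
      · split_ifs
        · exact μ.DD_pos.le
        · exact le_rfl
  refine (hB.add (fun t => μ.tau n c ν (vtx M g s) * ν t) fun x hx => ?_).link hg hs
    (fun q hq => (vv_vtx g s q).symm.trans (low_lev (n := n) _ q hq)) (le_of_eq ?_)
  · have := mul_le_mul_of_nonneg_left (hν' x hx) t0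
    rw [Finset.mul_sum] at this
    refine le_trans (le_of_eq (by ring)) (this.trans (le_of_eq ?_))
    exact Finset.sum_congr rfl fun t _ => by ring
  · have : ν (vtx M g s).1 ≠ 0 := (hν s hs).ne'
    rw [tau, bb, ← vv_vtx]
    change (if _ then c (vtx M g s).1 else 0) + _ / _ * ν (vtx M g s).1 = _
    rw [div_mul_cancel₀ _ this]; ring

theorem tau_fin (hν : ∀ t ∈ J, 0 < ν t) (R : ℝ) :
    {x | x < R ∧ ∃ y, (Dl M h J).face {y} ∧ μ.tau n c ν y = x}.Finite := by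
  refine (Set.finite_iUnion fun t : S => ((μ.disc (R * ν t + c t)).image
    fun x => (x - c t) / ν t).union ((μ.disc (R * ν t + 0)).image fun x => (x - 0) / ν t)).subset ?_
  rintro _ ⟨h1, y, hy, rfl⟩
  rw [tau, div_lt_iff₀ (hν _ (type_mem hy)), sub_lt_iff_lt_add] at h1
  refine Set.mem_iUnion.2 ⟨y.1, ?_⟩
  by_cases e : μ.lev n y = n
  · rw [if_pos e] at h1
    exact Or.inl ⟨_, ⟨h1, _, _, _, rfl⟩, by rw [tau, if_pos e]⟩
  · rw [if_neg e] at h1
    exact Or.inr ⟨_, ⟨h1, _, _, _, rfl⟩, by rw [tau, if_neg e]⟩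

theorem exists_rank (hν : ∀ t ∈ J, 0 < ν t) : ∃ r : ℕ ×ₗ ℝ → ℕ ×ₗ ℕ, ∀ a b,
    (Dl M h J).face {a} → μ.ky n c ν a < μ.ky n c ν b → r (μ.ky n c ν a) < r (μ.ky n c ν b) := by
  refine ⟨fun p => toLex ((ofLex p).1,
    {x | x < (ofLex p).2 ∧ ∃ y, (Dl M h J).face {y} ∧ μ.tau n c ν y = x}.ncard),
    fun a b ha hab => ?_⟩
  simp only [ky, Prod.Lex.toLex_lt_toLex, ofLex_toLex] at hab ⊢
  refine hab.imp id fun h1 => ⟨h1.1, Set.ncard_lt_ncard ⟨fun x hx => ⟨hx.1.trans h1.2, hx.2⟩,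
    fun h2 => ?_⟩ (tau_fin hν _)⟩
  exact lt_irrefl _ (h2 ⟨h1.2, a, ha, rfl⟩).1

theorem link_one {g : Art M} (hg : h⁻¹ * g ∈ AP M J) {s : S} (hs : s ∈ J) :
    (Dl M g (J.erase s)).face {z} ↔ vtx M g s ≠ z ∧ (Dl M h J).face {vtx M g s, z} := by
  rw [← Dl_link hg hs]
  exact and_congr_left' (by simp)

theorem merge (hν : ∀ t ∈ J, 0 < ν t)
    (hν' : ∀ s ∈ J, 2 * ν s ≤ ∑ t ∈ J.erase s, aa M s t * ν t) (h2 : 2 ≤ J.card)
    (ih : ∀ K, K ⊂ J → μ.PC K ∧ μ.PD K) (hA : μ.Adm h J n c) {G0 : Set (Vt M)}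
    (hG : G0 ⊆ μ.Neg h J n c) (hne : G0.Nonempty)
    (hcl : ∀ a ∈ G0, ∀ b ∈ μ.Neg h J n c, a ≠ b ∧ (Dl M h J).face {a, b} → b ∈ G0) :
    μ.Neg h J n c ⊆ G0 ∧ ∀ y, (Dl M h J).face {y} → y ∉ μ.Neg h J n c →
      ∃ z ∈ μ.Neg h J (μ.lev n y) (μ.cc n c ν y), y ≠ z ∧ (Dl M h J).face {y, z} := by
  obtain ⟨r, hr⟩ := exists_rank (μ := μ) (h := h) (n := n) (c := c) hν
  have snd : ∀ {K : SC (Vt M)} {a b}, K.face {a, b} → K.face {b} := fun hf =>
    SC.down _ (by simp) hf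
  have := SC.nomerge (fun a b => a ≠ b ∧ (Dl M h J).face {a, b})
    (fun a b hab => ⟨hab.1.symm, by rw [Finset.pair_comm]; exact hab.2⟩)
    {y | (Dl M h J).face {y}} (μ.Neg h J n c) G0 (fun y hy => (mem_Neg_iff.1 hy).1) hG hne hcl
    (μ.ky n c ν) (wf_of_rank _ _ (fun y => r (μ.ky n c ν y)) fun a ha b _ => hr a b ha.1) ?_ ?_ ?_
  · refine ⟨this.1, fun y hy hy' => ?_⟩
    obtain ⟨z, hz, a, b⟩ := this.2 y ⟨hy, hy'⟩
    exact ⟨z, (lower_iff hν hy hy' hz).1 b, a⟩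
  · intro a ha b hb
    have := Dl_conn h2 ha hb
    clear hb
    induction this with
    | refl => exact Relation.ReflTransGen.refl
    | @tail x z _ hbc ih =>
      by_cases e : x = z
      · exact e ▸ ih
      · exact ih.tail ⟨snd hbc, e, hbc⟩
  · rintro y ⟨hy, hy'⟩ a b ha hb ya yb la lb
    obtain ⟨g, s, hg, hs, rfl⟩ := face_one.1 hy
    have na := (mem_Neg_link hg hs).2 ⟨(lower_iff hν hy hy' ha).1 la, (link_one hg hs).2 ya⟩
    have nb := (mem_Neg_link hg hs).2 ⟨(lower_iff hν hy hy' hb).1 lb, (link_one hg hs).2 yb⟩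
    have := ((ih _ (Finset.erase_ssubset hs)).1 g _ _ (adm_cc hν hν' hA hg hs hy') ⟨a, na⟩).conn
      (u := a) (v := b) ⟨(mem_Neg_iff.1 na).1, by simpa using na⟩ ⟨(mem_Neg_iff.1 nb).1, by simpa using nb⟩
    clear nb lb yb hb
    induction this with
    | refl => exact Relation.ReflTransGen.refl
    | @tail x z _ hbc ih =>
      by_cases e : x = z
      · exact e ▸ ih
      · have hz := face_of_link hg hs hbc.1
        exact ih.tail ⟨snd hz, (lower_iff hν hy hy' (snd hz)).2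
          ((mem_Neg_link hg hs).1 (hbc.2 z (by simp))).1, e, hz⟩
  · rintro a ⟨hy, hy'⟩ b ⟨hb, -⟩ ab e ⟨z0, hz0, a0, l0⟩
    obtain ⟨g, s, hg, hs, rfl⟩ := face_one.1 hy
    have zb := (mem_Zer_link hg hs).2 ⟨(level_iff hν hy hb).1 e.symm, (link_one hg hs).2 ab⟩
    obtain ⟨z, hz, hf⟩ := (ih _ (Finset.erase_ssubset hs)).2 g _ _ (adm_cc hν hν' hA hg hs hy')
      ⟨z0, (mem_Neg_link hg hs).2 ⟨(lower_iff hν hy hy' hz0).1 l0, (link_one hg hs).2 a0⟩⟩ b zb
    have hz' := face_of_link hg hs hf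
    exact ⟨z, snd hz', (link_one hg hs).1 (snd hf), ⟨fun e => not_neg_zer hz (e ▸ zb), hz'⟩,
      (lower_iff hν hy hy' (snd hz')).2 ((mem_Neg_link hg hs).1 hz).1⟩

theorem neg_wc_iff (hν : ∀ t ∈ J, 0 < ν t)
    (hν' : ∀ s ∈ J, 2 * ν s ≤ ∑ t ∈ J.erase s, aa M s t * ν t) (h2 : 2 ≤ J.card)
    (ih : ∀ K, K ⊂ J → μ.PC K ∧ μ.PD K) (hA : μ.Adm h J n c) (hne : (μ.Neg h J n c).Nonempty) :
    ((Dl M h J).full (μ.Neg h J n c)).WC ↔ (Dl M h J).WC := by
  obtain ⟨r, hr⟩ := exists_rank (μ := μ) (h := h) (n := n) (c := c) hν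
  have e : (Dl M h J).full {y | (Dl M h J).face {y}} = Dl M h J :=
    SC.ext' fun a => ⟨fun h => h.1, fun h => ⟨h, fun v hv => SC.down _ (by simpa using hv) h⟩⟩
  rw [SC.morse (Dl M h J) (μ.Neg h J n c) {y | (Dl M h J).face {y}}
    (fun y hy => (mem_Neg_iff.1 hy).1)
    (fun y => (toLex (μ.ky n c ν y, idx y.1) : (ℕ ×ₗ ℝ) ×ₗ ℕ)) ?_ ?_ ?_, e]
  · refine wf_of_rank _ _ (fun y => (toLex (r (μ.ky n c ν y), idx y.1) : (ℕ ×ₗ ℕ) ×ₗ ℕ))
      fun a ha b _ hab => ?_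
    rw [Prod.Lex.toLex_lt_toLex] at hab ⊢
    exact hab.imp (hr a b ha.1) fun h1 => ⟨congrArg r h1.1, h1.2⟩
  · intro a _ b _ hab hf e
    exact Dl_type_ne hab hf (idx_inj (congrArg (fun p : (ℕ ×ₗ ℝ) ×ₗ ℕ => (ofLex p).2) e))
  rintro y ⟨hy, hy'⟩ -
  obtain ⟨z, hz, hz'⟩ := (merge hν hν' h2 ih hA subset_rfl hne fun _ _ _ hb _ => hb).2 y hy hy'
  obtain ⟨g, s, hg, hs, rfl⟩ := face_one.1 hy
  rw [link_full hg hs (Q := μ.Neg g (J.erase s) _ (μ.cc n c ν (vtx M g s)) ∪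
    {v | v ∈ μ.Zer g (J.erase s) (μ.lev n (vtx M g s)) (μ.cc n c ν (vtx M g s)) ∧ idx v.1 < idx s})]
  · exact pc_plus (fun K hK => ih K (hK.trans_ssubset (Finset.erase_ssubset hs)))
      (adm_cc hν hν' hA hg hs hy') ⟨z, (mem_Neg_link hg hs).2 ⟨hz, (link_one hg hs).2 hz'⟩⟩
      fun _ hv => hv.1
  · intro v hv
    have hv' := face_of_link hg hs hv
    simp only [Set.mem_union, Set.mem_ofPred_eq, Prod.Lex.toLex_lt_toLex, mem_Neg_link hg hs,
      mem_Zer_link hg hs, hv, hv', and_true, true_and, ← lower_iff hν hy hy' hv',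
      ← level_iff hν hy hv', or_assoc]
    rfl

end

theorem nonsph (hI : Irr M J) (hJ : ¬ Spherical M J)
    (ih : ∀ K, K ⊂ J → μ.PC K ∧ μ.PD K) :
    μ.PC J ∧ μ.PD J ∧ ∀ h, (Dl M h J).WC := by
  obtain ⟨ν, hν, hν'⟩ := exists_nu M hI hJ
  obtain ⟨s0, hs0⟩ := hI.1
  have h2 : 2 ≤ J.card := by
    by_contra h
    have : J = {s0} := Finset.eq_singleton_iff_unique_mem.2
      ⟨hs0, fun x hx => Finset.card_le_one.1 (by omega) x hx s0 hs0⟩
    exact hJ (this ▸ spherical_single M s0)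
  have hD := μ.DD_pos
  have hA : μ.Adm 1 J 0 fun t => if t = s0 then μ.DD / 2 else 0 := by
    refine ⟨fun t _ _ q _ => μ.base q t, fun s _ => ?_⟩
    have : 0 ≤ ∑ t ∈ Finset.univ.erase s, aa M s t *
        if t ∈ J then (if t = s0 then μ.DD / 2 else 0) else μ.bb 1 0 t :=
      Finset.sum_nonneg fun t ht => mul_nonneg (aa_nonneg M (Finset.ne_of_mem_erase ht).symm) (by
        split_ifs
        · linarith
        · exact le_rfl
        · exact μ.nonneg _ _ _)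
    rw [if_pos rfl]
    dsimp only
    split_ifs <;> linarith
  have h0 : vtx M 1 s0 ∈ μ.Neg 1 J 0 fun t => if t = s0 then μ.DD / 2 else 0 :=
    ⟨1, s0, by simp, hs0, rfl, fun q _ => μ.base q s0, by
      rw [bb, μ.base]; simp only [if_true]; linarith⟩
  have h1 := (merge hν hν' h2 ih hA (G0 := {vtx M 1 s0}) (by simpa using h0) ⟨_, rfl⟩ (by
    rintro _ rfl b hb hab
    refine absurd ?_ (Dl_type_ne hab.1 hab.2)
    have := (mem_Neg_iff.1 hb).2.2
    by_contra e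
    rw [if_neg fun e' => e e'.symm] at this
    exact this.not_ge (μ.nonneg _ _ _))).1
  have hW : ∀ h, (Dl M h J).WC := fun h => (Dl_wc_iff h J).2
    ((neg_wc_iff hν hν' h2 ih hA ⟨_, h0⟩).1 (by
      have hf : ((Dl M 1 J).full (μ.Neg 1 J 0 fun t => if t = s0 then μ.DD / 2 else 0)).face
          {vtx M 1 s0} := ⟨(mem_Neg_iff.1 h0).1, by simpa using h0⟩
      refine SC.wc_cone _ _ hf fun b hb => SC.down _ (fun v hv => ?_) hf
      rcases Finset.mem_insert.1 hv with rfl | hv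
      · simp
      · simpa using h1 (hb.2 v hv)))
  refine ⟨fun h n c hA hne => (neg_wc_iff hν hν' h2 ih hA hne).2 (hW h), ?_, hW⟩
  intro h n c hA hne y hy
  obtain ⟨a, b, e⟩ := mem_Zer_iff.1 hy
  obtain ⟨z, hz, hz'⟩ := (merge hν hν' h2 ih hA subset_rfl hne fun _ _ _ hb _ => hb).2 y a
    fun h => not_neg_zer h hy
  have l : μ.lev n y = n := le_antisymm (lev_le le_rfl b) (le_lev y)
  have : μ.cc n c ν y = c := by
    funext t
    rw [cc, tau, l, e]; simp
  rw [l, this] at hz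
  exact ⟨z, hz, hz'.2⟩

theorem pcd_all (hG : μ.Good) (J : Finset S) : μ.PC J ∧ μ.PD J := by
  induction J using Finset.strongInduction with
  | H J ih =>
  rcases J.eq_empty_or_nonempty with rfl | hne
  · constructor <;> rintro _ _ _ _ ⟨_, _, _, _, h, _⟩ <;> simp at h
  rcases irr_or_split M hne with hI | ⟨J1, J2, h1, h2, hd, rfl, hc⟩
  · by_cases hJ : Spherical M J
    · exact ⟨pc_sph hG hJ fun s hs => (ih _ (Finset.erase_ssubset hs)).1,
        pd_sph hG hJ hI fun s hs => (ih _ (Finset.erase_ssubset hs)).2⟩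
    · exact (nonsph hI hJ ih).imp id And.left
  · obtain ⟨a, ha⟩ := h1
    obtain ⟨b, hb⟩ := h2
    exact pcd_union hd hc
      (ih _ ((Finset.ssubset_iff_of_subset Finset.subset_union_left).2
        ⟨b, Finset.mem_union_right _ hb, Finset.disjoint_right.1 hd hb⟩))
      (ih _ ((Finset.ssubset_iff_of_subset Finset.subset_union_right).2
        ⟨a, Finset.mem_union_left _ ha, Finset.disjoint_left.1 hd ha⟩))

/-- The Artin complex of a non-spherical diagram is contractible. -/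
theorem dl_wc (hG : μ.Good) (hJ : ¬ Spherical M J) (h : Art M) : (Dl M h J).WC := by
  induction J using Finset.strongInduction with
  | H J ih =>
  rcases J.eq_empty_or_nonempty with rfl | hne
  · exact absurd (spherical_empty M) hJ
  rcases irr_or_split M hne with hI | ⟨J1, J2, ⟨a, ha⟩, ⟨b, hb⟩, hd, rfl, hc⟩
  · exact (nonsph hI hJ fun K _ => pcd_all hG K).2.2 h
  · by_cases h1 : Spherical M J1
    · rw [Finset.union_comm]
      exact Dl_wc_union hd.symm (fun s hs t ht => (M.symmetric s t).trans (hc t ht s hs))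
        (ih _ ((Finset.ssubset_iff_of_subset Finset.subset_union_right).2
          ⟨a, Finset.mem_union_left _ ha, Finset.disjoint_left.1 hd ha⟩)
          fun h2 => hJ (spherical_union M hc h1 h2))
    · exact Dl_wc_union hd hc (ih _ ((Finset.ssubset_iff_of_subset Finset.subset_union_left).2
        ⟨b, Finset.mem_union_right _ hb, Finset.disjoint_right.1 hd hb⟩) h1)

end Vale.Agent.P203.Mass
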