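import Vale.Agent.P203.SalO
import Vale.Agent.P203.SCc

/-! Part Qui: Quillen's fibre lemma, and contractibility of the lifted Salvetti complex. -/

namespace Vale.Agent.P203
open Classical CoxeterSystem

theorem Qui_link {V : Type} (r : V → V → Prop) (y : V) (a : Finset V) :
    ((SC.flag r).link y).face a ↔
      y ∉ a ∧ (SC.flag r).face a ∧ ∀ v ∈ a, r y v ∨ r v y := by
  constructor
  · rintro ⟨h1, h2⟩
    exact ⟨h1, (SC.flag r).down (Finset.subset_insert _ _) h2, fun v hv =>
      h2 y (Finset.mem_insert_self _ _) v (Finset.mem_insert_of_mem hv) fun h => h1 (h ▸ hv)⟩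
  · rintro ⟨h1, h2, h3⟩
    refine ⟨h1, fun u hu v hv huv => ?_⟩
    rcases Finset.mem_insert.1 hu with rfl | hu' <;> rcases Finset.mem_insert.1 hv with rfl | hv'
    · exact absurd rfl huv
    · exact h3 v hv'
    · exact (h3 u hu').symm
    · exact h2 u hu' v hv' huv

theorem Qui_map {V V' : Type} (r : V → V → Prop) (r' : V' → V' → Prop) (f : V → V')
    (hf : Function.Injective f) (hr : ∀ u v, r' (f u) (f v) ↔ r u v) (L : SC V') (S : Set V)
    (h : ∀ b : Finset V', L.face b ↔ (SC.flag r').face b ∧ ∀ v ∈ b, v ∈ f '' S) :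
    ((SC.flag r).full S).WC ↔ L.WC := by
  refine SC.wc_iff_of_map _ _ f (fun u v _ _ e => hf e) ?_ ?_
  · rintro a ⟨h1, h2⟩
    refine (h _).2 ⟨fun u hu v hv huv => ?_, fun v hv => ?_⟩
    · obtain ⟨u, hu', rfl⟩ := Finset.mem_image.1 hu
      obtain ⟨v, hv', rfl⟩ := Finset.mem_image.1 hv
      rw [hr, hr]
      exact h1 u hu' v hv' fun e => huv (congrArg f e)
    · obtain ⟨v, hv', rfl⟩ := Finset.mem_image.1 hv
      exact ⟨v, h2 v hv', rfl⟩
  · intro b hb
    obtain ⟨h1, h2⟩ := (h b).1 hb
    refine ⟨b.preimage f hf.injOn, ⟨fun u hu v hv huv => ?_, fun v hv => ?_⟩, ?_⟩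
    · rw [← hr, ← hr]
      exact h1 _ (Finset.mem_preimage.1 hu) _ (Finset.mem_preimage.1 hv) fun e => huv (hf e)
    · obtain ⟨w, hw, e⟩ := h2 _ (Finset.mem_preimage.1 hv)
      exact hf e ▸ hw
    · ext v
      rw [Finset.mem_image]
      constructor
      · intro hv
        obtain ⟨w, -, rfl⟩ := h2 v hv
        exact ⟨w, Finset.mem_preimage.2 hv, rfl⟩
      · rintro ⟨w, hw, rfl⟩
        exact Finset.mem_preimage.1 hw

/-- the mixed relation (mapping cylinder) -/
def mixR {P Q : Type} (le : P → P → Prop) (le' : Q → Q → Prop) (f : P → Q) :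
    P ⊕ Q → P ⊕ Q → Prop
  | .inl a, .inl a' => le a a'
  | .inr b, .inr b' => le' b b'
  | .inl a, .inr b => le' (f a) b
  | .inr _, .inl _ => False

theorem Qui_pair {V : Type} {r : V → V → Prop} {a b : V} (hab : a ≠ b)
    (h : (SC.flag r).face {a, b}) : r a b ∨ r b a :=
  h a (Finset.mem_insert_self _ _) b (Finset.mem_insert_of_mem (Finset.mem_singleton_self _)) hab

/-- Quillen's Theorem A for graded posets of bounded rank. -/
theorem quillen {P Q : Type} (le : P → P → Prop) (le' : Q → Q → Prop) (D : Set Q)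
    (tr : ∀ a b c, le a b → le b c → le a c) (tr' : ∀ a b c, le' a b → le' b c → le' a c)
    (rf' : ∀ a, le' a a) (rk : P → ℕ) (rk' : Q → ℕ) (N : ℕ) (hN : ∀ b, rk' b ≤ N)
    (hrk : ∀ a b, le a b → a ≠ b → rk a < rk b) (hrk' : ∀ a b, le' a b → a ≠ b → rk' a < rk' b)
    (f : P → Q) (hf : ∀ a, f a ∈ D) (mono : ∀ a b, le a b → le' (f a) (f b))
    (fib : ∀ y ∈ D, ((SC.flag le).full {a | le' (f a) y}).WC)
    (hD : ((SC.flag le').full D).WC) : (SC.flag le).WC := by
  letI : DecidableEq (P ⊕ Q) := fun a b => propDecidable (a = b)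
  let R := mixR le le' f
  let K := SC.flag R
  let A : Set (P ⊕ Q) := Sum.inl '' Set.univ
  let B : Set (P ⊕ Q) := Sum.inr '' D
  have hB : (K.full B).WC :=
    (Qui_map le' R Sum.inr Sum.inr_injective (fun _ _ => Iff.rfl) _ D fun _ => Iff.rfl).1 hD
  have hU : (K.full (A ∪ B)).WC := by
    refine (SC.morse K B (A ∪ B) Set.subset_union_right (Sum.elim rk fun _ => 0)
      (InvImage.wf _ wellFounded_lt).wellFoundedOn ?_ ?_).1 hB
    · rintro _ ⟨⟨a, -, rfl⟩ | ha, ha'⟩ _ ⟨⟨b, -, rfl⟩ | hb, hb'⟩ hab h
      · have hab' : a ≠ b := fun e => hab (congrArg _ e)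
        rcases Qui_pair hab h with h | h
        · exact (hrk a b h hab').ne
        · exact (hrk b a h hab'.symm).ne'
      · exact absurd hb hb'
      · exact absurd ha ha'
      · exact absurd ha ha'
    · rintro _ ⟨⟨a, -, rfl⟩ | ha, ha'⟩ -
      swap
      · exact absurd ha ha'
      have key : ∀ b, ((K.link (.inl a)).full (B ∪ {b | b ∈ A ∪ B ∧
          Sum.elim rk (fun _ => 0) b < Sum.elim rk (fun _ => 0) (.inl a : P ⊕ Q)})).face b →
          ((K.link (.inl a)).full (B ∪ {b | b ∈ A ∪ B ∧
          Sum.elim rk (fun _ => 0) b < Sum.elim rk (fun _ => 0) (.inl a : P ⊕ Q)})).face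
            (insert (.inr (f a)) b) := by
        rintro b ⟨h1, h2⟩
        obtain ⟨h3, h4, h5⟩ := (Qui_link R _ _).1 h1
        have h6 : ∀ v ∈ b, R (.inr (f a)) v ∨ R v (.inr (f a)) := by
          rintro (a' | b') hv
          · rcases h5 _ hv with h | h
            · exfalso
              have hne : a ≠ a' := fun e => h3 (e ▸ hv)
              rcases h2 _ hv with ⟨_, -, h7⟩ | ⟨-, h7⟩
              · cases h7
              · exact lt_asymm (hrk a a' h hne) h7
            · exact Or.inr (mono a' a h)
          · rcases h5 _ hv with h | h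
            · exact Or.inl h
            · exact h.elim
        refine ⟨(Qui_link R _ _).2 ⟨?_, ?_, ?_⟩, ?_⟩
        · intro h
          rcases Finset.mem_insert.1 h with h | h
          · cases h
          · exact h3 h
        · intro u hu v hv huv
          rcases Finset.mem_insert.1 hu with rfl | hu' <;>
            rcases Finset.mem_insert.1 hv with rfl | hv'
          · exact absurd rfl huv
          · exact h6 v hv'
          · exact (h6 u hu').symm
          · exact h4 u hu' v hv' huv
        · intro v hv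
          rcases Finset.mem_insert.1 hv with rfl | hv'
          · exact Or.inl (rf' _)
          · exact h5 v hv'
        · intro v hv
          rcases Finset.mem_insert.1 hv with rfl | hv'
          · exact Or.inl ⟨_, hf a, rfl⟩
          · exact h2 v hv'
      refine SC.wc_cone _ (.inr (f a)) ?_ key
      have := key ∅ ⟨(Qui_link R _ _).2 ⟨Finset.notMem_empty _,
        fun u hu => absurd hu (Finset.notMem_empty _),
        fun u hu => absurd hu (Finset.notMem_empty _)⟩,
        fun u hu => absurd hu (Finset.notMem_empty _)⟩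
      exact SC.down _ (fun v hv => Finset.mem_insert.2 (Or.inl (Finset.mem_singleton.1 hv))) this
  have hA : (K.full A).WC := by
    refine (SC.morse K A (A ∪ B) Set.subset_union_left (Sum.elim (fun _ => 0) fun b => N - rk' b)
      (InvImage.wf _ wellFounded_lt).wellFoundedOn ?_ ?_).2 hU
    · rintro _ ⟨ha | ⟨a, -, rfl⟩, ha'⟩ _ ⟨hb | ⟨b, -, rfl⟩, hb'⟩ hab h
      · exact absurd ha ha'
      · exact absurd ha ha'
      · exact absurd hb hb'
      · have hab' : a ≠ b := fun e => hab (congrArg _ e)
        have := hN a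
        have := hN b
        change N - rk' a ≠ N - rk' b
        rcases Qui_pair hab h with h | h
        · have := hrk' a b h hab'
          omega
        · have := hrk' b a h hab'.symm
          omega
    · rintro _ ⟨hy | ⟨y, hy, rfl⟩, hy'⟩ -
      · exact absurd hy hy'
      refine SC.wc_join _ A ?_ ?_
      · refine (Qui_map le R Sum.inl Sum.inl_injective (fun _ _ => Iff.rfl) _ _ fun b => ?_).1
          (fib y hy)
        constructor
        · rintro ⟨⟨h1, -⟩, h2⟩
          obtain ⟨-, h4, h5⟩ := (Qui_link R _ _).1 h1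
          refine ⟨h4, fun v hv => ?_⟩
          obtain ⟨a, -, rfl⟩ := h2 v hv
          rcases h5 _ hv with h | h
          · exact h.elim
          · exact ⟨a, h, rfl⟩
        · rintro ⟨h1, h2⟩
          have h3 : ∀ v ∈ b, v ∈ A := fun v hv => by
            obtain ⟨a, -, rfl⟩ := h2 v hv
            exact ⟨a, trivial, rfl⟩
          refine ⟨⟨(Qui_link R _ _).2 ⟨fun h => hy' (h3 _ h), h1, fun v hv => ?_⟩,
            fun v hv => Or.inl (h3 v hv)⟩, h3⟩
          obtain ⟨a, ha, rfl⟩ := h2 v hv
          exact Or.inr ha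
      · rintro a b ⟨h1, h2⟩ ha ⟨h1', h2'⟩ hb
        obtain ⟨h3, h4, h5⟩ := (Qui_link R _ _).1 h1
        obtain ⟨h3', h4', h5'⟩ := (Qui_link R _ _).1 h1'
        have h6 : ∀ u ∈ a, ∀ v ∈ b, R u v := by
          intro u hu v hv
          obtain ⟨u, -, rfl⟩ := ha u hu
          rcases v with v | v
          · exact absurd ⟨v, trivial, rfl⟩ (hb _ hv)
          have h7 : le' (f u) y := (h5 _ hu).resolve_left id
          rcases h5' _ hv with h | h
          · exact tr' _ _ _ h7 h
          · exfalso
            have hne : v ≠ y := fun e => h3' (e ▸ hv)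
            rcases h2' _ hv with h8 | ⟨-, h8⟩
            · exact hb _ hv h8
            · have := hrk' v y h hne
              have := hN y
              change N - rk' v < N - rk' y at h8
              omega
        refine ⟨(Qui_link R _ _).2 ⟨?_, ?_, ?_⟩, ?_⟩
        · intro h
          exact (Finset.mem_union.1 h).elim h3 h3'
        · intro u hu v hv huv
          rcases Finset.mem_union.1 hu with hu' | hu' <;> rcases Finset.mem_union.1 hv with hv' | hv'
          · exact h4 u hu' v hv' huv
          · exact Or.inl (h6 u hu' v hv')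
          · exact Or.inr (h6 v hv' u hu')
          · exact h4' u hu' v hv' huv
        · intro v hv
          exact (Finset.mem_union.1 hv).elim (h5 v) (h5' v)
        · intro v hv
          exact (Finset.mem_union.1 hv).elim (h2 v) (h2' v)
  have := (Qui_map le R Sum.inl Sum.inl_injective (fun _ _ => Iff.rfl) _ Set.univ
    fun _ => Iff.rfl).2 hA
  have e : (SC.flag le).full Set.univ = SC.flag le :=
    SC.ext' fun a => ⟨fun h => h.1, fun h => ⟨h, fun _ _ => trivial⟩⟩
  rwa [e] at this

variable {S : Type} [Fintype S] [DecidableEq S] {M : CoxeterMatrix S}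

theorem salT_wc_of (h1 : ∀ (T : Finset S) (h : Art M), Spherical M T →
      ((SC.flag (SalTLE M)).full {q | q.1.2 ⊆ T ∧ h⁻¹ * q.1.1 ∈ AP M T}).WC)
    (h2 : ((SC.flag (CsLE M)).full {a | Spherical M a.1}).WC) : (SC.flag (SalTLE M)).WC := by
  refine quillen (SalTLE M) (CsLE M) {a | Spherical M a.1} (fun _ _ _ => SalTLE.trans)
    (fun _ _ _ => CsLE.trans) CsLE.refl (fun p => p.1.2.card) (fun a => a.1.card)
    (Fintype.card S) (fun b => Finset.card_le_univ _) ?_ ?_ (fun p => cst M p.1.1 p.1.2)
    (fun p => p.2) (fun _ _ => SalTLE.cst) ?_ h2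
  · intro a b h hne
    exact Finset.card_lt_card ⟨h.1, fun h' => hne (h.eq_of_subset h')⟩
  · intro a b h hne
    exact Finset.card_lt_card ⟨h.1, fun h' => hne (h.eq_of_subset h')⟩
  · intro y hy
    obtain ⟨g, hg⟩ := exists_cst y
    have := h1 y.1 g hy
    have e : {a : SalT M | CsLE M (cst M a.1.1 a.1.2) y} =
        {q : SalT M | q.1.2 ⊆ y.1 ∧ g⁻¹ * q.1.1 ∈ AP M y.1} := by
      ext a
      conv_lhs => rw [hg]
      exact csLE_iff
    rw [e]
    exact this

end Vale.Agent.P203
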