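import Vale.Agent.P203.Lk
import Vale.Agent.P203.SalO
import Vale.Agent.P203.Flg

/-! Part Sd: from the Artin complex to its face poset, and the Deligne complex. -/

namespace Vale.Agent.P203
open Classical CoxeterSystem

variable {S : Type} [Fintype S] [DecidableEq S] {M : CoxeterMatrix S}

theorem AP_of_forall {x : Art M} {T : Finset S} (hx : x ∈ AP M T) (D : Finset S)
    (h : ∀ t ∈ D, x ∈ AP M (Finset.univ.erase t)) : x ∈ AP M (T \ D) := by
  induction D using Finset.induction_on with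
  | empty => simpa using hx
  | insert t D _ ih =>
    have := AP_inter M (ih fun u hu => h u (Finset.mem_insert_of_mem hu))
      (h t (Finset.mem_insert_self _ _))
    refine AP_mono M (fun u hu => ?_) this
    simp only [Finset.mem_inter, Finset.mem_sdiff, Finset.mem_erase, Finset.mem_insert] at hu ⊢
    tauto

/-- The face of the Artin complex attached to a coset. -/
noncomputable def csFace (T : Finset S) (a : Cs M) : Finset (Vt M) :=
  (T \ a.1).image (vtx M (exists_cst a).choose)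

theorem csFace_cst (T : Finset S) (k : Art M) (X : Finset S) :
    csFace T (cst M k X) = (T \ X).image (vtx M k) := by
  refine Finset.image_congr fun t ht => ?_
  have := (exists_cst (cst M k X)).choose_spec
  exact (vtx_of_mem (K := X) (cst_eq_iff.1 this) (Finset.mem_sdiff.1 ht).2).symm

theorem csFace_sub {T X X' : Finset S} {k k' : Art M} (hX : X ⊆ T) (hk : k'⁻¹ * k ∈ AP M T) :
    csFace T (cst M k' X') ⊆ csFace T (cst M k X) ↔ CsLE M (cst M k X) (cst M k' X') := by
  rw [csFace_cst, csFace_cst, csLE_iff]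
  constructor
  · intro h
    have h1 : ∀ t ∈ T \ X', t ∈ T \ X ∧ vtx M k' t = vtx M k t := by
      intro t ht
      obtain ⟨t', ht', e⟩ := Finset.mem_image.1 (h (Finset.mem_image_of_mem _ ht))
      have : t' = t := congrArg Sigma.fst e
      subst this
      exact ⟨ht', e.symm⟩
    refine ⟨fun t ht => ?_, AP_mono M (fun t ht => ?_)
      (AP_of_forall hk (T \ X') fun t ht => vtx_eq_iff.1 (h1 t ht).2)⟩
    · by_contra h'
      exact (Finset.mem_sdiff.1 (h1 t (Finset.mem_sdiff.2 ⟨hX ht, h'⟩)).1).2 ht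
    · simp only [Finset.mem_sdiff] at ht
      tauto
  · rintro ⟨h1, h2⟩ y hy
    obtain ⟨t, ht, rfl⟩ := Finset.mem_image.1 hy
    rw [Finset.mem_sdiff] at ht
    exact Finset.mem_image.2 ⟨t, Finset.mem_sdiff.2 ⟨ht.1, fun h => ht.2 (h1 h)⟩,
      (vtx_of_mem h2 ht.2).symm⟩

theorem Dl_card {g : Art M} {T : Finset S} (a : Finset (Vt M)) (ha : (Dl M g T).face a) :
    a.card ≤ Fintype.card S := by
  obtain ⟨k, -, ha⟩ := ha
  refine Finset.card_le_card_of_injOn (t := Finset.univ) (fun y => y.1) (fun _ _ => by simp)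
    fun y hy z hz e => ?_
  have e' : y.1 = z.1 := e
  rw [(ha y hy).2, (ha z hz).2, e']

theorem sd_wc {g : Art M} {T : Finset S} (h : (Dl M g T).WC) :
    ((SC.flag (CsLE M)).full {a | CsLE M a (cst M g T) ∧ a ≠ cst M g T}).WC := by
  have hsub : ∀ a b : Cs M, CsLE M a (cst M g T) → CsLE M b (cst M g T) →
      (csFace T b ⊆ csFace T a ↔ CsLE M a b) := by
    intro a b ha hb
    obtain ⟨k, e⟩ := exists_cst a
    obtain ⟨k', e'⟩ := exists_cst b
    rw [e, csLE_iff] at ha
    rw [e', csLE_iff] at hb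
    rw [e, e']
    exact csFace_sub ha.1 (cos_trans (cos_symm hb.2) ha.2)
  refine (SC.flg_iff _ _ _ _ (csFace T) (fun a ha b hb e => ?_) (fun a ha => ?_) (fun b hb => ?_)
    fun a ha b hb => ?_).2 (SC.bary_wc _ _ Dl_card h)
  · exact CsLE.eq_of_subset ((hsub a b ha.1 hb.1).1 (e ▸ subset_rfl))
      ((hsub b a hb.1 ha.1).1 (e ▸ subset_rfl)).1
  · obtain ⟨k, e⟩ := exists_cst a
    have h1 := ha.1
    rw [e, csLE_iff] at h1
    rw [e, csFace_cst]
    refine ⟨⟨k, h1.2, fun y hy => ?_⟩, Finset.image_nonempty.2 (Finset.sdiff_nonempty.2 fun h => ?_)⟩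
    · obtain ⟨t, ht, rfl⟩ := Finset.mem_image.1 hy
      exact ⟨(Finset.mem_sdiff.1 ht).1, rfl⟩
    · exact ha.2 (CsLE.eq_of_subset ha.1 h)
  · obtain ⟨⟨k, hk, hb⟩, y, hy⟩ := hb
    refine ⟨cst M k (T \ b.image fun y => y.1), ⟨csLE_iff.2 ⟨Finset.sdiff_subset, hk⟩,
      fun e => ?_⟩, ?_⟩
    · have e' : T \ b.image (fun y => y.1) = T := congrArg Sigma.fst e
      have := (hb y hy).1
      rw [← e'] at this
      exact (Finset.mem_sdiff.1 this).2 (Finset.mem_image_of_mem _ hy)
    · rw [csFace_cst]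
      ext z
      rw [Finset.mem_image]
      constructor
      · rintro ⟨t, ht, rfl⟩
        have : t ∈ b.image fun y => y.1 := by
          by_contra h
          exact (Finset.mem_sdiff.1 ht).2 (Finset.mem_sdiff.2 ⟨(Finset.mem_sdiff.1 ht).1, h⟩)
        obtain ⟨z, hz, rfl⟩ := Finset.mem_image.1 this
        rwa [← (hb z hz).2]
      · intro hz
        exact ⟨z.1, Finset.mem_sdiff.2 ⟨(hb z hz).1, fun h =>
          (Finset.mem_sdiff.1 h).2 (Finset.mem_image_of_mem _ hz)⟩, (hb z hz).2.symm⟩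
  · rw [hsub a b ha.1 hb.1, hsub b a hb.1 ha.1, or_comm]

theorem deligneCx_wc (h : ∀ g T, ¬ Spherical M T → (Dl M g T).WC) :
    ((SC.flag (CsLE M)).full {a | Spherical M a.1}).WC := by
  refine (SC.flg_morse (CsLE M) _ Set.univ (Set.subset_univ _) (fun a => a.1.card)
    (InvImage.wf (fun a : Cs M => a.1.card) wellFounded_lt).wellFoundedOn
    (fun a _ b _ hab hle e => hab (hle.eq_of_subset
      (Finset.eq_of_subset_of_card_le hle.1 e.ge).ge)) fun y hy => ?_).2 ?_
  · obtain ⟨g, e⟩ := exists_cst y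
    have := sd_wc (h g y.1 hy.2)
    rw [← e] at this
    convert this using 2
    ext b
    constructor
    · rintro ⟨h1, h2, h3 | h3⟩
      · exact ⟨h3, h2⟩
      · rcases h1 with h1 | h1
        · exact absurd (Spherical.mono M h3.1 h1) hy.2
        · exact absurd (Finset.card_le_card h3.1) (not_le.2 h1.2)
    · rintro ⟨h1, h2⟩
      refine ⟨Or.inr ⟨trivial, Finset.card_lt_card ⟨h1.1, fun h => h2 (h1.eq_of_subset h)⟩⟩, h2,
        Or.inl h1⟩
  · refine SC.flg_cone _ _ (a := cst M 1 Finset.univ) trivial fun b _ _ => Or.inr ?_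
    obtain ⟨g, e⟩ := exists_cst b
    rw [e, csLE_iff]
    refine ⟨Finset.subset_univ _, ?_⟩
    have : AP M Finset.univ = ⊤ := by
      rw [← closure_sg M, AP]
      simp
    rw [this]
    trivial

end Vale.Agent.P203
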