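import Vale.Agent.P203.TopA
import Vale.Agent.P203.SalO

/-! Part TopB: the lifted Salvetti complex covers the Salvetti complex. -/

namespace Vale.Agent.P203
open Classical unitInterval Topology

variable {S : Type} [Fintype S] [DecidableEq S] (M : CoxeterMatrix S)

/-- comparability -/
def Cm {P : Type} (le : P → P → Prop) (a b : P) : Prop := le a b ∨ le b a

theorem TopB_supp {P : Type} {le : P → P → Prop} (rf : ∀ a, le a a) (x : Realization le) {a b : P}
    (ha : x.1 a ≠ 0) (hb : x.1 b ≠ 0) : Cm le a b := by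
  obtain ⟨c, hc, -, h2, -⟩ := x.2
  by_cases h : a = b
  · exact h ▸ Or.inl (rf a)
  · exact hc (by_contra fun h' => ha (h2 a h')) (by_contra fun h' => hb (h2 b h')) h

theorem TopB_push {P Q : Type} (le : P → P → Prop) (le' : Q → Q → Prop) (π : P → Q)
    (hfin : ∀ p, {q | le p q ∨ le q p}.Finite) (hfin' : ∀ p, {q | le' p q ∨ le' q p}.Finite)
    (rf : ∀ a, le a a) (rf' : ∀ a, le' a a) (mono : ∀ a b, le a b → le' (π a) (π b))
    (ex : ∀ a d, Cm le' (π a) d → ∃ b, Cm le a b ∧ π b = d)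
    (uq : ∀ a b b', Cm le a b → Cm le a b' → π b = π b' → b = b')
    (rfl3 : ∀ a b b', Cm le a b → Cm le a b' → Cm le' (π b) (π b') → Cm le b b')
    (hs : Function.Surjective π) :
    ∃ q : Realization le → Realization le', IsQuotientMap q ∧ ∀ x a, x.1 a ≠ 0 →
      (∀ b, Cm le a b → (q x).1 (π b) = x.1 b) ∧ ∀ d, ¬ Cm le' (π a) d → (q x).1 d = 0 := by
  have monoC : ∀ a b, Cm le a b → Cm le' (π a) (π b) := fun a b h =>
    h.imp (mono a b) (mono b a)
  have h1 : ∀ x : Realization le, ∃ y : Realization le', ∀ a, x.1 a ≠ 0 →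
      (∀ b, Cm le a b → y.1 (π b) = x.1 b) ∧ ∀ d, ¬ Cm le' (π a) d → y.1 d = 0 := by
    intro x
    obtain ⟨c, hc, h0, h2, h1⟩ := x.2
    refine ⟨⟨fun d => ∑ b ∈ c with π b = d, x.1 b, c.image π, ?_, ?_, ?_, ?_⟩, ?_⟩
    · intro u hu v hv huv
      obtain ⟨a, ha, rfl⟩ := Finset.mem_image.1 hu
      obtain ⟨b, hb, rfl⟩ := Finset.mem_image.1 hv
      exact monoC a b (hc ha hb fun h => huv (congrArg π h))
    · exact fun d => Finset.sum_nonneg fun b _ => h0 b
    · intro d hd
      refine Finset.sum_eq_zero fun b hb => ?_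
      obtain ⟨hb1, hb2⟩ := Finset.mem_filter.1 hb
      exact absurd (Finset.mem_image.2 ⟨b, hb1, hb2⟩) hd
    · rw [Finset.sum_fiberwise_of_maps_to fun b hb => Finset.mem_image_of_mem π hb]
      exact h1
    · intro a ha
      constructor
      · intro b hb
        refine Finset.sum_eq_single b (fun b' hb' hne => ?_) fun hb' => ?_
        · by_contra h
          exact hne (uq a b' b (TopB_supp rf x ha h) hb (Finset.mem_filter.1 hb').2)
        · exact h2 b fun h => hb' (Finset.mem_filter.2 ⟨h, rfl⟩)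
      · intro d hd
        refine Finset.sum_eq_zero fun b hb => ?_
        by_contra h
        exact hd ((Finset.mem_filter.1 hb).2 ▸ monoC a b (TopB_supp rf x ha h))
  choose q hq using h1
  have hI := real_isInducing hfin
  have hI' := real_isInducing hfin'
  have hev : ∀ a, Continuous fun x : Realization le => x.1 a := fun a =>
    (continuous_apply a).comp hI.continuous
  have hev' : ∀ a, Continuous fun x : Realization le' => x.1 a := fun a =>
    (continuous_apply a).comp hI'.continuous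
  have hqc : Continuous q := by
    refine hI'.continuous_iff.2 (continuous_pi fun d => continuous_iff_continuousAt.2 fun x => ?_)
    obtain ⟨a, ha⟩ := TopA_exists_pos x
    have hn : {y : Realization le | y.1 a ≠ 0} ∈ nhds x :=
      (isOpen_ne_fun (hev a) continuous_const).mem_nhds ha.ne'
    by_cases hd : Cm le' (π a) d
    · obtain ⟨b, hb, rfl⟩ := ex a d hd
      exact (hev b).continuousAt.congr (Filter.mem_of_superset hn fun y hy =>
        ((hq y a hy).1 b hb).symm)
    · exact (continuous_const (y := (0 : ℝ))).continuousAt.congr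
        (Filter.mem_of_superset hn fun y hy => ((hq y a hy).2 d hd).symm)
  have sec : ∀ (a : P) (y : Realization le'), y.1 (π a) ≠ 0 → ∃ x : Realization le,
      (x.1 = fun p => if Cm le a p then y.1 (π p) else 0) ∧ q x = y := by
    intro a y hy
    obtain ⟨c, hc, h0, h2, h1⟩ := y.2
    have hac : π a ∈ c := by_contra fun h => hy (h2 _ h)
    have hcm : ∀ d ∈ c, Cm le' (π a) d := fun d hd => by
      by_cases h : π a = d
      · exact h ▸ Or.inl (rf' _)
      · exact hc hac hd h
    have : ∀ d, ∃ b, d ∈ c → Cm le a b ∧ π b = d := fun d => by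
      by_cases h : d ∈ c
      · obtain ⟨b, hb⟩ := ex a d (hcm d h)
        exact ⟨b, fun _ => hb⟩
      · exact ⟨a, fun h' => absurd h' h⟩
    choose l hl using this
    let x : Realization le := ⟨fun p => if Cm le a p then y.1 (π p) else 0, c.image l, by
      intro u hu v hv huv
      obtain ⟨d, hd, rfl⟩ := Finset.mem_image.1 hu
      obtain ⟨d', hd', rfl⟩ := Finset.mem_image.1 hv
      refine rfl3 a _ _ (hl d hd).1 (hl d' hd').1 ?_
      rw [(hl d hd).2, (hl d' hd').2]
      exact hc hd hd' fun h => huv (congrArg l h), fun p => by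
      dsimp only
      split_ifs
      · exact h0 _
      · exact le_rfl, fun p hp => by
      dsimp only
      split_ifs with h
      · refine h2 _ fun h' => hp (Finset.mem_image.2 ⟨π p, h', ?_⟩)
        exact uq a _ _ (hl _ h').1 h (hl _ h').2
      · rfl, by
      rw [Finset.sum_image fun d hd d' hd' h => by rw [← (hl d hd).2, h, (hl d' hd').2]]
      refine Eq.trans (Finset.sum_congr rfl fun d hd => ?_) h1
      rw [if_pos (hl d hd).1, (hl d hd).2]⟩
    refine ⟨x, rfl, Subtype.ext (funext fun d => ?_)⟩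
    have hxa : x.1 a ≠ 0 := by
      change (if Cm le a a then y.1 (π a) else 0) ≠ 0
      rw [if_pos (show Cm le a a from Or.inl (rf a))]
      exact hy
    by_cases hd : Cm le' (π a) d
    · obtain ⟨b, hb, rfl⟩ := ex a d hd
      rw [(hq x a hxa).1 b hb]
      exact if_pos hb
    · rw [(hq x a hxa).2 d hd]
      exact (h2 d fun h => hd (hcm d h)).symm
  refine ⟨q, ⟨.of_isOpen_preimage_iff_isOpen fun U => ⟨fun h => ?_, fun h => h.preimage hqc⟩,
    fun y => ?_⟩, hq⟩
  · obtain ⟨V, hV, hVU⟩ := hI.isOpen_iff.1 h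
    refine isOpen_iff_forall_mem_open.2 fun y hy => ?_
    obtain ⟨d, hd⟩ := TopA_exists_pos y
    obtain ⟨a, rfl⟩ := hs d
    let s : Realization le' → P → ℝ := fun y p => if Cm le a p then y.1 (π p) else 0
    have hsc : Continuous s := continuous_pi fun p => by
      by_cases h : Cm le a p
      · simp only [s, if_pos h]
        exact hev' _
      · simp only [s, if_neg h]
        exact continuous_const
    refine ⟨{z | z.1 (π a) ≠ 0} ∩ s ⁻¹' V, ?_,
      (isOpen_ne_fun (hev' _) continuous_const).inter (hV.preimage hsc), hd.ne', ?_⟩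
    · rintro z ⟨hz, hzV⟩
      obtain ⟨x, hx, rfl⟩ := sec a z hz
      have : x ∈ (fun x : Realization le => x.1) ⁻¹' V := by
        change x.1 ∈ V
        rw [hx]
        exact hzV
      rw [hVU] at this
      exact this
    · obtain ⟨x, hx, hxy⟩ := sec a y hd.ne'
      have : x ∈ q ⁻¹' U := by
        change q x ∈ U
        rw [hxy]
        exact hy
      rw [← hVU] at this
      change x.1 ∈ V at this
      rw [hx] at this
      exact this
  · obtain ⟨d, hd⟩ := TopA_exists_pos y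
    obtain ⟨a, rfl⟩ := hs d
    obtain ⟨x, -, hx⟩ := sec a y hd.ne'
    exact ⟨x, hx⟩

/-- left multiplication on cells upstairs -/
def SalT.mul {S : Type} {M : CoxeterMatrix S} (g : Art M) (p : SalT M) : SalT M :=
  ⟨(g * p.1.1, p.1.2), p.2⟩

/-- generic projection -/
def prG {A B C : Type} (f : A → B) (P : C → Prop) (p : {p : A × C // P p.2}) :
    {p : B × C // P p.2} := ⟨(f p.1.1, p.1.2), p.2⟩

theorem prG_fst {A B C : Type} (f : A → B) (P : C → Prop) (p : {p : A × C // P p.2}) :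
    (prG f P p).1.1 = f p.1.1 := rfl

theorem prG_snd {A B C : Type} (f : A → B) (P : C → Prop) (p : {p : A × C // P p.2}) :
    (prG f P p).1.2 = p.1.2 := rfl

/-- generic change of the first component -/
def mkG {A B C : Type} (P : C → Prop) (a : A) (p : {p : B × C // P p.2}) :
    {p : A × C // P p.2} := ⟨(a, p.1.2), p.2⟩

theorem mkG_fst {A B C : Type} (P : C → Prop) (a : A) (p : {p : B × C // P p.2}) :
    (mkG P a p).1.1 = a := rfl

theorem mkG_snd {A B C : Type} (P : C → Prop) (a : A) (p : {p : B × C // P p.2}) :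
    (mkG P a p).1.2 = p.1.2 := rfl

theorem SalT.exists_mk {S : Type} {M : CoxeterMatrix S} (g : Art M) (d : SalCell M) :
    ∃ b : SalT M, b.1.1 = g ∧ b.1.2 = d.1.2 :=
  ⟨mkG (Spherical M) g d, mkG_fst _ _ _, mkG_snd _ _ _⟩

/-- projection of cells -/
noncomputable def SalT.pr {S : Type} {M : CoxeterMatrix S} (p : SalT M) : SalCell M :=
  prG (toW M) (Spherical M) p

theorem SalT.pr_fst {S : Type} {M : CoxeterMatrix S} (p : SalT M) : p.pr.1.1 = toW M p.1.1 :=
  prG_fst _ _ p

theorem SalT.pr_snd {S : Type} {M : CoxeterMatrix S} (p : SalT M) : p.pr.1.2 = p.1.2 :=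
  prG_snd _ _ p

theorem SalT.pr_eq_iff {S : Type} {M : CoxeterMatrix S} {p : SalT M} {d : SalCell M} :
    p.pr = d ↔ toW M p.1.1 = d.1.1 ∧ p.1.2 = d.1.2 :=
  ⟨fun h => ⟨p.pr_fst.symm.trans (congrArg (fun z : SalCell M => z.1.1) h),
    p.pr_snd.symm.trans (congrArg (fun z : SalCell M => z.1.2) h)⟩,
    fun h => Subtype.ext (Prod.ext (p.pr_fst.trans h.1) (p.pr_snd.trans h.2))⟩

section
variable {M}
omit [Fintype S] [DecidableEq S]

theorem SalT.mul_mul (g h : Art M) (p : SalT M) : SalT.mul g (SalT.mul h p) = SalT.mul (g * h) p :=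
  Subtype.ext (Prod.ext (mul_assoc g h _).symm rfl)

theorem SalT.one_mul' (p : SalT M) : SalT.mul 1 p = p := Subtype.ext (Prod.ext (one_mul _) rfl)

theorem SalTLE.mul (g : Art M) {p q : SalT M} (h : SalTLE M p q) :
    SalTLE M (SalT.mul g p) (SalT.mul g q) := by
  obtain ⟨h1, w, hw, hm, he⟩ := h
  refine ⟨h1, w, hw, hm, ?_⟩
  change g * p.1.1 = g * q.1.1 * lf M w
  rw [he, mul_assoc]

theorem SalT.cm_mul (g : Art M) {p q : SalT M} (h : Cm (SalTLE M) p q) :
    Cm (SalTLE M) (SalT.mul g p) (SalT.mul g q) := h.imp (SalTLE.mul g) (SalTLE.mul g)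

theorem SalCell.mul_mul (g h : M.Group) (p : SalCell M) :
    SalCell.mul M g (SalCell.mul M h p) = SalCell.mul M (g * h) p :=
  Subtype.ext (Prod.ext (mul_assoc g h _).symm rfl)

theorem SalCell.one_mul' (p : SalCell M) : SalCell.mul M 1 p = p :=
  Subtype.ext (Prod.ext (one_mul _) rfl)

theorem SalLE.mul (g : M.Group) {p q : SalCell M} (h : SalLE M p q) :
    SalLE M (SalCell.mul M g p) (SalCell.mul M g q) := by
  have e : (g * q.1.1)⁻¹ * (g * p.1.1) = q.1.1⁻¹ * p.1.1 := by group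
  refine ⟨h.1, ?_, ?_⟩
  · change (g * q.1.1)⁻¹ * (g * p.1.1) ∈ _
    rw [e]
    exact h.2.1
  · change MinIn M ((g * q.1.1)⁻¹ * (g * p.1.1)) _
    rw [e]
    exact h.2.2

theorem SalT.pr_mul (g : Art M) (p : SalT M) :
    (SalT.mul g p).pr = SalCell.mul M (toW M g) p.pr :=
  SalT.pr_eq_iff.2 ⟨(map_mul (toW M) g _).trans (congrArg (toW M g * ·) p.pr_fst.symm),
    p.pr_snd.symm⟩

/-- the action on the realization -/
noncomputable def realAct (g : Art M) (x : Realization (SalTLE M)) : Realization (SalTLE M) :=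
  ⟨fun p => x.1 (SalT.mul g⁻¹ p), by
    obtain ⟨c, hc, h0, h2, h1⟩ := x.2
    have hinv : ∀ p, SalT.mul g⁻¹ (SalT.mul g p) = p := fun p => by
      rw [SalT.mul_mul, inv_mul_cancel, SalT.one_mul']
    refine ⟨c.image (SalT.mul g), ?_, fun p => h0 _, fun p hp => h2 _ fun h => hp ?_, ?_⟩
    · intro u hu v hv huv
      obtain ⟨a, ha, rfl⟩ := Finset.mem_image.1 hu
      obtain ⟨b, hb, rfl⟩ := Finset.mem_image.1 hv
      exact SalT.cm_mul g (hc ha hb fun h => huv (congrArg _ h))
    · refine Finset.mem_image.2 ⟨_, h, ?_⟩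
      rw [SalT.mul_mul, mul_inv_cancel, SalT.one_mul']
    · rw [Finset.sum_image fun a _ b _ h => by rw [← hinv a, h, hinv]]
      simp only [hinv]
      exact h1⟩

/-- the action on the realization -/
@[reducible] noncomputable def realMulAction : MulAction (Art M) (Realization (SalTLE M)) where
  smul := realAct
  one_smul x := Subtype.ext (funext fun p => by
    change x.1 (SalT.mul 1⁻¹ p) = x.1 p
    rw [inv_one, SalT.one_mul'])
  mul_smul g h x := Subtype.ext (funext fun p => by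
    change x.1 (SalT.mul (g * h)⁻¹ p) = x.1 (SalT.mul h⁻¹ (SalT.mul g⁻¹ p))
    rw [SalT.mul_mul, mul_inv_rev])

end

section
variable {M}
omit [Fintype S]

theorem SalTLE.pr {a b : SalT M} (h : SalTLE M a b) : SalLE M a.pr b.pr := by
  obtain ⟨h1, w, hw, hm, he⟩ := h
  have e : (toW M b.1.1)⁻¹ * toW M a.1.1 = w := by
    rw [he, map_mul, toW_lf, inv_mul_cancel_left]
  unfold SalLE
  rw [SalT.pr_fst, SalT.pr_fst, SalT.pr_snd, SalT.pr_snd, e]
  exact ⟨h1, hw, hm⟩

theorem TopB_L1 (a : SalT M) (d : SalCell M) (h : SalLE M d a.pr) :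
    ∃ b, SalTLE M b a ∧ b.pr = d := by
  unfold SalLE at h
  rw [SalT.pr_fst, SalT.pr_snd] at h
  obtain ⟨b, hb1, hb2⟩ := SalT.exists_mk (a.1.1 * lf M ((toW M a.1.1)⁻¹ * d.1.1)) d
  refine ⟨b, ?_, SalT.pr_eq_iff.2 ⟨?_, hb2⟩⟩
  · unfold SalTLE
    rw [hb1, hb2]
    exact ⟨h.1, _, h.2.1, h.2.2, rfl⟩
  · rw [hb1, map_mul, toW_lf, mul_inv_cancel_left]

theorem TopB_L2 (a : SalT M) (d : SalCell M) (h : SalLE M a.pr d) :
    ∃ b, SalTLE M a b ∧ b.pr = d := by
  unfold SalLE at h
  rw [SalT.pr_fst, SalT.pr_snd] at h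
  obtain ⟨b, hb1, hb2⟩ := SalT.exists_mk (a.1.1 * (lf M (d.1.1⁻¹ * toW M a.1.1))⁻¹) d
  refine ⟨b, ?_, SalT.pr_eq_iff.2 ⟨?_, hb2⟩⟩
  · unfold SalTLE
    rw [hb1, hb2]
    exact ⟨h.1, _, h.2.1, h.2.2, (inv_mul_cancel_right _ _).symm⟩
  · rw [hb1, map_mul, map_inv, toW_lf]
    group

theorem TopB_U1 {a b b' : SalT M} (h : SalTLE M b a) (h' : SalTLE M b' a) (e : b.pr = b'.pr) :
    b = b' := by
  obtain ⟨-, w, -, -, he⟩ := h
  obtain ⟨-, w', -, -, he'⟩ := h'
  have e1 : toW M b.1.1 = toW M b'.1.1 := (SalT.pr_eq_iff.1 e).1.trans b'.pr_fst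
  have e2 : b.1.2 = b'.1.2 := (SalT.pr_eq_iff.1 e).2.trans b'.pr_snd
  rw [he, he', map_mul, map_mul, toW_lf, toW_lf, mul_right_inj] at e1
  exact Subtype.ext (Prod.ext (by rw [he, he', e1]) e2)

theorem TopB_U2 {a b b' : SalT M} (h : SalTLE M a b) (h' : SalTLE M a b') (e : b.pr = b'.pr) :
    b = b' := by
  obtain ⟨-, w, -, -, he⟩ := h
  obtain ⟨-, w', -, -, he'⟩ := h'
  have e1 : toW M b.1.1 = toW M b'.1.1 := (SalT.pr_eq_iff.1 e).1.trans b'.pr_fst
  have e2 : b.1.2 = b'.1.2 := (SalT.pr_eq_iff.1 e).2.trans b'.pr_snd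
  have e3 := congrArg (toW M) (he.symm.trans he')
  rw [map_mul, map_mul, toW_lf, toW_lf, e1, mul_right_inj] at e3
  have e4 := he.symm.trans he'
  rw [e3, mul_left_inj] at e4
  exact Subtype.ext (Prod.ext e4 e2)

theorem TopB_uq (a b b' : SalT M) (h : Cm (SalTLE M) a b) (h' : Cm (SalTLE M) a b')
    (e : b.pr = b'.pr) : b = b' := by
  have e2 : b.1.2 = b'.1.2 := (SalT.pr_eq_iff.1 e).2.trans b'.pr_snd
  rcases h with h | h <;> rcases h' with h' | h'
  · exact TopB_U2 h h' e
  · exact ((h'.trans h).eq_of_subset e2.subset).symm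
  · exact (h.trans h').eq_of_subset e2.symm.subset
  · exact TopB_U1 h h' e

theorem TopB_rfl3 (a b b' : SalT M) (h : Cm (SalTLE M) a b) (h' : Cm (SalTLE M) a b')
    (e : Cm (SalLE M) b.pr b'.pr) : Cm (SalTLE M) b b' := by
  rcases h with h | h <;> rcases h' with h' | h'
  · rcases e with e | e
    · obtain ⟨c, hc, hce⟩ := TopB_L2 b _ e
      exact Or.inl (TopB_U2 (h.trans hc) h' hce ▸ hc)
    · obtain ⟨c, hc, hce⟩ := TopB_L2 b' _ e
      exact Or.inr (TopB_U2 (h'.trans hc) h hce ▸ hc)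
  · exact Or.inr (h'.trans h)
  · exact Or.inl (h.trans h')
  · rcases e with e | e
    · obtain ⟨c, hc, hce⟩ := TopB_L1 b' _ e
      exact Or.inl (TopB_U1 (hc.trans h') h hce ▸ hc)
    · obtain ⟨c, hc, hce⟩ := TopB_L1 b _ e
      exact Or.inr (TopB_U1 (hc.trans h) h' hce ▸ hc)

theorem TopB_ex (a : SalT M) (d : SalCell M) (h : Cm (SalLE M) a.pr d) :
    ∃ b, Cm (SalTLE M) a b ∧ b.pr = d := by
  rcases h with h | h
  · obtain ⟨b, hb, e⟩ := TopB_L2 a d h
    exact ⟨b, Or.inl hb, e⟩
  · obtain ⟨b, hb, e⟩ := TopB_L1 a d h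
    exact ⟨b, Or.inr hb, e⟩

end

theorem exists_qcover : ∃ p : Realization (SalTLE M) → Salvetti M,
    @IsQuotientCoveringMap _ _ _ _ p (Art M) _ realMulAction := by
  obtain ⟨q, hq, hqx⟩ := TopB_push (SalTLE M) (SalLE M) SalT.pr salT_locFin sal_locFin SalTLE.refl
    SalLE.refl (fun _ _ => SalTLE.pr) TopB_ex TopB_uq TopB_rfl3 (fun d => by
      obtain ⟨b, hb1, hb2⟩ := SalT.exists_mk (lf M d.1.1) d
      exact ⟨b, SalT.pr_eq_iff.2 ⟨by rw [hb1, toW_lf], hb2⟩⟩)
  let r : Realization (SalLE M) → Realization (SalLE M) → Prop := fun x y =>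
    ∃ w : M.Group, ∀ p, y.1 (SalCell.mul M w p) = x.1 p
  have hr : Equivalence r := by
    refine ⟨fun x => ⟨1, fun p => by rw [SalCell.one_mul']⟩, ?_, ?_⟩
    · rintro x y ⟨w, hw⟩
      refine ⟨w⁻¹, fun p => ?_⟩
      rw [← hw, SalCell.mul_mul, mul_inv_cancel, SalCell.one_mul']
    · rintro x y z ⟨w, hw⟩ ⟨w', hw'⟩
      refine ⟨w' * w, fun p => ?_⟩
      rw [← SalCell.mul_mul, hw', hw]
  have hI := real_isInducing (salT_locFin (M := M))
  have hev : ∀ a, Continuous fun x : Realization (SalTLE M) => x.1 a := fun a =>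
    (continuous_apply a).comp hI.continuous
  have hinv : ∀ (g : Art M) p, SalT.mul g⁻¹ (SalT.mul g p) = p := fun g p => by
    rw [SalT.mul_mul, inv_mul_cancel, SalT.one_mul']
  have hinv' : ∀ (g : Art M) p, SalT.mul g (SalT.mul g⁻¹ p) = p := fun g p => by
    rw [SalT.mul_mul, mul_inv_cancel, SalT.one_mul']
  letI : MulAction (Art M) (Realization (SalTLE M)) := realMulAction
  have hsm : ∀ (g : Art M) (x : Realization (SalTLE M)) p, (g • x).1 p = x.1 (SalT.mul g⁻¹ p) :=
    fun _ _ _ => rfl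
  have hquot : IsQuotientMap (fun x => (Quot.mk _ (q x) : Salvetti M)) :=
    isQuotientMap_quot_mk.comp hq
  have hcov : IsQuotientCoveringMap (fun x => (Quot.mk _ (q x) : Salvetti M)) (Art M) := by
    refine { hquot with
      continuous_const_smul := fun g => hI.continuous_iff.2 (continuous_pi fun p => hev _)
      apply_eq_iff_mem_orbit := ?_
      disjoint := ?_ }
    · intro y x
      refine (Quot.eq.trans hr.eqvGen_iff).trans ⟨fun h => ?_, ?_⟩
      · obtain ⟨w, hw⟩ := hr.symm h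
        obtain ⟨a, ha⟩ := TopA_exists_pos x
        obtain ⟨a', ha'⟩ := TopA_exists_pos y
        have h1 : (q y).1 (SalCell.mul M w a.pr) = x.1 a := by
          rw [hw, (hqx x a ha.ne').1 a (Or.inl (SalTLE.refl a))]
        have h2 : Cm (SalLE M) a'.pr (SalCell.mul M w a.pr) := by
          by_contra h3
          exact ha.ne' (h1.symm.trans ((hqx y a' ha'.ne').2 _ h3))
        obtain ⟨b, hb, hbe⟩ := TopB_ex a' _ h2
        have h3 : y.1 b ≠ 0 := by
          rw [← (hqx y a' ha'.ne').1 b hb, hbe, h1]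
          exact ha.ne'
        have e1 : toW M b.1.1 = w * toW M a.1.1 :=
          (SalT.pr_eq_iff.1 hbe).1.trans (congrArg (w * ·) a.pr_fst)
        have e2 : b.1.2 = a.1.2 := (SalT.pr_eq_iff.1 hbe).2.trans a.pr_snd
        let k := b.1.1 * a.1.1⁻¹
        have hk : toW M k = w := by
          simp only [k, map_mul, map_inv, e1, mul_inv_cancel_right]
        have hka : SalT.mul k a = b :=
          Subtype.ext (Prod.ext (inv_mul_cancel_right _ _) e2.symm)
        refine ⟨k, Subtype.ext (funext fun p => ?_)⟩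
        change x.1 (SalT.mul k⁻¹ p) = y.1 p
        obtain ⟨p, rfl⟩ : ∃ p', p = SalT.mul k p' := ⟨_, (hinv' k p).symm⟩
        rw [hinv]
        by_cases hp : Cm (SalTLE M) a p
        · have h4 := SalT.cm_mul k hp
          rw [hka] at h4
          rw [← (hqx y b h3).1 _ h4, SalT.pr_mul, hk, hw, (hqx x a ha.ne').1 p hp]
        · have h5 : x.1 p = 0 := by_contra fun h => hp (TopB_supp SalTLE.refl x ha.ne' h)
          have h6 : y.1 (SalT.mul k p) = 0 := by
            by_contra h
            have := SalT.cm_mul k⁻¹ (TopB_supp SalTLE.refl y h3 h)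
            rw [← hka, hinv, hinv] at this
            exact hp this
          rw [h5, h6]
      · rintro ⟨g, rfl⟩
        refine hr.symm ⟨toW M g, fun d => ?_⟩
        obtain ⟨a, ha⟩ := TopA_exists_pos x
        have ha' : (g • x).1 (SalT.mul g a) ≠ 0 := by
          rw [hsm, hinv]
          exact ha.ne'
        by_cases hd : Cm (SalLE M) a.pr d
        · obtain ⟨b, hb, rfl⟩ := TopB_ex a d hd
          rw [← SalT.pr_mul, (hqx x a ha.ne').1 b hb]
          refine ((hqx (g • x) _ ha').1 _ (SalT.cm_mul g hb)).trans ?_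
          rw [hsm, hinv]
        · rw [(hqx x a ha.ne').2 d hd]
          refine (hqx (g • x) _ ha').2 _ fun h => hd ?_
          rw [SalT.pr_mul] at h
          have := h.imp (SalLE.mul (toW M g)⁻¹) (SalLE.mul (toW M g)⁻¹)
          simp only [SalCell.mul_mul, inv_mul_cancel, SalCell.one_mul'] at this
          exact this
    · intro x
      obtain ⟨a, ha⟩ := TopA_exists_pos x
      refine ⟨{y | y.1 a ≠ 0}, (isOpen_ne_fun (hev a) continuous_const).mem_nhds ha.ne', ?_⟩
      rintro g ⟨_, ⟨y, hy, rfl⟩, hy'⟩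
      have h1 : Cm (SalTLE M) a (SalT.mul g⁻¹ a) := TopB_supp SalTLE.refl y hy hy'
      have h2 : a = SalT.mul g⁻¹ a := by
        rcases h1 with h | h
        · exact h.eq_of_subset subset_rfl
        · exact (h.eq_of_subset subset_rfl).symm
      have h3 : a.1.1 = g⁻¹ * a.1.1 := congrArg (fun z : SalT M => z.1.1) h2
      have h4 : g⁻¹ = 1 := by simpa using h3.symm
      exact inv_eq_one.1 h4
  exact ⟨_, hcov⟩

theorem exists_cover : ∃ p : Realization (SalTLE M) → Salvetti M,
    IsCoveringMap p ∧ Function.Surjective p := by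
  letI : MulAction (Art M) (Realization (SalTLE M)) := realMulAction
  obtain ⟨p, hp⟩ := exists_qcover M
  exact ⟨p, hp.isCoveringMap, hp.surjective⟩

end Vale.Agent.P203
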