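import Vale.Agent.P203.IfC
import Vale.Agent.P203.NonS
import Vale.Agent.P203.Del
import Vale.Agent.P203.Sd
import Vale.Agent.P203.Qui
import Vale.Agent.P203.TopB
import Vale.Agent.P203.TopC
import Vale.Agent.P203.TopD

/-! Assembly: the lifted Salvetti complex is contractible. -/

namespace Vale.Agent.P203

variable {S : Type} [Fintype S] [DecidableEq S] (M : CoxeterMatrix S)

theorem mu_good : (mu M).Good where
  first := mu_first
  wall g s n h1 _ := mu_wall g s n h1
  down := mu_down
  diamond h J n g s t hO hs ht _ hm hg h1 h2 :=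
    mu_diamond hO (by simp [Finset.insert_subset_iff, hs, ht]) (spherical_pair hm) hg (by
      intro x hx
      rcases Finset.mem_insert.1 hx with rfl | hx
      · exact h1
      · rw [Finset.mem_singleton.1 hx]; exact h2)
  push _ _ _ _ _ hO hK hS hg h1 := mu_push hO hK hS hg h1
  dem _ _ _ _ _ _ t hO hk hs hl _ := mu_dem hO hk hs hl t
  anti _ _ _ _ _ _ _ _ _ _ hA hJ hI hk hs ht ht' hE hu hl h0 hp h1 h2 :=
    mu_anti hA hJ hI hk hs ht ht' hE hu hl h0 hp h1 h2

theorem salT_wc : (SC.flag (SalTLE M)).WC :=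
  salT_wc_of (fun _ h hT => deligne (mu_good M) hT h)
    (deligneCx_wc fun g _ hT => Mass.dl_wc (mu_good M) hT g)

theorem salvetti_main : PathConnectedSpace (Salvetti M) ∧ ∀ x : Salvetti M,
    Nonempty (FundamentalGroup (Salvetti M) x ≃* Art M) ∧
      ∀ n, 2 ≤ n → Subsingleton (HomotopyGroup.Pi n (Salvetti M) x) := by
  let _ : MulAction (Art M) (Realization (SalTLE M)) := realMulAction
  obtain ⟨p, hp⟩ := exists_qcover M
  have := real_simplyConnected salT_locFin (salT_wc M)
  refine ⟨hp.surjective.pathConnectedSpace hp.continuous, fun x => ⟨?_, fun n hn =>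
    pi_of_cover hp.isCoveringMap hp.surjective hn (real_loop salT_locFin (salT_wc M) n) x⟩⟩
  obtain ⟨e, he⟩ := hp.surjective x
  exact ⟨(hp.fundamentalGroupEquiv (x := x) ⟨e, he⟩).trans (MulEquiv.inv' (Art M)).symm⟩

end Vale.Agent.P203
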