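import Vale.Agent.P203.CoxC

/-! Part SphA: the set `I` of low chambers in a spherical coset is a directed lower set. -/

namespace Vale.Agent.P203.Mass
open Classical CoxeterSystem

variable {S : Type} [Fintype S] [DecidableEq S] {M : CoxeterMatrix S} {μ : Mass M}
  {h : Art M} {J : Finset S} {n : ℕ}

theorem hh_coset (μ : Mass M) {K : Finset S} {g k : Art M} (hk : k ∈ AP M K) {t : S}
    (ht : t ∉ K) (q : ℤ) : μ.hh (g * k) q t = μ.hh g q t := by
  induction hk using Subgroup.closure_induction_right with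
  | one => rw [mul_one]
  | mul_right x _ y hy ih =>
    obtain ⟨s, hs, rfl⟩ := hy
    rw [← mul_assoc, μ.inv _ _ _ _ (fun e : t = s => ht (e ▸ Finset.mem_coe.1 hs)), ih]
  | mul_inv_cancel x _ y hy ih =>
    obtain ⟨s, hs, rfl⟩ := hy
    rw [← μ.inv _ s _ _ (fun e : t = s => ht (e ▸ Finset.mem_coe.1 hs)), ← ih]
    congr 1; group

theorem hh_vtx (μ : Mass M) {g g' : Art M} {t : S} (e : vtx M g t = vtx M g' t) (q : ℤ) :
    μ.hh g q t = μ.hh g' q t := by
  have h1 : (QuotientGroup.mk g : Art M ⧸ AP M (Finset.univ.erase t)) = QuotientGroup.mk g' :=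
    eq_of_heq (Sigma.mk.inj e).2
  have := μ.hh_coset (g := g) (QuotientGroup.eq.1 h1) (t := t) (by simp) q
  rw [mul_inv_cancel_left] at this
  exact this.symm

theorem Out.shift (hO : μ.Out h J n) {g : Art M} (hg : h⁻¹ * g ∈ AP M J) : μ.Out g J n := by
  intro t ht hs q hq
  have := μ.hh_coset (g := h) hg ht q
  rw [mul_inv_cancel_left] at this
  rw [this]; exact hO t ht hs q hq

theorem InI.nbr (hO : μ.Out h J n) {g : Art M} (hg : μ.InI h J n g) {s t : S} (hs : s ∈ J)
    (hst : Ed M s t) : μ.Low g n t := by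
  by_cases ht : t ∈ J
  · exact hg.2 t ht
  · exact hO.shift hg.1 t ht ⟨s, hs, hst⟩

theorem low_sg {g : Art M} {s t : S} (h : t ≠ s) : μ.Low (g * sg M s) n t ↔ μ.Low g n t :=
  forall₂_congr fun q _ => by rw [μ.inv g s q t h]

theorem InI.down_one (hG : μ.Good) (hO : μ.Out h J n) {g : Art M} {s : S} (hs : s ∈ J)
    (h1 : μ.InI h J n (g * sg M s)) : μ.InI h J n g := by
  refine ⟨?_, fun t ht => ?_⟩
  · have := (AP M J).mul_mem h1.1 ((AP M J).inv_mem (sg_mem M hs))
    simpa [mul_assoc] using this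
  · by_cases hts : t = s
    · subst hts
      exact hG.down _ _ _ (h1.2 t ht) fun x hx => (low_sg hx.1.symm).1 (h1.nbr hO ht hx)
    · exact (low_sg hts).1 (h1.2 t ht)

theorem InI.down_word (hG : μ.Good) (hO : μ.Out h J n) {k : Art M} (hk : μ.InI h J n k)
    {l : List S} (hl : ∀ x ∈ l, x ∈ J) : μ.InI h J n (k * (wA M l)⁻¹) := by
  induction l with
  | nil => simpa [wA_nil] using hk
  | cons s l ih =>
    have h1 := ih fun x hx => hl x (List.mem_cons_of_mem _ hx)
    have e : k * (wA M l)⁻¹ = k * (wA M (s :: l))⁻¹ * sg M s := by rw [wA_cons]; group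
    rw [e] at h1
    exact h1.down_one hG hO (hl s List.mem_cons_self)

omit [Fintype S] in
theorem lf_word {u : M.Group} (hu : u ∈ WP M J) : ∃ l : List S, (∀ x ∈ l, x ∈ J) ∧
    lf M u = wA M l := by
  obtain ⟨l, hl, e⟩ := (cs M).exists_isReduced u
  exact ⟨l, reduced_mem M hl (e ▸ hu), by rw [e, lf_eq M hl]⟩

theorem InI.down_lf (hG : μ.Good) (hO : μ.Out h J n) {k : Art M} (hk : μ.InI h J n k)
    {u : M.Group} (hu : u ∈ WP M J) : μ.InI h J n (k * (lf M u)⁻¹) := by
  obtain ⟨l, hl, e⟩ := lf_word hu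
  rw [e]; exact hk.down_word hG hO hl

/-- The prefix order. -/
def Pf (x z : M.Group) : Prop := ln M x + ln M (x⁻¹ * z) = ln M z

section
omit [Fintype S] [DecidableEq S]

theorem ln_mul_le (x y : M.Group) : ln M (x * y) ≤ ln M x + ln M y := (cs M).length_mul_le x y

theorem ln_simple (s : S) : ln M (M.simple s) = 1 := (cs M).length_simple s

theorem Pf.refl (x : M.Group) : Pf x x := by simp [Pf, ln]

theorem Pf.trans {x y z : M.Group} (h1 : Pf x y) (h2 : Pf y z) : Pf x z := by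
  have a := ln_mul_le (x⁻¹ * y) (y⁻¹ * z)
  have b := ln_mul_le x (x⁻¹ * z)
  rw [mul_assoc, mul_inv_cancel_left] at a
  rw [mul_inv_cancel_left] at b
  unfold Pf at *
  omega

theorem Pf.lf_eq {x z : M.Group} (h : Pf x z) : lf M z = lf M x * lf M (x⁻¹ * z) := by
  rw [← lf_mul, mul_inv_cancel_left]
  rw [mul_inv_cancel_left]; exact h.symm

theorem pf_mul {x y : M.Group} (h : ln M (x * y) = ln M x + ln M y) : Pf x (x * y) := by
  rw [Pf, inv_mul_cancel_left, h]

end

omit [Fintype S] in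
theorem Pf.step {z x : M.Group} (h : Pf z x) (hz : z ∈ WP M J) (hx : x ∈ WP M J) (hne : z ≠ x) :
    ∃ s ∈ J, ln M (z * M.simple s) = ln M z + 1 ∧ Pf (z * M.simple s) x := by
  obtain ⟨s, hs⟩ := (cs M).exists_leftDescent_of_ne_one (w := z⁻¹ * x)
    fun e => hne (inv_mul_eq_one.1 e)
  have hs' : ln M (M.simple s * (z⁻¹ * x)) < ln M (z⁻¹ * x) := hs
  have e : (z * M.simple s)⁻¹ * x = M.simple s * (z⁻¹ * x) := by
    have : (M.simple s)⁻¹ = M.simple s := (cs M).inv_simple s
    rw [mul_inv_rev, this, mul_assoc]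
  have a := ln_mul_le (z * M.simple s) ((z * M.simple s)⁻¹ * x)
  have b := ln_mul_le z (M.simple s)
  rw [mul_inv_cancel_left] at a
  rw [ln_simple] at b
  refine ⟨s, desc_left_mem M (mul_mem (inv_mem hz) hx) hs', ?_, ?_⟩ <;>
    unfold Pf at * <;> rw [e] at * <;> omega

theorem InI.pf (hG : μ.Good) (hO : μ.Out h J n) {k : Art M} {x z : M.Group} (hx : x ∈ WP M J)
    (hz : z ∈ WP M J) (hp : Pf x z) (h1 : μ.InI h J n (k * lf M z)) : μ.InI h J n (k * lf M x) := by
  have := h1.down_lf hG hO (mul_mem (inv_mem hx) hz)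
  rwa [hp.lf_eq, ← mul_assoc, mul_inv_cancel_right] at this

theorem upper_aux (hG : μ.Good) (hJ : Spherical M J) (hO : μ.Out h J n) (k : Art M) (d : ℕ) :
    ∀ z ∈ WP M J, ln M (w0 M J) ≤ ln M z + d → ∀ x ∈ WP M J, ∀ y ∈ WP M J, Pf z x → Pf z y →
      μ.InI h J n (k * lf M x) → μ.InI h J n (k * lf M y) →
      ∃ m ∈ WP M J, μ.InI h J n (k * lf M m) ∧ Pf x m ∧ Pf y m := by
  induction d with
  | zero =>
    intro z hz hd x hx y hy px py h1 h2
    by_cases e : z = x
    · exact ⟨y, hy, h2, e ▸ py, Pf.refl y⟩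
    · obtain ⟨s, hs, a, -⟩ := px.step hz hx e
      have := ln_le_w0 M hJ (mul_mem hz ((simple_mem_iff M).2 hs))
      omega
  | succ d ih =>
    intro z hz hd x hx y hy px py h1 h2
    by_cases e : z = x
    · exact ⟨y, hy, h2, e ▸ py, Pf.refl y⟩
    by_cases e' : z = y
    · exact ⟨x, hx, h1, Pf.refl x, e' ▸ px⟩
    obtain ⟨s, hs, a, ps⟩ := px.step hz hx e
    obtain ⟨t, ht, b, pt⟩ := py.step hz hy e'
    have hzs := mul_mem hz ((simple_mem_iff M).2 hs)
    have hzt := mul_mem hz ((simple_mem_iff M).2 ht)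
    by_cases hst : s = t
    · subst hst
      exact ih _ hzs (by omega) x hx y hy ps pt h1 h2
    have hT : ({s, t} : Finset S) ⊆ J := by simp [Finset.insert_subset_iff, hs, ht]
    have hTs := hJ.mono M hT
    have hw := w0_mem M hTs
    have hadd : ∀ v ∈ WP M {s, t}, ln M (z * v) = ln M z + ln M v := fun v hv =>
      add_right M (by
        intro r hr
        rcases Finset.mem_insert.1 hr with rfl | hr
        · omega
        · rw [Finset.mem_singleton.1 hr]; omega) hv
    have hl : ∀ r : S, ln M (z * M.simple r) = ln M z + 1 →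
        lf M (z * M.simple r) = lf M z * sg M r := fun r hr => by
      rw [lf_mul M (by rw [ln_simple]; exact hr), lf_simple]
    have hD := hG.diamond h J n (k * lf M z) s t hO hs ht hst (hJ.ne_zero M hs ht)
      (InI.pf hG hO hz hx px h1)
      (by rw [mul_assoc, ← hl s a]; exact InI.pf hG hO hzs hx ps h1)
      (by rw [mul_assoc, ← hl t b]; exact InI.pf hG hO hzt hy pt h2) _ hw
    rw [mul_assoc, ← lf_mul M (hadd _ hw)] at hD
    have hp : ∀ r ∈ ({s, t} : Finset S), Pf (z * M.simple r) (z * w0 M {s, t}) := by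
      intro r hr
      have hr' := (simple_mem_iff M).2 hr
      have := w0_left M hTs hr'
      rw [Pf, hadd _ hr', hadd _ hw, mul_inv_rev, mul_assoc, inv_mul_cancel_left]
      omega
    have hd' := mul_mem hz (WP_mono M hT hw)
    obtain ⟨m1, hm1, i1, p1, p2⟩ := ih _ hzs (by omega) x hx _ hd' ps (hp s (by simp)) h1 hD
    obtain ⟨m2, hm2, i2, p3, p4⟩ := ih _ hzt (by omega) m1 hm1 y hy
      ((hp t (by simp)).trans p2) pt i1 h2
    exact ⟨m2, hm2, i2, p1.trans p3, p4⟩

theorem upper_simple (hG : μ.Good) (hJ : Spherical M J) (hO : μ.Out h J n) {k : Art M}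
    {x y : M.Group} (hx : x ∈ WP M J) (hy : y ∈ WP M J)
    (h1 : μ.InI h J n (k * lf M x)) (h2 : μ.InI h J n (k * lf M y)) :
    ∃ z ∈ WP M J, μ.InI h J n (k * lf M z) ∧ ln M x + ln M (x⁻¹ * z) = ln M z ∧
      ln M y + ln M (y⁻¹ * z) = ln M z :=
  upper_aux hG hJ hO k _ 1 (one_mem _) (Nat.le_add_left _ _) x hx y hy (by simp [Pf, ln])
    (by simp [Pf, ln]) h1 h2

theorem up_closed (hG : μ.Good) (hJ : Spherical M J) (hO : μ.Out h J n) {g : Art M}
    (hg : μ.InI h J n g) {T : Finset S} (hT : T ⊆ J) (hs : ∀ s ∈ T, μ.InI h J n (g * sg M s))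
    {w : M.Group} (hw : w ∈ WP M T) : μ.InI h J n (g * lf M w) := by
  have key : ∀ T' ⊆ T, ∃ z ∈ WP M J, μ.InI h J n (g * lf M z) ∧ ∀ s ∈ T', Pf (M.simple s) z := by
    intro T' hT'
    induction T' using Finset.induction_on with
    | empty => exact ⟨1, one_mem _, by simpa [lf_one] using hg, by simp⟩
    | insert s T' _ ih =>
      obtain ⟨z, hz, i, p⟩ := ih ((Finset.subset_insert _ _).trans hT')
      have hsT := hT' (Finset.mem_insert_self _ _)
      obtain ⟨m, hm, i', p1, p2⟩ := upper_simple hG hJ hO hz ((simple_mem_iff M).2 (hT hsT)) i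
        (by rw [lf_simple]; exact hs s hsT)
      refine ⟨m, hm, i', fun r hr => ?_⟩
      rcases Finset.mem_insert.1 hr with rfl | hr
      · exact p2
      · exact (p r hr).trans p1
  obtain ⟨z, hz, i, p⟩ := key T subset_rfl
  obtain ⟨u, v, hv, hu, rfl⟩ := exists_min_left M z T
  have hTs := hJ.mono M hT
  have hv0 : v = w0 M T := by
    by_contra hne
    obtain ⟨s, hs⟩ := (cs M).exists_rightDescent_of_ne_one (w := w0 M T * v⁻¹)
      fun e => hne (mul_inv_eq_one.1 e).symm
    have hs' : ln M (w0 M T * v⁻¹ * M.simple s) < ln M (w0 M T * v⁻¹) := hs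
    have hsT := desc_right_mem M (mul_mem (w0_mem M hTs) (inv_mem hv)) hs'
    have a := w0_right M hTs hv
    have b := ln_mul_le (w0 M T * v⁻¹ * M.simple s) (M.simple s * v)
    have e : M.simple s * (M.simple s * v) = v := (cs M).simple_mul_simple_cancel_left s
    rw [mul_assoc, e, inv_mul_cancel_right] at b
    have c := p s hsT
    have e' : (M.simple s)⁻¹ = M.simple s := (cs M).inv_simple s
    rw [Pf, e', ← mul_assoc, add_left M hu hv,
      add_left M hu (mul_mem ((simple_mem_iff M).2 hsT) hv), ln_simple] at c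
    omega
  refine InI.pf hG hO (WP_mono M hT hw) hz (Pf.trans (y := v) ?_ (pf_mul (add_left M hu hv))) i
  rw [hv0]; exact w0_left M hTs hw

theorem domino (hG : μ.Good) (hJ : Spherical M J) (hO : μ.Out h J n) (l : List S) :
    ∀ (k : Art M) (x : M.Group), x ∈ WP M J → (∀ y ∈ l, y ∈ J) → μ.InI h J n (k * lf M x) →
      μ.InI h J n (k * wA M l) → ∃ a b : List S, (∀ y ∈ a, y ∈ J) ∧ (∀ y ∈ b, y ∈ J) ∧
        μ.InI h J n (k * wA M l * wA M a) ∧ wA M l * wA M a = lf M x * wA M b := by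
  induction l with
  | nil =>
    intro k x hx _ h1 _
    obtain ⟨a, ha, e⟩ := lf_word hx
    exact ⟨a, [], ha, by simp, by simpa [wA_nil, e] using h1, by simp [wA_nil, e]⟩
  | cons s l ih =>
    intro k x hx hl h1 h2
    have hl' : ∀ y ∈ l, y ∈ J := fun y hy => hl y (List.mem_cons_of_mem _ hy)
    have hs := (simple_mem_iff M).2 (hl s List.mem_cons_self)
    rw [wA_cons, ← mul_assoc] at h2
    have h3 := h2.down_word hG hO hl'
    rw [mul_inv_cancel_right, ← lf_simple] at h3
    obtain ⟨z, hz, i, p1, p2⟩ := upper_simple hG hJ hO hx hs h1 h3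
    have e1 := Pf.lf_eq p1
    have e2 := Pf.lf_eq p2
    rw [lf_simple] at e2
    obtain ⟨a, b, ha, hb, i', e⟩ := ih (k * sg M s) _ (mul_mem (inv_mem hs) hz) hl'
      (by rwa [mul_assoc, ← e2]) h2
    obtain ⟨c, hc, e3⟩ := lf_word (mul_mem (inv_mem hx) hz)
    refine ⟨a, c ++ b, ha, fun y hy => (List.mem_append.1 hy).elim (hc y) (hb y),
      by rwa [wA_cons, ← mul_assoc], ?_⟩
    rw [wA_cons, mul_assoc, e, ← mul_assoc, ← e2, e1, wA_append, e3, mul_assoc]

theorem domino2 (hG : μ.Good) (hJ : Spherical M J) (hO : μ.Out h J n) (l : List S) :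
    ∀ (k : Art M) (l' : List S), (∀ y ∈ l, y ∈ J) → (∀ y ∈ l', y ∈ J) → μ.InI h J n (k * wA M l) →
      μ.InI h J n (k * wA M l') → ∃ a b : List S, (∀ y ∈ a, y ∈ J) ∧ (∀ y ∈ b, y ∈ J) ∧
        μ.InI h J n (k * wA M l * wA M a) ∧ wA M l * wA M a = wA M l' * wA M b := by
  induction l with
  | nil =>
    intro k l' _ hl' _ h2
    exact ⟨l', [], hl', by simp, by simpa [wA_nil] using h2, by simp [wA_nil]⟩
  | cons s l ih =>
    intro k l' hl hl' h1 h2
    have hl0 : ∀ y ∈ l, y ∈ J := fun y hy => hl y (List.mem_cons_of_mem _ hy)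
    have hs := (simple_mem_iff M).2 (hl s List.mem_cons_self)
    rw [wA_cons, ← mul_assoc] at h1
    have h3 := h1.down_word hG hO hl0
    rw [mul_inv_cancel_right, ← lf_simple] at h3
    obtain ⟨a, b, ha, hb, i, e⟩ := domino hG hJ hO l' k _ hs hl' h3 h2
    rw [lf_simple] at e
    obtain ⟨a', b', ha', hb', i', e'⟩ := ih (k * sg M s) b hl0 hb h1
      (by rwa [mul_assoc, ← e, ← mul_assoc])
    refine ⟨a', a ++ b', ha', fun y hy => (List.mem_append.1 hy).elim (ha y) (hb' y),
      by rwa [wA_cons, ← mul_assoc], ?_⟩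
    rw [wA_cons, mul_assoc, e', ← mul_assoc, ← e, wA_append, mul_assoc]

theorem directed (hG : μ.Good) (hJ : Spherical M J) (hO : μ.Out h J n) {g g' : Art M}
    (h1 : μ.InI h J n g) (h2 : μ.InI h J n g') :
    ∃ m l l', μ.InI h J n m ∧ (∀ x ∈ l, x ∈ J) ∧ (∀ x ∈ l', x ∈ J) ∧
      g = m * (wA M l)⁻¹ ∧ g' = m * (wA M l')⁻¹ := by
  have hgg : g⁻¹ * g' ∈ AP M J := by
    have := mul_mem (inv_mem h1.1) h2.1
    simpa [mul_assoc] using this
  obtain ⟨N, l, hl, e⟩ := AP_frac' M hJ hgg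
  obtain ⟨l1, hl1, e1⟩ := pow_w0_word M hJ N
  rw [e1] at e
  have e2 : g * (wA M l1)⁻¹ * wA M l = g' := by rw [mul_assoc, ← e, mul_inv_cancel_left]
  obtain ⟨a, b, ha, hb, i, e3⟩ := domino2 hG hJ hO l1 (g * (wA M l1)⁻¹) l hl1 hl
    (by simpa using h1) (by rwa [e2])
  refine ⟨_, a, b, i, ha, hb, by simp, ?_⟩
  rw [mul_assoc (g * _), e3, ← mul_assoc, e2, mul_inv_cancel_right]

omit [Fintype S] [DecidableEq S] in
theorem lf_cases (u : M.Group) (s : S) : lf M (M.simple s * u) = sg M s * lf M u ∨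
    lf M u = sg M s * lf M (M.simple s * u) := by
  have h1 := (cs M).length_simple_mul u s
  change ln M (M.simple s * u) = ln M u + 1 ∨ ln M (M.simple s * u) + 1 = ln M u at h1
  have e : M.simple s * (M.simple s * u) = u := (cs M).simple_mul_simple_cancel_left s
  rcases h1 with h1 | h1
  · left; rw [lf_mul M (by rw [ln_simple]; omega), lf_simple]
  · right; rw [← lf_simple, ← lf_mul M (by rw [ln_simple, e]; omega), e]

theorem wall_aux (hG : μ.Good) {c : S → ℝ} (hA : μ.Adm h J n c) {g : Art M} {s : S} (hs : s ∈ J)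
    (h1 : μ.InI h J n (g * sg M s)) :
    ∑ t ∈ J.erase s, aa M s t * (μ.bb g n t - c t) ≤
      (μ.bb g n s - c s) + (μ.bb (g * sg M s) n s - c s) := by
  have h0 := h1.down_one hG hA.1 hs
  have a := hG.wall g s n (h1.2 s hs) fun t ht => h0.nbr hA.1 hs ht
  have b := hA.2 s hs
  have e1 : ∑ t ∈ J.erase s, aa M s t * (μ.bb g n t - c t) =
      ∑ t ∈ Finset.univ.erase s, aa M s t * if t ∈ J then μ.bb g n t - c t else 0 := by
    symm
    rw [← Finset.sum_subset (Finset.erase_subset_erase s (Finset.subset_univ J))]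
    · exact Finset.sum_congr rfl fun t ht => by rw [if_pos (Finset.mem_of_mem_erase ht)]
    · intro t ht ht'
      rw [if_neg fun h => ht' (Finset.mem_erase.2 ⟨Finset.ne_of_mem_erase ht, h⟩), mul_zero]
  have e : ∑ t ∈ Finset.univ.erase s, aa M s t * μ.bb g n t =
      (∑ t ∈ Finset.univ.erase s, aa M s t * if t ∈ J then μ.bb g n t - c t else 0) +
      ∑ t ∈ Finset.univ.erase s, aa M s t * if t ∈ J then c t else μ.bb h n t := by
    rw [← Finset.sum_add_distrib]
    refine Finset.sum_congr rfl fun t _ => ?_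
    by_cases ht : t ∈ J
    · simp only [ht, if_true]; ring
    · simp only [ht, if_false]
      have := μ.hh_coset (g := h) h0.1 ht (-(n : ℤ))
      rw [mul_inv_cancel_left] at this
      rw [bb, bb, this]; ring
  rw [e1]; rw [e] at a
  linarith

theorem apt_of (hG : μ.Good) {c : S → ℝ} (hA : μ.Adm h J n c) {k : Art M}
    (hk : μ.InI h J n k) : Apt M J fun u t => μ.bb (k * (lf M u)⁻¹) n t - c t := by
  have cases : ∀ u s, k * (lf M u)⁻¹ = k * (lf M (M.simple s * u))⁻¹ * sg M s ∨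
      k * (lf M (M.simple s * u))⁻¹ = k * (lf M u)⁻¹ * sg M s := fun u s =>
    (lf_cases u s).imp (fun e => by rw [e]; group) fun e => by rw [e]; group
  have off : ∀ u s t, t ≠ s →
      μ.bb (k * (lf M (M.simple s * u))⁻¹) n t = μ.bb (k * (lf M u)⁻¹) n t := by
    intro u s t hts
    rcases cases u s with e | e
    · rw [e, bb, bb, μ.inv _ _ _ _ hts]
    · rw [e, bb, bb, μ.inv _ _ _ _ hts]
  refine ⟨fun u _ s _ t _ hts => by rw [off u s t hts], fun u hu s hs => ?_⟩
  rcases cases u s with e | e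
  · have := wall_aux hG hA hs (e ▸ hk.down_lf hG hA.1 hu)
    rw [← e, Finset.sum_congr rfl fun t ht => by
      rw [off u s t (Finset.ne_of_mem_erase ht)]] at this
    linarith
  · have := wall_aux hG hA hs
      (e ▸ hk.down_lf hG hA.1 (mul_mem ((simple_mem_iff M).2 hs) hu))
    rw [← e] at this
    exact this

/-- In degree zero the low chambers of `A_J` are exactly those below `Δ_J`. -/
theorem inI_top (hG : μ.Good) (hJ : Spherical M J) {g : Art M} :
    μ.InI 1 J 0 g ↔ ∃ l : List S, (∀ x ∈ l, x ∈ J) ∧ g = lf M (w0 M J) * (wA M l)⁻¹ := by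
  have l1 : ∀ t, μ.Low 1 0 t := fun t q _ => μ.base q t
  have hO : μ.Out 1 J 0 := fun t _ _ => l1 t
  have hD : μ.InI 1 J 0 (lf M (w0 M J)) := by
    have := up_closed hG hJ hO (g := 1) ⟨by simp, fun t _ => l1 t⟩ subset_rfl (fun s hs =>
      ⟨by simpa using sg_mem M hs, fun t _ => by
        by_cases hts : t = s
        · subst hts; simpa using hG.first t
        · exact (low_sg hts).2 (l1 t)⟩) (w0_mem M hJ)
    simpa using this
  refine ⟨fun hg => ?_, fun ⟨l, hl, e⟩ => e ▸ hD.down_word hG hO hl⟩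
  obtain ⟨m, l, l', hm, hl, hl', e, e'⟩ := directed hG hJ hO hg hD
  cases l' with
  | nil => exact ⟨l, hl, by rw [e, e']; simp [wA_nil]⟩
  | cons s l' =>
    exfalso
    have hs := hl' s List.mem_cons_self
    obtain ⟨s', hs', -, e1, -⟩ := w0_star M hJ hs
    have h1 := hm.down_word hG hO fun x hx => hl' x (List.mem_cons_of_mem _ hx)
    have e2 : m * (wA M l')⁻¹ = sg M s' * lf M (w0 M J) := by
      rw [← e1, e', wA_cons]; group
    rw [e2] at h1
    have hs'' := (simple_mem_iff M).2 hs'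
    have h2 := InI.pf hG hO hs'' (w0_mem M hJ) (w0_left M hJ hs'') h1
    rw [lf_simple] at h2
    have a := hG.dem 1 J 0 _ s' [] s' hO h2 hs' (by simp) hs'
    have b := hG.wall 1 s' 0 (by simpa using hG.first s') fun t _ => l1 t
    have z : ∀ t, μ.bb 1 0 t = 0 := fun t => μ.base _ t
    simp only [List.nil_append, wA_cons, wA_nil, mul_one, mul_inv_cancel_right, mul_inv_cancel,
      z] at a
    simp only [z, mul_zero, Finset.sum_const_zero, if_true, zero_add, one_mul] at b
    have := μ.DD_pos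
    linarith

end Vale.Agent.P203.Mass
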