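import Vale.Agent.P203.Soc
import Vale.Agent.P203.Act
import Vale.Agent.P203.CxC
import Vale.Agent.P203.SphA

/-! Part Mu: the mass function and its first properties. -/

namespace Vale.Agent.P203
open Classical CoxeterSystem

variable {S : Type} [Fintype S] [DecidableEq S] (M : CoxeterMatrix S)

/-- The class attached to a chamber. -/
noncomputable def XX (g : Art M) : Cl (UG M) := act M g⁻¹ (base M)

theorem XX_mul (g : Art M) (s : S) : XX M g = TT (fib M s) (XX M (g * sg M s)) := by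
  unfold XX
  rw [← act_sg, ← Equiv.Perm.mul_apply, ← map_mul]
  congr 2
  group

theorem o_not_mem (s : S) : (UG M).o ∉ (fib M s).F := (fib M s).no

theorem art_induction {p : Art M → Prop} (h1 : p 1) (hs : ∀ g s, p g ↔ p (g * sg M s))
    (g : Art M) : p g := by
  have hg : g ∈ Subgroup.closure (Set.range (sg M)) := by rw [closure_sg]; trivial
  induction hg using Subgroup.closure_induction_right with
  | one => exact h1
  | mul_right x _ y hy ih =>
    obtain ⟨s, rfl⟩ := hy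
    exact (hs x s).1 ih
  | mul_inv_cancel x _ y hy ih =>
    obtain ⟨s, rfl⟩ := hy
    exact (hs _ s).2 (by simpa using ih)

theorem XX_one : XX M 1 = base M := by simp [XX]

theorem hd_base (q : ℤ) (v : (UG M).V) :
    hd (base M) q v = if q = 0 ∧ v = (UG M).o then 1 else 0 := by
  by_cases hq : q = 0
  · subst hq
    rw [base, ← (hIs_ofRp (simpleO (UG M)) 0).dm_eq, dm_simpleO]
    simp
  · rw [base, hd_ofRp _ hq]; simp [hq]

theorem hd_XX_o (g : Art M) (q : ℤ) : hd (XX M g) q (UG M).o = if q = 0 then 1 else 0 := by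
  induction g using art_induction with
  | h1 => rw [XX_one, hd_base]; simp
  | hs g s => rw [XX_mul M g s, hd_TT_off _ _ (o_not_mem M s)]

theorem hd_XX_off (g : Art M) {s t : S} (h : t ≠ s) (q : ℤ) (b : Fb M) :
    hd (XX M (g * sg M s)) q (some (t, b)) = hd (XX M g) q (some (t, b)) := by
  rw [XX_mul M g s, hd_TT_off _ _ (not_mem_fib h b)]

/-- The mass function. -/
noncomputable def mu : Mass M where
  hh g := mass M (XX M g)
  DD := DW M
  DD_pos := DW_pos M
  nonneg g q t := wsum_nonneg _ _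
  disc R := (wsum_disc M R).subset fun _ ⟨h1, g, q, t, h2⟩ => ⟨h1, _, t, h2⟩
  bdd g := (hd_bdd (XX M g)).imp fun _ h q hq _ => wsum_eq_zero_iff.2 fun _ => h q hq _
  inv g s q t h := wsum_congr fun b => hd_XX_off M g h q b
  base q t := wsum_eq_zero_iff.2 fun b => by
    rw [XX_one]
    refine (hd_base M q _).trans (if_neg ?_)
    rintro ⟨_, h⟩
    cases h

variable {M} {h g k : Art M} {J : Finset S} {n : ℕ} {s t : S} {l l' : List S} {N : Rp (UG M)}

theorem low_iff : (mu M).Low g n t ↔ ∀ q < -(n : ℤ), ∀ b, hd (XX M g) q (some (t, b)) = 0 :=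
  forall₂_congr fun _ _ => wsum_eq_zero_iff

theorem bb_eq (hN : HIs (XX M g) (-(n : ℤ)) N) (t : S) : (mu M).bb g n t = wd M N t :=
  wsum_congr fun _ => (hN.dm_eq _).symm

theorem dm_o_eq (hN : HIs (XX M g) (-(n : ℤ)) N) :
    DW M * N.dm (UG M).o = if n = 0 then (mu M).DD else 0 := by
  rw [hN.dm_eq, hd_XX_o]
  by_cases hn : n = 0
  · simp [hn, mu]
  · simp [hn]

theorem nb_zero {G : Gr} {X : Rp G} {v : G.V} (h : ∀ w, G.adj v w → X.dm w = 0) : X.nb v = 0 := by
  refine Finset.sum_eq_zero fun w _ => ?_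
  split_ifs with hw
  · exact h w hw
  · rfl

theorem hd_TT_zero {G : Gr} {F : Ind G} {ξ : Cl G} {q : ℤ} {v : G.V}
    (h0 : ∀ v ∈ F.F, hd ξ (q - 1) v = 0) (hv : v ∈ F.F) (h1 : ∀ w, G.adj v w → hd ξ q w = 0) :
    hd (TT F ξ) q v = 0 := by
  obtain ⟨N, hN⟩ := exists_hIs ξ q
  rw [← (hN.TT h0).dm_eq]
  have := Rp.dm_sig_le N hv
  rw [nb_zero fun w hw => by rw [hN.dm_eq, h1 w hw]] at this
  omega

theorem hIs_word (X : Rp (UG M)) (l : List S) :
    HIs (act M (wA M l) (Cx.ofRp X 0).cl) 0 (sigW M l X) ∧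
      ∀ q < 0, ∀ v, hd (act M (wA M l) (Cx.ofRp X 0).cl) q v = 0 := by
  induction l with
  | nil =>
    rw [wA_nil, map_one]
    exact ⟨hIs_ofRp X 0, fun q hq v => hd_ofRp X hq.ne v⟩
  | cons s l ih =>
    rw [wA_cons, map_mul, act_sg, Equiv.Perm.mul_apply]
    refine ⟨ih.1.TT fun v _ => ih.2 _ (by omega) v, fun q hq v => ?_⟩
    by_cases hv : v ∈ (fib M s).F
    · exact hd_TT_zero (fun v _ => ih.2 _ (by omega) v) hv fun w _ => ih.2 q hq w
    · rw [hd_TT_off _ _ hv]; exact ih.2 q hq v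

theorem sigW_congr (e : wA M l = wA M l') (X : Rp (UG M)) : (sigW M l X).Iso (sigW M l' X) :=
  (hIs_word X l).1.iso (e ▸ (hIs_word X l').1)

theorem outInj_of_dm {G : Gr} {X : Rp G} {v : G.V} (h : X.dm v = 0) : X.OutInj v := by
  intro x _
  have : Subsingleton (X.E v) := Module.finrank_zero_iff.1 h
  exact Subsingleton.elim _ _

theorem nbr_zero (h2 : ∀ t, Ed M s t → (mu M).Low g n t) {q : ℤ} (hq : q < -(n : ℤ)) (b : Fb M) :
    ∀ w, (UG M).adj (some (s, b)) w → hd (XX M g) q w = 0 := by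
  rintro (_ | ⟨t, b'⟩) hw
  · have := hd_XX_o M g q
    rw [if_neg (by omega)] at this
    exact this
  · exact low_iff.1 (h2 t (ed_of_adj hw)) q hq b'

theorem low_up (h1 : (mu M).Low k n s) (h2 : ∀ t, Ed M s t → (mu M).Low k n t)
    (hN : HIs (XX M k) (-(n : ℤ)) N) (h3 : ∀ v ∈ (fib M s).F, N.OutInj v) :
    (mu M).Low (k * sg M s) n s := by
  refine low_iff.2 fun q hq b => ?_
  have e : XX M (k * sg M s) = (TT (fib M s)).symm (XX M k) := by
    rw [XX_mul M k s, Equiv.symm_apply_apply]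
  obtain ⟨N', hN'⟩ := exists_hIs (XX M k) (q + 1)
  have := hd_TT_symm (mem_fib s b) hN' ?_ (by simpa using nbr_zero h2 hq b)
  · rw [e]; simpa using this
  · by_cases hq' : q + 1 = -(n : ℤ)
    · rw [hq'] at hN'
      exact (hN'.iso hN).mono.outInj (h3 _ (mem_fib s b))
    · exact outInj_of_dm ((hN'.dm_eq _).trans (low_iff.1 h1 _ (by omega) b))

theorem low_one (n : ℕ) (t : S) : (mu M).Low 1 n t := fun q _ => (mu M).base q t

theorem mu_first (s : S) : (mu M).Low (sg M s) 0 s := by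
  obtain ⟨N, hN⟩ := exists_hIs (XX M 1) (-((0 : ℕ) : ℤ))
  have := low_up (s := s) (low_one 0 s) (fun t _ => low_one 0 t) hN (by
    rintro v ⟨b, rfl⟩
    exact outInj_of_dm ((hN.dm_eq _).trans (wsum_eq_zero_iff.1 ((mu M).base _ s) b)))
  simpa using this

theorem hIs_step (h1 : (mu M).Low (g * sg M s) n s) (hN : HIs (XX M (g * sg M s)) (-(n : ℤ)) N) :
    HIs (XX M g) (-(n : ℤ)) (N.sig (fib M s)) := by
  rw [XX_mul M g s]
  refine hN.TT ?_
  rintro v ⟨b, rfl⟩
  exact low_iff.1 h1 _ (by omega) b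

theorem mu_wall (g : Art M) (s : S) (n : ℕ) (h1 : (mu M).Low (g * sg M s) n s) :
    (∑ t ∈ Finset.univ.erase s, aa M s t * (mu M).bb g n t) + (if n = 0 then (mu M).DD else 0) ≤
      (mu M).bb g n s + (mu M).bb (g * sg M s) n s := by
  obtain ⟨N, hN⟩ := exists_hIs (XX M (g * sg M s)) (-(n : ℤ))
  have h2 := hIs_step h1 hN
  rw [← dm_o_eq hN, bb_eq hN, bb_eq h2]
  refine le_trans (le_of_eq ?_) (wd_sig_ge N s)
  congr 1
  refine Finset.sum_congr rfl fun t ht => ?_
  rw [bb_eq h2, wd_sig_off _ (Finset.ne_of_mem_erase ht)]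

theorem low_mul (h : t ≠ s) : (mu M).Low (g * sg M s) n t ↔ (mu M).Low g n t :=
  forall₂_congr fun q _ => by rw [(mu M).inv g s q t h]

theorem mu_down (g : Art M) (s : S) (n : ℕ) (h1 : (mu M).Low (g * sg M s) n s)
    (h2 : ∀ t, Ed M s t → (mu M).Low g n t) : (mu M).Low g n s := by
  refine low_iff.2 fun q hq b => ?_
  rw [XX_mul M g s]
  refine hd_TT_zero ?_ (mem_fib s b)
    (nbr_zero (fun t ht => (low_mul ht.1.symm).2 (h2 t ht)) hq b)
  rintro v ⟨b', rfl⟩
  exact low_iff.1 h1 _ (by omega) b'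

theorem hIs_down (hO : (mu M).Out h J n) (hk : (mu M).InI h J n k) (hl : ∀ x ∈ l, x ∈ J)
    (hN : HIs (XX M k) (-(n : ℤ)) N) :
    (mu M).InI h J n (k * (wA M l)⁻¹) ∧
      HIs (XX M (k * (wA M l)⁻¹)) (-(n : ℤ)) (sigW M l N) := by
  induction l with
  | nil => simpa [wA_nil, sigW_nil] using ⟨hk, hN⟩
  | cons s l ih =>
    obtain ⟨h1, h2⟩ := ih fun x hx => hl x (List.mem_cons_of_mem _ hx)
    have hs : s ∈ J := hl s List.mem_cons_self
    have e : k * (wA M l)⁻¹ = k * (wA M (s :: l))⁻¹ * sg M s := by rw [wA_cons]; group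
    rw [e] at h1 h2
    refine ⟨⟨?_, fun t ht => ?_⟩, hIs_step (h1.2 s hs) h2⟩
    · have := (AP M J).mul_mem h1.1 ((AP M J).inv_mem (sg_mem M hs))
      simpa [mul_assoc] using this
    · by_cases hts : t = s
      · subst hts
        exact mu_down _ _ _ (h1.2 t ht) fun x hx => (low_mul hx.1.symm).1 (h1.nbr hO ht hx)
      · exact (low_mul hts).1 (h1.2 t ht)

theorem inI_up (hO : (mu M).Out h J n) (hk : (mu M).InI h J n k) (hs : s ∈ J)
    (hN : HIs (XX M k) (-(n : ℤ)) N) (h1 : ∀ v ∈ (fib M s).F, N.OutInj v) :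
    (mu M).InI h J n (k * sg M s) := by
  refine ⟨?_, fun t ht => ?_⟩
  · have := (AP M J).mul_mem hk.1 (sg_mem M hs)
    simpa [mul_assoc] using this
  · by_cases hts : t = s
    · subst hts
      exact low_up (hk.2 t ht) (fun x hx => hk.nbr hO ht hx) hN h1
    · exact (low_mul hts).2 (hk.2 t ht)

theorem outInj_of_low (h1 : (mu M).Low (k * sg M s) n s) (hN : HIs (XX M k) (-(n : ℤ)) N) :
    ∀ v ∈ (fib M s).F, N.OutInj v := by
  obtain ⟨N', hN'⟩ := exists_hIs (XX M (k * sg M s)) (-(n : ℤ))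
  exact fun v hv => (hN.iso (hIs_step h1 hN')).mono.outInj (Rp.outInj_sig _ hv)

theorem mu_dem (hO : (mu M).Out h J n) (hk : (mu M).InI h J n k) (hs : s ∈ J)
    (hl : ∀ x ∈ l, x ∈ J) (t : S) :
    (mu M).bb (k * (wA M (l ++ [s]))⁻¹) n t ≤ (mu M).bb (k * (wA M (l ++ [s, s]))⁻¹) n t := by
  obtain ⟨N, hN⟩ := exists_hIs (XX M k) (-(n : ℤ))
  have h1 := (hIs_down (l := l ++ [s]) hO hk (by
    intro x hx
    rcases List.mem_append.1 hx with hx | hx
    · exact hl x hx
    · rw [List.mem_singleton.1 hx]; exact hs) hN).2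
  have h2 := (hIs_down (l := l ++ [s, s]) hO hk (by
    intro x hx
    rcases List.mem_append.1 hx with hx | hx
    · exact hl x hx
    · have : x = s := by simpa using hx
      rw [this]; exact hs) hN).2
  rw [bb_eq h1, bb_eq h2, sigW_append, sigW_append]
  exact (Rp.Mono.sigW (Rp.mono_sig fun v hv => Rp.outInj_sig N hv) l).wd_le t

end Vale.Agent.P203
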