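import Vale.Agent.P203.Wt
import Vale.Agent.P203.CoxE

/-! Part Soc: nilpotency over spherical subdiagrams, reflection functors along reduced words. -/

namespace Vale.Agent.P203
open Classical CoxeterSystem

variable {S : Type} [Fintype S] [DecidableEq S] {M : CoxeterMatrix S} {K : Finset S}
  {X Y Z : Rp (UG M)} {l : List S} {s t : S}

/-- `X` vanishes at the outer neighbours of the fibres over `K`. -/
def Van (K : Finset S) (X : Rp (UG M)) : Prop :=
  X.dm (UG M).o = 0 ∧ ∀ t, t ∉ K → (∃ s ∈ K, Ed M s t) → wd M X t = 0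

theorem sigW_nil (X : Rp (UG M)) : sigW M [] X = X := rfl
theorem sigW_cons (s : S) (l : List S) (X : Rp (UG M)) :
    sigW M (s :: l) X = (sigW M l X).sig (fib M s) := rfl
theorem sigW_append (l l' : List S) (X : Rp (UG M)) :
    sigW M (l ++ l') X = sigW M l (sigW M l' X) := List.foldr_append
theorem Rp.Iso.sigW (h : X.Iso Y) (l : List S) : (sigW M l X).Iso (sigW M l Y) := by
  induction l with
  | nil => exact h
  | cons s l ih => exact ih.sig _
theorem Rp.Mono.sigW (h : X.Mono Y) (l : List S) : (sigW M l X).Mono (sigW M l Y) := by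
  induction l with
  | nil => exact h
  | cons s l ih => exact ih.sig _
theorem Rp.LEx.sigW {f : Rp.Hom X Y} {g : Rp.Hom Y Z} (h : Rp.LEx f g) (l : List S) :
    ∃ (f' : Rp.Hom (sigW M l X) (sigW M l Y)) (g' : Rp.Hom (sigW M l Y) (sigW M l Z)),
      Rp.LEx f' g' := by
  induction l with
  | nil => exact ⟨f, g, h⟩
  | cons s l ih =>
    obtain ⟨f', g', h'⟩ := ih
    exact ⟨_, _, h'.sig _⟩
theorem dm_sigW_o (l : List S) (X : Rp (UG M)) :
    (sigW M l X).dm (UG M).o = X.dm (UG M).o := by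
  induction l with
  | nil => rfl
  | cons s l ih => rw [sigW_cons, Rp.dm_sig_off _ (fib M s).no, ih]
theorem wd_sigW_off (X : Rp (UG M)) (h : t ∉ l) : wd M (sigW M l X) t = wd M X t := by
  induction l with
  | nil => rfl
  | cons s l ih =>
    rw [sigW_cons, wd_sig_off _ fun e : t = s => h (e ▸ List.mem_cons_self),
      ih fun e => h (List.mem_cons_of_mem _ e)]
theorem Van.sigW (h : Van K X) (hl : ∀ x ∈ l, x ∈ K) : Van K (sigW M l X) :=
  ⟨(dm_sigW_o l X).trans h.1, fun t ht hs =>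
    (wd_sigW_off X fun e => ht (hl t e)).trans (h.2 t ht hs)⟩

theorem Van.sum (h0 : Van K X) (hs : s ∈ K) :
    (∑ t ∈ Finset.univ.erase s, aa M s t * wd M X t) + DW M * X.dm (UG M).o =
      ∑ t ∈ K.erase s, aa M s t * wd M X t := by
  rw [h0.1, Nat.cast_zero, mul_zero, add_zero]
  symm
  refine Finset.sum_subset (Finset.erase_subset_erase s (Finset.subset_univ K)) fun t ht ht' => ?_
  have hts := Finset.ne_of_mem_erase ht
  by_cases hm : M s t = 2
  · rw [(aa_eq_zero_iff M hts.symm).2 hm, zero_mul]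
  · rw [h0.2 t (fun h => ht' (Finset.mem_erase.2 ⟨hts, h⟩)) ⟨s, hs, hts.symm, hm⟩, mul_zero]

theorem both_zero (hK : Spherical M K) (h0 : Van K X)
    (h : ∀ s ∈ K, ∀ v ∈ (fib M s).F, X.OutInj v) (h' : ∀ s ∈ K, ∀ v ∈ (fib M s).F, X.InOn v) :
    ∀ s ∈ K, wd M X s = 0 := by
  refine antidom_zero M hK (wd M X) (fun s _ => wsum_nonneg _ _) fun s hs => ?_
  rw [← h0.sum hs, ← wsum_nb, two_mul, wd, ← wsum_add]
  refine wsum_mono fun b => ?_
  have := Rp.two_dm_le (X := X) (v := some (s, b)) (fun e => by cases e)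
    (h' s hs _ (mem_fib s b)) (h s hs _ (mem_fib s b))
  omega

theorem ne_of_type {y x : S} (hy : y ≠ x) (b b' : Fb M) :
    (some (y, b') : (UG M).V) ≠ some (x, b) :=
  fun e => hy (congrArg Prod.fst (Option.some.inj e))

theorem o_ne (x : S) (b : Fb M) : (UG M).o ≠ some (x, b) := fun e => by cases e

theorem soc_step {x : S} {b : Fb M} (hx : x ∈ K) (h0 : Van K X)
    (hoff : ∀ w, w ≠ some (x, b) → Y.dm w = X.dm w) (hY : Van K Y → ∀ s ∈ K, wd M Y s = 0)
    (hle : X.dm (some (x, b)) ≤ X.nb (some (x, b))) : ∀ s ∈ K, wd M X s = 0 := by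
  have hwd : ∀ y, y ≠ x → wd M Y y = wd M X y := fun y hy =>
    wsum_congr fun b' => hoff _ (ne_of_type hy b b')
  have h1 := hY ⟨(hoff _ (o_ne x b)).trans h0.1, fun t ht hs =>
    (hwd t fun e => ht (e ▸ hx)).trans (h0.2 t ht hs)⟩
  rw [nb_eq_zero h0.1 (fun t ht => by
    by_cases htK : t ∈ K
    · rw [← hwd t ht.1.symm]; exact h1 t htK
    · exact h0.2 t htK ⟨x, hx, ht⟩) b] at hle
  refine fun s hs => wsum_eq_zero_iff.2 fun b' => ?_
  by_cases e : (some (s, b') : (UG M).V) = some (x, b)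
  · exact (congrArg X.dm e).trans (Nat.le_zero.1 hle)
  · exact (hoff _ e).symm.trans (wsum_eq_zero_iff.1 (h1 s hs) b')

theorem sum_dm_lt {G : Gr} {X Y : Rp G} {v : G.V} (h : Y.dm v < X.dm v)
    (hoff : ∀ w, w ≠ v → Y.dm w = X.dm w) : ∑ w, Y.dm w < ∑ w, X.dm w :=
  Finset.sum_lt_sum (fun w _ => by
    by_cases e : w = v
    · rw [e]; exact h.le
    · exact (hoff w e).le) ⟨v, Finset.mem_univ _, h⟩

theorem socle (hK : Spherical M K) (h0 : Van K X)
    (h : ∀ s ∈ K, ∀ v ∈ (fib M s).F, X.OutInj v) : ∀ s ∈ K, wd M X s = 0 := by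
  induction hd : ∑ w, X.dm w using Nat.strong_induction_on generalizing X with
  | _ d ih =>
  by_cases hX : ∀ t ∈ K, ∀ v ∈ (fib M t).F, X.InOn v
  · exact both_zero hK h0 h hX
  push Not at hX
  obtain ⟨x, hx, _, ⟨b, rfl⟩, hv⟩ := hX
  obtain ⟨X', Q, f, g, hex, hlt, hoff, -⟩ := Rp.exists_rad hv
  exact soc_step hx h0 hoff (fun hV => ih _ (hd ▸ sum_dm_lt hlt hoff) hV
    (fun s hs v hv => hex.mono.outInj (h s hs v hv)) rfl)
    (Rp.dm_le_of_outInj (h x hx _ (mem_fib x b)))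

theorem cosocle (hK : Spherical M K) (h0 : Van K X)
    (h : ∀ s ∈ K, ∀ v ∈ (fib M s).F, X.InOn v) : ∀ s ∈ K, wd M X s = 0 := by
  induction hd : ∑ w, X.dm w using Nat.strong_induction_on generalizing X with
  | _ d ih =>
  by_cases hX : ∀ t ∈ K, ∀ v ∈ (fib M t).F, X.OutInj v
  · exact both_zero hK h0 hX h
  push Not at hX
  obtain ⟨x, hx, _, ⟨b, rfl⟩, hv⟩ := hX
  obtain ⟨X', hex, hlt, hoff⟩ := Rp.exists_top hv
  exact soc_step hx h0 hoff (fun hV => ih _ (hd ▸ sum_dm_lt hlt hoff) hV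
    (fun s hs v hv => hex.inOn (h s hs v hv)) rfl)
    (Rp.dm_le_of_inOn (h x hx _ (mem_fib x b)))

omit [Fintype S] in
theorem vec_step {y y' : S → ℝ} (hs : s ∈ K) (hoff : ∀ t, t ≠ s → y' t = y t)
    (h : ∑ t ∈ K.erase s, aa M s t * y t ≤ y' s + y s) :
    ∃ κ : ℝ, 0 ≤ κ ∧ vec K y' = ac M (M.simple s) (vec K y) + κ • P035.ee s := by
  refine ⟨y' s + y s - ∑ t ∈ K.erase s, aa M s t * y t, sub_nonneg.2 h, ?_⟩
  have e : ac M (M.simple s) (vec K y) =
      vec K y - P035.form M (P035.ee s) (vec K y) • P035.ee s := by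
    rw [← P035.refl_apply, ← P035.act_simple (cs M)]; rfl
  have e1 : vec K y' = vec K y + (y' s - y s) • P035.ee s := by
    unfold vec
    rw [← Finset.add_sum_erase K _ hs, ← Finset.add_sum_erase K _ hs,
      Finset.sum_congr rfl fun t ht => by rw [hoff t (Finset.ne_of_mem_erase ht)]]
    module
  rw [e, form_vec M _ _ hs, e1]
  module

theorem not_vanish (f : S → Rp (UG M) → Rp (UG M))
    (foff : ∀ s X t, t ≠ s → wd M (f s X) t = wd M X t)
    (fge : ∀ s X, (∑ t ∈ Finset.univ.erase s, aa M s t * wd M X t) + DW M * X.dm (UG M).o ≤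
      wd M (f s X) s + wd M X s) (hs : s ∈ K) (hl : ∀ x ∈ l, x ∈ K)
    (hr : (cs M).IsReduced (l ++ [s])) {b : Fb M} (h1 : 0 < X.dm (some (s, b)))
    (h2 : ∀ w, w ≠ some (s, b) → X.dm w = 0) : ¬ ∀ t ∈ K, wd M (l.foldr f X) t = 0 := by
  intro h
  have hr' : (cs M).IsReduced l := by simpa using hr.take l.length
  have a := word_lb M (fun l' => vec K (wd M (l'.foldr f X))) l hr' fun x l' hx => by
    have hxK := hl x (hx.subset List.mem_cons_self)
    refine vec_step hxK (foff x _) (le_trans ?_ (fge x _))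
    refine le_add_of_le_of_nonneg (Finset.sum_le_sum_of_subset_of_nonneg
      (Finset.erase_subset_erase x (Finset.subset_univ K)) fun t ht _ =>
        mul_nonneg (aa_nonneg M (Finset.ne_of_mem_erase ht).symm) (wsum_nonneg _ _))
      (mul_nonneg (DW_pos M).le (Nat.cast_nonneg _))
  have e0 : vec K (wd M (l.foldr f X)) = 0 :=
    Finset.sum_eq_zero fun t ht => by rw [h t ht, zero_smul]
  have e1 : vec K (wd M X) = wd M X s • P035.ee s := by
    refine Finset.sum_eq_single_of_mem s hs fun t _ hts => ?_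
    rw [wd, wsum_eq_zero_iff.2 fun b' => h2 _ (ne_of_type hts b b'), zero_smul]
  have hp : 0 < wd M X s := lt_of_le_of_ne (wsum_nonneg _ _) fun e =>
    h1.ne' (wsum_eq_zero_iff.1 e.symm b)
  simp only [List.foldr_nil] at a
  rw [e0, e1, map_smul] at a
  refine P035.IsRoot.not_both (cs := cs M) ⟨(cs M).wordProd l, s, rfl⟩
    (P035.act_ee_nonneg _ _ _ ?_) (fun i => nonpos_of_mul_nonpos_right (a i) hp)
  have a1 : ln M _ = _ := hr
  have a2 : ln M _ = _ := hr'
  rw [wordProd_append, wordProd_singleton] at a1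
  change ln M _ < ln M _
  rw [a1, a2]; simp

theorem van_of_supp {b : Fb M} (hs : s ∈ K) (h2 : ∀ w, w ≠ some (s, b) → X.dm w = 0) : Van K X :=
  ⟨h2 _ (o_ne s b), fun t ht _ => wsum_eq_zero_iff.2 fun b' =>
    h2 _ (ne_of_type (fun e : t = s => ht (e ▸ hs)) b b')⟩

theorem outInj_of_sigW (hK : Spherical M K) (hs : s ∈ K) (hl : ∀ x ∈ l, x ∈ K)
    (hr : (cs M).IsReduced (l ++ [s]))
    (h : ∀ t ∈ K, ∀ v ∈ (fib M t).F, (sigW M l X).OutInj v) :
    ∀ v ∈ (fib M s).F, X.OutInj v := by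
  rintro _ ⟨b, rfl⟩
  by_contra hc
  obtain ⟨Q, hQ, h1, h2⟩ := Rp.exists_sub hc
  exact not_vanish (fun s X => X.sig (fib M s)) (fun _ X _ h => wd_sig_off X h)
    (fun s X => wd_sig_ge X s) hs hl hr h1 h2 (socle hK ((van_of_supp hs h2).sigW hl)
      fun t ht v hv => (hQ.sigW l).outInj (h t ht v hv))

/-- Cokernel reflection functors along a word. -/
noncomputable def cosW (l : List S) (N : Rp (UG M)) : Rp (UG M) :=
  l.foldr (fun s X => Rp.cos (fib M s) X) N

theorem Rp.Epi.cosW (h : X.Epi Y) (l : List S) : (cosW l X).Epi (cosW l Y) := by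
  induction l with
  | nil => exact h
  | cons s l ih => exact ih.cos _

theorem Van.cosW (h : Van K X) (hl : ∀ x ∈ l, x ∈ K) : Van K (cosW l X) := by
  induction l with
  | nil => exact h
  | cons s l ih =>
    have := ih fun x hx => hl x (List.mem_cons_of_mem _ hx)
    exact ⟨(Rp.dm_cos_off _ (fib M s).no).trans this.1, fun t ht hs =>
      (wd_cos_off _ fun e : t = s => ht (e ▸ hl s List.mem_cons_self)).trans (this.2 t ht hs)⟩

theorem inOn_aux (hK : Spherical M K) (hs : s ∈ K) (hl : ∀ x ∈ l, x ∈ K)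
    (hr : (cs M).IsReduced (s :: l)) (h : ∀ t ∈ K, ∀ v ∈ (fib M t).F, X.InOn v)
    (he : X.Epi (cosW l.reverse (sigW M l X))) : ∀ v ∈ (fib M s).F, (sigW M l X).InOn v := by
  rintro _ ⟨b, rfl⟩
  by_contra hc
  obtain ⟨Q, hQ, h1, h2⟩ := Rp.exists_quot hc
  have hl' : ∀ x ∈ l.reverse, x ∈ K := fun x hx => hl x (List.mem_reverse.1 hx)
  exact not_vanish (fun s X => X.cos (fib M s)) (fun _ X _ h => wd_cos_off X h)
    (fun s X => wd_cos_ge X s) hs hl' (by simpa using hr.reverse) h1 h2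
    (cosocle hK ((van_of_supp hs h2).cosW hl')
      fun t ht v hv => (he.trans (hQ.cosW _)).inOn (h t ht v hv))

theorem epi_cosW (hK : Spherical M K) (h : ∀ t ∈ K, ∀ v ∈ (fib M t).F, X.InOn v)
    (hl : ∀ x ∈ l, x ∈ K) (hr : (cs M).IsReduced l) : X.Epi (cosW l.reverse (sigW M l X)) := by
  induction l with
  | nil => exact (Rp.Iso.refl X).epi
  | cons s l ih =>
    have hl' : ∀ x ∈ l, x ∈ K := fun x hx => hl x (List.mem_cons_of_mem _ hx)
    have he := ih hl' (by simpa using hr.drop 1)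
    have h1 := inOn_aux hK (hl s List.mem_cons_self) hl' hr h he
    rw [List.reverse_cons, cosW, List.foldr_append]
    exact he.trans ((Rp.cos_sig h1).symm.epi.cosW _)

theorem inOn_sigW (hK : Spherical M K) (hs : s ∈ K) (hl : ∀ x ∈ l, x ∈ K)
    (hr : (cs M).IsReduced (s :: l)) (h : ∀ t ∈ K, ∀ v ∈ (fib M t).F, X.InOn v) :
    ∀ v ∈ (fib M s).F, (sigW M l X).InOn v :=
  inOn_aux hK hs hl hr h (epi_cosW hK h hl (by simpa using hr.drop 1))

end Vale.Agent.P203
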