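import Vale.Agent.P203.Lk
import Vale.Agent.P203.Apt

/-! Part SphB: connectedness of the negative part and property (D) for spherical diagrams. -/

namespace Vale.Agent.P203.Mass
open Classical CoxeterSystem

variable {S : Type} [Fintype S] [DecidableEq S] {M : CoxeterMatrix S} {μ : Mass M}
  {h : Art M} {J : Finset S} {n : ℕ} {c : S → ℝ}

theorem vtx_lf (k : Art M) {u u' : M.Group} {t : S} {K : Finset S} (ht : t ∉ K)
    (hu : u' * u⁻¹ ∈ WP M K) : vtx M (k * (lf M u')⁻¹) t = vtx M (k * (lf M u)⁻¹) t := by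
  rw [vtx_eq_iff]
  have := AP_mono M (K := Finset.univ.erase t)
    (fun x hx => Finset.mem_erase.2 ⟨fun e => ht (e ▸ hx), Finset.mem_univ _⟩) (lf_coset M hu)
  simpa [mul_assoc] using this

theorem face_pair {g : Art M} (hg : h⁻¹ * g ∈ AP M J) {t t' : S} (ht : t ∈ J) (ht' : t' ∈ J) :
    (Dl M h J).face {vtx M g t, vtx M g t'} := by
  refine ⟨g, hg, fun y hy => ?_⟩
  rcases Finset.mem_insert.1 hy with rfl | hy
  · exact ⟨ht, rfl⟩
  · rw [Finset.mem_singleton.1 hy]; exact ⟨ht', rfl⟩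

theorem apt_ind (hG : μ.Good) (hO : μ.Out h J n) {k : Art M} (hk : μ.InI h J n k) {P : ℝ → Prop}
    {R : Vt M → Prop} (hstep : ∀ g t t', μ.InI h J n g → t ∈ J → t' ∈ J →
      P (μ.bb g n t' - c t') → R (vtx M g t) → R (vtx M g t')) {a b : M.Group × S}
    (hab : AptConn M J (fun u t => μ.bb (k * (lf M u)⁻¹) n t - c t) P a b) (ha : a.2 ∈ J)
    (hR : R (vtx M (k * (lf M a.1)⁻¹) a.2)) : R (vtx M (k * (lf M b.1)⁻¹) b.2) := by
  suffices b.2 ∈ J ∧ R (vtx M (k * (lf M b.1)⁻¹) b.2) from this.2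
  induction hab with
  | refl => exact ⟨ha, hR⟩
  | tail _ hbc ih =>
    obtain ⟨h1, h2, h3, h4 | ⟨h4, s, _, hs, h5⟩⟩ := hbc
    · exact ⟨h2, hstep _ _ _ (hk.down_lf hG hO h1) ih.1 h2 h3 (h4 ▸ ih.2)⟩
    · refine ⟨h2, ?_⟩
      rw [h4, h5, vtx_lf k (K := {s}) (by simpa using hs.symm)
        (((mul_inv_cancel_right (M.simple s) _).symm ▸
          (simple_mem_iff M).2 (Finset.mem_singleton_self s)))]
      exact ih.2

theorem exists_inI (hG : μ.Good) (hJ : Spherical M J) (hO : μ.Out h J n) {g : Art M} {t : S}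
    (hg : h⁻¹ * g ∈ AP M J) (hl : μ.Low g n t) :
    ∃ g', μ.InI h J n g' ∧ vtx M g t = vtx M g' t := by
  obtain ⟨k, hk, h1⟩ := hG.push h J n g (J.erase t) hO (Finset.erase_subset _ _)
    (hJ.mono M (Finset.erase_subset _ _)) hg fun x hx hx' => by
      have : x = t := by_contra fun e => hx' (Finset.mem_erase.2 ⟨e, hx⟩)
      rw [this]; exact hl
  refine ⟨_, h1, vtx_eq_iff.2 ?_⟩
  rw [inv_mul_cancel_left]
  exact AP_mono M (Finset.erase_subset_erase _ (Finset.subset_univ _)) hk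

theorem not_neg_zer {y : Vt M} (h1 : y ∈ μ.Neg h J n c) (h2 : y ∈ μ.Zer h J n c) : False := by
  obtain ⟨g, t, -, -, rfl, -, a⟩ := h1
  obtain ⟨g', t', -, -, e, -, b⟩ := h2
  obtain rfl : t = t' := congrArg Sigma.fst e
  rw [bb, μ.hh_vtx e] at a
  exact a.ne b

theorem step_cases (hG : μ.Good) (hO : μ.Out h J n) {k : Art M} {s : S} (hs : s ∈ J)
    (hk : μ.InI h J n (k * sg M s)) {u : M.Group} (hu : u ∈ WP M J) :
    k * (lf M u)⁻¹ = k * sg M s * (lf M (u * M.simple s))⁻¹ ∨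
      (ln M (u * M.simple s) < ln M u ∧
        k * (lf M (u * M.simple s))⁻¹ = k * sg M s * (lf M u)⁻¹ ∧ ∀ t ∈ J,
        μ.bb (k * (lf M (u * M.simple s))⁻¹) n t ≤ μ.bb (k * (lf M u)⁻¹) n t) := by
  have h1 := (cs M).length_mul_simple u s
  change ln M (u * M.simple s) = ln M u + 1 ∨ ln M (u * M.simple s) + 1 = ln M u at h1
  rcases h1 with h1 | h1
  · left
    rw [lf_mul M (by rw [ln_simple]; exact h1), lf_simple]; group
  · right
    have e : u * M.simple s * M.simple s = u := (cs M).simple_mul_simple_cancel_right s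
    have e1 : lf M u = lf M (u * M.simple s) * sg M s := by
      rw [← lf_simple, ← lf_mul M (by rw [ln_simple, e]; omega), e]
    refine ⟨by omega, by rw [e1]; group, fun t ht => ?_⟩
    obtain ⟨l, hl, e2⟩ := lf_word (mul_mem hu ((simple_mem_iff M).2 hs))
    have := hG.dem h J n _ s l t hO hk hs hl ht
    rw [e1, e2]
    convert this using 2 <;> simp only [wA_append, wA_cons, wA_nil] <;> group

theorem neg_apt (hG : μ.Good) (hJ : Spherical M J) (hA : μ.Adm h J n c) {k : Art M}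
    (hk : μ.InI h J n k) {u v : M.Group} (hu : u ∈ WP M J) (hv : v ∈ WP M J) {t t' : S}
    (ht : t ∈ J) (ht' : t' ∈ J) (h1 : μ.bb (k * (lf M u)⁻¹) n t < c t)
    (h2 : μ.bb (k * (lf M v)⁻¹) n t' < c t') :
    ((Dl M h J).full (μ.Neg h J n c)).Conn (vtx M (k * (lf M u)⁻¹) t)
      (vtx M (k * (lf M v)⁻¹) t') := by
  have hu' := hk.down_lf hG hA.1 hu
  refine (apt_ind hG hA.1 hk (R := fun y => y ∈ μ.Neg h J n c ∧
      ((Dl M h J).full (μ.Neg h J n c)).Conn (vtx M (k * (lf M u)⁻¹) t) y) ?_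
    ((apt_of hG hA hk).conn_neg hJ hu hv ht ht' (sub_neg.2 h1) (sub_neg.2 h2)) ht
    ⟨⟨_, t, hu'.1, ht, rfl, hu'.2 t ht, h1⟩, Relation.ReflTransGen.refl⟩).2
  intro g x x' hg hx hx' hP hR
  have hN : vtx M g x' ∈ μ.Neg h J n c := ⟨g, x', hg.1, hx', rfl, hg.2 x' hx', sub_neg.1 hP⟩
  refine ⟨hN, hR.2.tail ⟨face_pair hg.1 hx hx', fun y hy => ?_⟩⟩
  rcases Finset.mem_insert.1 hy with rfl | hy
  · exact hR.1
  · rw [Finset.mem_singleton.1 hy]; exact hN

theorem neg_up (hG : μ.Good) (hJ : Spherical M J) (hA : μ.Adm h J n c) {m : Art M}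
    (hm : μ.InI h J n m) (l : List S) (hl : ∀ x ∈ l, x ∈ J) : ∀ u ∈ WP M J, ∀ t ∈ J,
      μ.bb (m * (wA M l)⁻¹ * (lf M u)⁻¹) n t < c t → ∃ v ∈ WP M J, ∃ t' ∈ J,
        μ.bb (m * (lf M v)⁻¹) n t' < c t' ∧ ((Dl M h J).full (μ.Neg h J n c)).Conn
          (vtx M (m * (wA M l)⁻¹ * (lf M u)⁻¹) t) (vtx M (m * (lf M v)⁻¹) t') := by
  induction l with
  | nil =>
    intro u hu t ht h1
    rw [wA_nil, inv_one, mul_one] at h1 ⊢
    exact ⟨u, hu, t, ht, h1, Relation.ReflTransGen.refl⟩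
  | cons s l ih =>
    intro u hu t ht h1
    have hl' : ∀ y ∈ l, y ∈ J := fun y hy => hl y (List.mem_cons_of_mem _ hy)
    have hs := hl s List.mem_cons_self
    have hus := mul_mem hu ((simple_mem_iff M).2 hs)
    have e : m * (wA M (s :: l))⁻¹ * sg M s = m * (wA M l)⁻¹ := by rw [wA_cons]; group
    rcases step_cases hG hA.1 hs (e ▸ hm.down_word hG hA.1 hl') hu with e1 | ⟨-, e1, h2⟩
    · rw [e1, e] at h1 ⊢
      exact ih hl' _ hus t ht h1
    · have h3 := (h2 t ht).trans_lt h1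
      have h4 := neg_apt hG hJ hA (hm.down_word hG hA.1 hl) hu hus ht ht h1 h3
      rw [e1, e] at h3 h4
      obtain ⟨v, hv, t', ht', a, b⟩ := ih hl' u hu t ht h3
      exact ⟨v, hv, t', ht', a, h4.trans b⟩

omit [Fintype S] [DecidableEq S] in
theorem conn_symm {V : Type} {K : SC V} {a b : V} (h : K.Conn a b) : K.Conn b a := by
  induction h with
  | refl => exact Relation.ReflTransGen.refl
  | tail _ hbc ih => exact Relation.ReflTransGen.head (by rwa [Finset.pair_comm]) ih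

theorem neg_rep (hG : μ.Good) (hJ : Spherical M J) (hO : μ.Out h J n) {a : Vt M}
    (ha : a ∈ μ.Neg h J n c) : ∃ g, ∃ t ∈ J, μ.InI h J n g ∧ a = vtx M g t ∧ μ.bb g n t < c t := by
  obtain ⟨g, t, hg, ht, rfl, hl, h1⟩ := ha
  obtain ⟨g', h2, e⟩ := exists_inI hG hJ hO hg hl
  exact ⟨g', t, ht, h2, e, by rwa [bb, ← μ.hh_vtx e]⟩

theorem neg_conn (hG : μ.Good) (hJ : Spherical M J) (hA : μ.Adm h J n c) {a b : Vt M}
    (ha : a ∈ μ.Neg h J n c) (hb : b ∈ μ.Neg h J n c) :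
    ((Dl M h J).full (μ.Neg h J n c)).Conn a b := by
  obtain ⟨g, t, ht, hg, rfl, h1⟩ := neg_rep hG hJ hA.1 ha
  obtain ⟨g', t', ht', hg', rfl, h2⟩ := neg_rep hG hJ hA.1 hb
  obtain ⟨m, l, l', hm, hl, hl', rfl, rfl⟩ := directed hG hJ hA.1 hg hg'
  obtain ⟨v, hv, x, hx, a1, b1⟩ := neg_up hG hJ hA hm l hl 1 (one_mem _) t ht
    (by simpa [lf_one] using h1)
  obtain ⟨v', hv', x', hx', a2, b2⟩ := neg_up hG hJ hA hm l' hl' 1 (one_mem _) t' ht'
    (by simpa [lf_one] using h2)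
  rw [lf_one, inv_one, mul_one] at b1 b2
  refine (b1.trans (neg_apt hG hJ hA hm hv hv' hx hx' a1 a2)).trans ?_
  exact conn_symm b2

theorem zer_prop (hA : μ.Adm h J n c) (ih : ∀ s ∈ J, μ.PD (J.erase s)) {g : Art M}
    (hg : μ.InI h J n g) {t t' : S} (ht : t ∈ J) (ht' : t' ∈ J) (h1 : μ.bb g n t = c t)
    (h2 : μ.bb g n t' = c t') (h3 : ∃ z ∈ μ.Neg h J n c, (Dl M h J).face {vtx M g t, z}) :
    ∃ z ∈ μ.Neg h J n c, (Dl M h J).face {vtx M g t', z} := by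
  by_cases e : t' = t
  · rwa [e]
  obtain ⟨z, hz, hf⟩ := h3
  have hne : vtx M g t ≠ z := fun e =>
    not_neg_zer hz ⟨g, t, hg.1, ht, e.symm, hg.2 t ht, h1⟩
  obtain ⟨z', hz', hf'⟩ := ih t ht g n c (hA.link hg.1 ht (hg.2 t ht) h1.ge)
    ⟨z, (mem_Neg_link hg.1 ht).2 ⟨hz, by
      rw [← Dl_link hg.1 ht]; exact ⟨by simpa using hne, hf⟩⟩⟩ (vtx M g t')
    ⟨g, t', by simp, Finset.mem_erase.2 ⟨e, ht'⟩, rfl, hg.2 t' ht', h2⟩
  refine ⟨z', ((mem_Neg_link hg.1 ht).1 hz').1, ?_⟩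
  rw [← Dl_link hg.1 ht] at hf'
  exact (Dl M h J).down (Finset.subset_insert _ _) hf'.2

/-- Every zero vertex of the apartment of `k` has a negative neighbour. -/
def PZ (μ : Mass M) (h : Art M) (J : Finset S) (n : ℕ) (c : S → ℝ) (k : Art M) : Prop :=
  ∀ u ∈ WP M J, ∀ t ∈ J, μ.bb (k * (lf M u)⁻¹) n t = c t →
    ∃ z ∈ μ.Neg h J n c, (Dl M h J).face {vtx M (k * (lf M u)⁻¹) t, z}

theorem pz_of_neg (hG : μ.Good) (hJ : Spherical M J) (hA : μ.Adm h J n c) {k : Art M}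
    (hk : μ.InI h J n k) {v : M.Group} (hv : v ∈ WP M J) {t' : S} (ht' : t' ∈ J)
    (h1 : μ.bb (k * (lf M v)⁻¹) n t' < c t') : μ.PZ h J n c k := by
  intro u hu t ht h2
  obtain ⟨u', hu', a, x, hx, b⟩ := (apt_of hG hA hk).zero_nbr hJ hu hv ht ht' (sub_eq_zero.2 h2)
    (sub_neg.2 h1)
  have h3 := hk.down_lf hG hA.1 hu'
  rw [← vtx_lf k (by simp) a]
  exact ⟨_, ⟨_, x, h3.1, hx, rfl, h3.2 x hx, sub_neg.1 b⟩, face_pair h3.1 ht hx⟩

omit [Fintype S] in
theorem exists_coord {u : M.Group} (hu : u ∈ WP M J) {t : S} (ht : t ∈ J) :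
    ∃ x ∈ J, ac M u (P035.ee x) (some t) ≠ 0 := by
  by_contra hc
  push Not at hc
  have e := ac_vec M (inv_mem hu) (Pi.single t 1)
  have a : ac M u (ac M u⁻¹ (vec J (Pi.single t 1))) (some t) = 1 := by
    rw [P035.act_act_inv, vec_apply, if_pos ht]; simp
  rw [e, vec, map_sum, Finsupp.coe_finsetSum, Finset.sum_apply,
    Finset.sum_eq_zero fun x hx => by rw [map_smul, Finsupp.smul_apply, hc x hx, smul_zero]] at a
  exact zero_ne_one a

theorem pz_step (hG : μ.Good) (hJ : Spherical M J) (hI : Irr M J) (hA : μ.Adm h J n c)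
    (ih : ∀ s ∈ J, μ.PD (J.erase s)) {k : Art M} {s : S} (hs : s ∈ J)
    (hk' : μ.InI h J n (k * sg M s)) (hP : μ.PZ h J n c (k * sg M s)) : μ.PZ h J n c k := by
  have hk := hk'.down_one hG hA.1 hs
  by_cases hn : ∃ v ∈ WP M J, ∃ x ∈ J, μ.bb (k * (lf M v)⁻¹) n x < c x
  · obtain ⟨v, hv, x, hx, a⟩ := hn
    exact pz_of_neg hG hJ hA hk hv hx a
  push Not at hn
  intro u hu t ht h1
  have hus := mul_mem hu ((simple_mem_iff M).2 hs)
  rcases step_cases hG hA.1 hs hk' hu with e1 | ⟨hlt, e1, h2⟩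
  · rw [e1] at h1 ⊢
    exact hP _ hus t ht h1
  have h3 : μ.bb (k * (lf M (u * M.simple s))⁻¹) n t = c t :=
    le_antisymm ((h2 t ht).trans h1.le) (hn _ hus t ht)
  have h4 := hP u hu t ht (e1 ▸ h3)
  rw [← e1] at h4
  have hz : ∀ {a b : M.Group × S}, a.1 ∈ WP M J → b.1 ∈ WP M J → a.2 ∈ J → b.2 ∈ J →
      μ.bb (k * (lf M a.1)⁻¹) n a.2 = c a.2 → μ.bb (k * (lf M b.1)⁻¹) n b.2 = c b.2 →
      (∀ θ : ℝ, 0 ≤ θ → θ ≤ 1 → ∃ x ∈ J, (1 - θ) * ac M a.1 (P035.ee x) (some a.2) +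
        θ * ac M b.1 (P035.ee x) (some b.2) ≠ 0) →
      (∃ z ∈ μ.Neg h J n c, (Dl M h J).face {vtx M (k * (lf M a.1)⁻¹) a.2, z}) →
      ∃ z ∈ μ.Neg h J n c, (Dl M h J).face {vtx M (k * (lf M b.1)⁻¹) b.2, z} := by
    intro a b ha hb ha' hb' e1 e2 hseg h5
    have ha'' := hk.down_lf hG hA.1 ha
    refine (apt_ind hG hA.1 hk (R := fun y => y ∈ μ.Zer h J n c ∧
      ∃ z ∈ μ.Neg h J n c, (Dl M h J).face {y, z}) ?_
      ((apt_of hG hA hk).conn_zero hJ (fun w hw x hx => sub_nonneg.2 (hn w hw x hx)) ha hb ha' hb'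
        (sub_eq_zero.2 e1) (sub_eq_zero.2 e2) hseg) ha'
      ⟨⟨_, _, ha''.1, ha', rfl, ha''.2 _ ha', e1⟩, h5⟩).2
    intro g x x' hg hx hx' hP hR
    refine ⟨⟨g, x', hg.1, hx', rfl, hg.2 x' hx', sub_eq_zero.1 hP⟩,
      zer_prop hA ih hg hx hx' ?_ (sub_eq_zero.1 hP) hR.2⟩
    obtain ⟨g', t', -, -, e, -, b⟩ := hR.1
    obtain rfl : x = t' := congrArg Sigma.fst e
    rwa [bb, μ.hh_vtx e]
  by_cases hseg : ∀ θ : ℝ, 0 ≤ θ → θ ≤ 1 → ∃ x ∈ J,
      (1 - θ) * ac M (u * M.simple s) (P035.ee x) (some t) + θ * ac M u (P035.ee x) (some t) ≠ 0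
  · exact hz (a := (u * M.simple s, t)) (b := (u, t)) hus hu ht ht h3 h1 hseg h4
  push Not at hseg
  obtain ⟨θ, hθ, -, hseg⟩ := hseg
  have e : u * M.simple s * M.simple s = u := (cs M).simple_mul_simple_cancel_right s
  have hrefl : ∀ x, ac M u (P035.ee x) (some t) = ac M (u * M.simple s) (P035.ee x) (some t) -
      P035.form M (P035.ee s) (P035.ee x) * ac M (u * M.simple s) (P035.ee s) (some t) := by
    intro x
    have : ac M u (P035.ee x) = ac M (u * M.simple s) (P035.ee x -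
        P035.form M (P035.ee s) (P035.ee x) • P035.ee s) := by
      rw [← P035.refl_apply, ← P035.act_simple (cs M), ← P035.act_mul]
      exact congrArg (fun w => ac M w (P035.ee x)) e.symm
    rw [this, map_sub, map_smul, Finsupp.sub_apply, Finsupp.smul_apply, smul_eq_mul]
  set lam := θ * ac M (u * M.simple s) (P035.ee s) (some t) with hlam
  have hp : ∀ x ∈ J, ac M (u * M.simple s) (P035.ee x) (some t) =
      lam * P035.form M (P035.ee s) (P035.ee x) := by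
    intro x hx
    have := hseg x hx
    rw [hrefl] at this
    rw [hlam]; linarith
  have hl : 0 < lam := by
    refine lt_of_le_of_ne (mul_nonneg hθ ?_) fun h0 => ?_
    · exact P035.act_ee_nonneg (cs M) (u * M.simple s) s (by
        change ln M _ < ln M (u * M.simple s * M.simple s)
        rwa [e]) (some t)
    · obtain ⟨x, hx, a⟩ := exists_coord hus ht
      exact a (by rw [hp x hx, ← h0, zero_mul])
  by_cases hJ1 : ∀ x ∈ J, x = s
  · exfalso
    obtain ⟨z, hz1, hf⟩ := h4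
    have h5 := hk.down_lf hG hA.1 hus
    refine Dl_type_ne (fun e => not_neg_zer hz1 ⟨_, t, h5.1, ht, e.symm, h5.2 t ht, h3⟩) hf ?_
    obtain ⟨g, x, -, hx, rfl, -⟩ := hz1
    exact (hJ1 t ht).trans (hJ1 x hx).symm
  push Not at hJ1
  obtain ⟨x, hx, hxs⟩ := hJ1
  obtain ⟨t', ht', hE⟩ := hI.exists_nbr M hs hx hxs.symm
  have h5 : μ.bb (k * (lf M 1)⁻¹) n t' = c t' := by
    rw [lf_one, inv_one, mul_one]
    exact hG.anti h J n c k s t t' _ lam hA hJ hI hk hs ht ht' hE hus hl hn hp h3 (by rwa [e])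
  have o1 : ac M 1 (P035.ee s) (some t') = 0 := by
    rw [P035.act_one]; simp [P035.ee, hE.1]
  have o2 : ac M 1 (P035.ee t') (some t') = 1 := by
    rw [P035.act_one]; simp [P035.ee]
  refine hz (a := (1, t')) (b := (u, t)) (one_mem _) hu ht' ht h5 h1 (fun θ h0 _ => ?_)
    (hz (a := (u * M.simple s, t)) (b := (1, t')) hus (one_mem _) ht ht' h3 h5
      (fun θ _ h1 => ?_) h4)
  · rcases h0.eq_or_lt with rfl | h0
    · exact ⟨t', ht', by dsimp only; rw [o2]; simp⟩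
    · refine ⟨s, hs, ?_⟩
      dsimp only
      rw [o1, hrefl, hp s hs, P035.form_ee_self]
      nlinarith [mul_pos h0 hl]
  · rcases h1.eq_or_lt with rfl | h1
    · exact ⟨t', ht', by dsimp only; rw [o2]; simp⟩
    · refine ⟨s, hs, ?_⟩
      dsimp only
      rw [o1, hp s hs, P035.form_ee_self]
      nlinarith [mul_pos (sub_pos.2 h1) hl]

theorem pd_sph (hG : μ.Good) (hJ : Spherical M J) (hI : Irr M J)
    (ih : ∀ s ∈ J, μ.PD (J.erase s)) : μ.PD J := by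
  rintro h n c hA ⟨b, hb⟩ y ⟨g0, t, hg0, ht, rfl, hl0, h0⟩
  obtain ⟨g, hg, e⟩ := exists_inI hG hJ hA.1 hg0 hl0
  obtain ⟨g', t', ht', hg', rfl, h2⟩ := neg_rep hG hJ hA.1 hb
  obtain ⟨m, l, l', hm, hl, hl', rfl, rfl⟩ := directed hG hJ hA.1 hg hg'
  obtain ⟨v', hv', x', hx', a2, -⟩ := neg_up hG hJ hA hm l' hl' 1 (one_mem _) t' ht'
    (by simpa [lf_one] using h2)
  have key : ∀ l : List S, (∀ x ∈ l, x ∈ J) → μ.PZ h J n c (m * (wA M l)⁻¹) := by
    intro l hl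
    induction l with
    | nil => simpa [wA_nil] using pz_of_neg hG hJ hA hm hv' hx' a2
    | cons s l ih' =>
      have hl' : ∀ y ∈ l, y ∈ J := fun y hy => hl y (List.mem_cons_of_mem _ hy)
      have e : m * (wA M (s :: l))⁻¹ * sg M s = m * (wA M l)⁻¹ := by rw [wA_cons]; group
      exact pz_step hG hJ hI hA ih (hl s List.mem_cons_self) (e ▸ hm.down_word hG hA.1 hl')
        (e ▸ ih' hl')
  have := key l hl 1 (one_mem _) t ht (by
    rw [lf_one, inv_one, mul_one, bb, ← μ.hh_vtx e]; exact h0)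
  rwa [lf_one, inv_one, mul_one, ← e] at this

end Vale.Agent.P203.Mass
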