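import Vale.Agent.P203.SphB

/-! Part SphC: property (C) for spherical diagrams. -/

namespace Vale.Agent.P203.Mass
open Classical CoxeterSystem Filter Topology

variable {S : Type} [Fintype S] [DecidableEq S] {M : CoxeterMatrix S} {μ : Mass M}
  {J : Finset S} {h : Art M} {n : ℕ} {c : S → ℝ}

/-- The mass of a vertex. -/
noncomputable def vv (μ : Mass M) (y : Vt M) (q : ℤ) : ℝ := μ.hh y.2.out q y.1

theorem vv_vtx (g : Art M) (t : S) (q : ℤ) : μ.vv (vtx M g t) q = μ.hh g q t :=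
  μ.hh_vtx (g := (vtx M g t).2.out) (g' := g) (t := t)
    (Sigma.ext rfl (heq_of_eq (QuotientGroup.out_eq' (vtx M g t).2))) q

theorem face_one {y : Vt M} : (Dl M h J).face {y} ↔
    ∃ g t, h⁻¹ * g ∈ AP M J ∧ t ∈ J ∧ y = vtx M g t :=
  ⟨fun ⟨g, hg, h1⟩ => ⟨g, y.1, hg, h1 y (Finset.mem_singleton_self y)⟩,
    fun ⟨g, _, hg, ht, e⟩ => ⟨g, hg, fun z hz => by
      rw [Finset.mem_singleton.1 hz, e]; exact ⟨ht, rfl⟩⟩⟩

theorem mem_Neg_iff {y : Vt M} : y ∈ μ.Neg h J n c ↔ (Dl M h J).face {y} ∧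
    (∀ q < -(n : ℤ), μ.vv y q = 0) ∧ μ.vv y (-(n : ℤ)) < c y.1 := by
  constructor
  · rintro ⟨g, t, hg, ht, rfl, h1, h2⟩
    simp only [vv_vtx]
    exact ⟨face_one.2 ⟨g, t, hg, ht, rfl⟩, h1, h2⟩
  · rintro ⟨hf, h1, h2⟩
    obtain ⟨g, t, hg, ht, rfl⟩ := face_one.1 hf
    simp only [vv_vtx] at h1 h2
    exact ⟨g, t, hg, ht, rfl, h1, h2⟩

theorem mem_Zer_iff {y : Vt M} : y ∈ μ.Zer h J n c ↔ (Dl M h J).face {y} ∧
    (∀ q < -(n : ℤ), μ.vv y q = 0) ∧ μ.vv y (-(n : ℤ)) = c y.1 := by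
  constructor
  · rintro ⟨g, t, hg, ht, rfl, h1, h2⟩
    simp only [vv_vtx]
    exact ⟨face_one.2 ⟨g, t, hg, ht, rfl⟩, h1, h2⟩
  · rintro ⟨hf, h1, h2⟩
    obtain ⟨g, t, hg, ht, rfl⟩ := face_one.1 hf
    simp only [vv_vtx] at h1 h2
    exact ⟨g, t, hg, ht, rfl, h1, h2⟩

theorem Adm.add (hA : μ.Adm h J n c) (d : S → ℝ)
    (hd : ∀ x ∈ J, 2 * d x ≤ ∑ t ∈ J.erase x, aa M x t * d t) :
    μ.Adm h J n fun t => c t + d t := by
  refine ⟨hA.1, fun x hx => ?_⟩
  have e1 : ∑ t ∈ J.erase x, aa M x t * d t =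
      ∑ t ∈ Finset.univ.erase x, aa M x t * if t ∈ J then d t else 0 := by
    symm
    rw [← Finset.sum_subset (Finset.erase_subset_erase x (Finset.subset_univ J))]
    · exact Finset.sum_congr rfl fun t ht => by rw [if_pos (Finset.mem_of_mem_erase ht)]
    · intro t ht ht'
      rw [if_neg fun h => ht' (Finset.mem_erase.2 ⟨Finset.ne_of_mem_erase ht, h⟩), mul_zero]
  have e : (∑ t ∈ Finset.univ.erase x, aa M x t * if t ∈ J then c t + d t else μ.bb h n t) =
      (∑ t ∈ Finset.univ.erase x, aa M x t * if t ∈ J then c t else μ.bb h n t) +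
      ∑ t ∈ Finset.univ.erase x, aa M x t * if t ∈ J then d t else 0 := by
    rw [← Finset.sum_add_distrib]
    refine Finset.sum_congr rfl fun t _ => ?_
    split_ifs <;> ring
  have a := hA.2 x hx
  have b := hd x hx
  rw [e, ← e1]
  linarith

/-- The index of a type. -/
noncomputable def idx (t : S) : ℕ := Fintype.equivFin S t

omit [DecidableEq S] in
theorem idx_inj {s t : S} (h : idx s = idx t) : s = t :=
  (Fintype.equivFin S).injective (Fin.ext h)

theorem ev_le {δ : ℝ} (h : 0 < δ) : ∀ᶠ ε in 𝓝[>] (0 : ℝ), ε ≤ δ :=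
  (eventually_le_nhds h).filter_mono nhdsWithin_le_nhds

omit [DecidableEq S] in
theorem ev_gap (μ : Mass M) (a : S → ℝ) :
    ∀ᶠ ε in 𝓝[>] (0 : ℝ), ∀ t g q t', a t < μ.hh g q t' → a t + ε ≤ μ.hh g q t' := by
  refine eventually_all.2 fun t => ?_
  have h1 : ∀ᶠ ε in 𝓝[>] (0 : ℝ), ∀ x ∈ {x | x < a t + 1 ∧ ∃ g q t, μ.hh g q t = x},
      a t < x → ε ≤ x - a t := (eventually_all_finite (μ.disc _)).2 fun x _ => by
    by_cases hx : a t < x
    · exact (ev_le (sub_pos.2 hx)).mono fun _ h _ => h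
    · exact Eventually.of_forall fun _ h => absurd h hx
  filter_upwards [h1, ev_le one_pos] with ε h2 h3 g q t' h4
  by_cases h5 : μ.hh g q t' < a t + 1
  · have := h2 _ ⟨h5, g, q, t', rfl⟩ h4
    linarith
  · linarith

theorem link_full {g : Art M} (hg : h⁻¹ * g ∈ AP M J) {s : S} (hs : s ∈ J) {P Q : Set (Vt M)}
    (e : ∀ v, (Dl M g (J.erase s)).face {v} → (v ∈ P ↔ v ∈ Q)) :
    ((Dl M h J).link (vtx M g s)).full P = (Dl M g (J.erase s)).full Q := by
  rw [Dl_link hg hs]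
  refine SC.ext' fun a => and_congr_right fun ha => forall₂_congr fun v hv => e v ?_
  exact (Dl M g (J.erase s)).down (by simpa using hv) ha

theorem face_of_link {g : Art M} (hg : h⁻¹ * g ∈ AP M J) {s : S} (hs : s ∈ J) {a : Finset (Vt M)}
    (ha : (Dl M g (J.erase s)).face a) : (Dl M h J).face a := by
  rw [← Dl_link hg hs] at ha
  exact (Dl M h J).down (Finset.subset_insert _ _) ha.2

theorem full_link {V : Type} (K : SC V) (P Q : Set V) {y : V} (hy : y ∈ P) :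
    ((K.full P).link y).full Q = (K.link y).full (P ∩ Q) :=
  SC.ext' fun _ => ⟨fun ⟨⟨h1, h2, h3⟩, h4⟩ => ⟨⟨h1, h2⟩, fun v hv =>
      ⟨h3 v (Finset.mem_insert_of_mem hv), h4 v hv⟩⟩,
    fun ⟨⟨h1, h2⟩, h3⟩ => ⟨⟨h1, h2, fun v hv => by
      rcases Finset.mem_insert.1 hv with rfl | hv
      · exact hy
      · exact (h3 v hv).1⟩, fun v hv => (h3 v hv).2⟩⟩

theorem pc_sph (hG : μ.Good) (hJ : Spherical M J) (ih : ∀ s ∈ J, μ.PC (J.erase s)) : μ.PC J := by
  rintro h n c hA ⟨y0, hy0⟩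
  obtain ⟨ν, hν, hν'⟩ := exists_nu' M hJ
  let key : Vt M → ℝ ×ₗ ℕ := fun y => toLex (-((c y.1 - μ.vv y (-(n : ℤ))) / ν y.1), idx y.1)
  have one : ∀ {v}, ((Dl M h J).full (μ.Neg h J n c)).face {v} → v ∈ μ.Neg h J n c :=
    fun hv => hv.2 _ (Finset.mem_singleton_self _)
  refine SC.morse_conn _ key ⟨y0, (mem_Neg_iff.1 hy0).1, by simpa using hy0⟩
    (fun u v hu hv => neg_conn hG hJ hA (one hu) (one hv)) ?_ ?_ ?_
  · refine Set.wellFoundedOn_image.1 (Set.Finite.wellFoundedOn ?_)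
    refine ((Set.finite_iUnion fun t : S => (μ.disc (c t)).image
      fun x => (toLex (-((c t - x) / ν t), idx t) : ℝ ×ₗ ℕ))).subset ?_
    rintro _ ⟨y, hy, rfl⟩
    exact Set.mem_iUnion.2 ⟨y.1, _, ⟨(mem_Neg_iff.1 (one hy)).2.2, _, _, _, rfl⟩, rfl⟩
  · intro a b hab hf e
    exact Dl_type_ne hab hf.1 (idx_inj (congrArg (fun p : ℝ ×ₗ ℕ => (ofLex p).2) e))
  rintro y hy ⟨z, hzy, hz, hlt⟩
  have hyN := one hy
  obtain ⟨g, s, hg, hs, rfl, hl, hb⟩ := hyN
  set τ := (c s - μ.bb g n s) / ν s with hτ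
  have hτ0 : 0 < τ := div_pos (sub_pos.2 hb) (hν s hs)
  have ky : key (vtx M g s) = toLex (-τ, idx s) := by
    simp only [key, vv_vtx]; rfl
  obtain ⟨ε, ⟨h1, h2⟩, h3⟩ := (((μ.ev_gap fun t => c t - τ * ν t).and
    ((eventually_all_finite J.finite_toSet).2 fun x hx => ev_le (div_pos (mul_pos hτ0
      (sub_pos.2 (hν' x hx))) two_pos))).and self_mem_nhdsWithin).exists
  have h3 : 0 < ε := h3
  have hA' := hA.add (fun t => -(τ * ν t) + if idx t < idx s then ε else 0) fun x hx => by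
    have a := h2 x hx
    have b : -(τ * ∑ t ∈ J.erase x, aa M x t * ν t) ≤
        ∑ t ∈ J.erase x, aa M x t * (-(τ * ν t) + if idx t < idx s then ε else 0) := by
      rw [Finset.mul_sum, ← Finset.sum_neg_distrib]
      refine Finset.sum_le_sum fun t ht => ?_
      have := aa_nonneg M (Finset.ne_of_mem_erase ht).symm
      split_ifs <;> nlinarith
    split_ifs <;> linarith
  have hA'' := hA'.link hg hs hl (by
    have := hν s hs
    simp only [lt_irrefl, if_false, hτ]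
    field_simp
    linarith)
  have e : ∀ v, (Dl M g (J.erase s)).face {v} →
      (v ∈ μ.Neg h J n c ∩ {b | key b < key (vtx M g s)} ↔
        v ∈ μ.Neg g (J.erase s) n fun t => c t + (-(τ * ν t) + if idx t < idx s then ε else 0)) := by
    intro v hv
    have hv' := face_of_link hg hs hv
    have hvJ : v.1 ∈ J := by
      obtain ⟨_, t, -, ht, rfl⟩ := face_one.1 hv'
      exact ht
    have hp := hν _ hvJ
    have hgap := h1 v.1 v.2.out (-(n : ℤ)) v.1
    change _ < μ.vv v _ → _ ≤ μ.vv v _ at hgap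
    rw [Set.mem_inter_iff, mem_Neg_iff, mem_Neg_iff, Set.mem_ofPred_eq, ky]
    simp only [key, Prod.Lex.toLex_lt_toLex, neg_lt_neg_iff, neg_inj, lt_div_iff₀ hp,
      div_eq_iff hp.ne', hv, hv', true_and, and_assoc]
    refine and_congr_right fun _ => ?_
    have := mul_pos hτ0 hp
    split_ifs with hi
    · simp only [hi, and_true]
      constructor
      · rintro ⟨-, a | a⟩ <;> linarith
      · intro a
        have b : μ.vv v (-(n : ℤ)) ≤ c v.1 - τ * ν v.1 := by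
          by_contra b
          have := hgap (not_le.1 b)
          linarith
        refine ⟨by linarith, ?_⟩
        rcases b.eq_or_lt with b | b
        · right; linarith
        · left; linarith
    · simp only [hi, and_false, or_false]
      constructor
      · rintro ⟨-, a⟩; linarith
      · intro a; constructor <;> linarith
  rw [full_link _ _ _ (one hy), link_full hg hs e]
  have hz' : (Dl M g (J.erase s)).face {z} := by
    rw [← Dl_link hg hs]; exact ⟨by simpa using hzy.symm, hz.1⟩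
  exact ih s hs g n _ hA'' ⟨z, (e z hz').1 ⟨hz.2 z (by simp), hlt⟩⟩

end Vale.Agent.P203.Mass
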