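import Vale.Agent.P203.Unf
import Vale.Agent.P203.RepB
import Vale.Agent.P203.CoxB

/-! Part Wt: the Perron-Frobenius weights on the unfolded graph. -/

namespace Vale.Agent.P203
open Classical CoxeterSystem

variable {S : Type} [Fintype S] [DecidableEq S] (M : CoxeterMatrix S)

/-- Total weight of a fibre. -/
noncomputable def DW : ℝ := ∑ b, wt M b

theorem nv_of_two_le {m : ℕ} (h : 2 ≤ m) : nv m = m - 1 := by
  rw [nv, if_neg (by omega), if_neg (by omega)]

theorem nv_pos (m : ℕ) : 0 < nv m := by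
  unfold nv
  split_ifs <;> omega

theorem pw_pos (m : ℕ) (i : Fin (nv m)) : 0 < pw m i := by
  unfold pw
  split_ifs with h
  · exact one_pos
  · have h1 := i.2
    have h2 := nv_of_two_le (m := m) (by omega)
    have hm : (0 : ℝ) < m := by exact_mod_cast (by omega : 0 < m)
    have h3 : ((i.1 + 1 : ℕ) : ℝ) < m := by exact_mod_cast (by omega : i.1 + 1 < m)
    refine Real.sin_pos_of_pos_of_lt_pi (by positivity) ?_
    rw [div_lt_iff₀ hm]
    nlinarith [Real.pi_pos]

theorem pw_sum {m : ℕ} (hm : m ≠ 1) (j : Fin (nv m)) :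
    (∑ i, if padj m i j then pw m i else 0) = 2 * Real.cos (Real.pi / m) * pw m j := by
  by_cases h0 : m = 0
  · subst h0
    simp only [padj, pw, if_true, Nat.zero_le, Nat.cast_zero, div_zero, Real.cos_zero, mul_one]
    rw [Finset.sum_ite, Finset.sum_const_zero, add_zero, Finset.sum_const, Finset.filter_ne',
      Finset.card_erase_of_mem (Finset.mem_univ _), Finset.card_univ, Fintype.card_fin]
    simp [nv]
  have h2 := nv_of_two_le (m := m) (by omega)
  have hj := j.2
  have hm' : (m : ℝ) ≠ 0 := by exact_mod_cast h0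
  let f : ℕ → ℝ := fun i => Real.sin ((i : ℝ) * Real.pi / m)
  have e : (∑ i, if padj m i j then pw m i else 0) = ∑ i ∈ Finset.range (nv m),
      ((if i + 1 = j.1 then f (i + 1) else 0) + if j.1 + 1 = i then f (i + 1) else 0) := by
    rw [← Fin.sum_univ_eq_sum_range]
    refine Finset.sum_congr rfl fun i _ => ?_
    simp only [padj, h0, if_false, pw, if_neg (by omega : ¬ m ≤ 1), f]
    by_cases a : i.1 + 1 = j.1
    · rw [if_pos (Or.inl a), if_pos a, if_neg (by omega), add_zero]
    · by_cases b : j.1 + 1 = i.1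
      · rw [if_pos (Or.inr b), if_neg a, if_pos b, zero_add]
      · rw [if_neg (by tauto), if_neg a, if_neg b, add_zero]
  have e1 : (∑ i ∈ Finset.range (nv m), if i + 1 = j.1 then f (i + 1) else 0) = f j := by
    rcases Nat.eq_zero_or_pos j.1 with a | a
    · rw [a]; simp [f]
    · rw [Finset.sum_eq_single_of_mem (j.1 - 1) (Finset.mem_range.2 (by omega))
        fun i _ hi => if_neg (by omega), if_pos (by omega), Nat.sub_add_cancel a]
  have e2 : (∑ i ∈ Finset.range (nv m), if j.1 + 1 = i then f (i + 1) else 0) = f (j + 2) := by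
    rw [Finset.sum_ite_eq]
    split_ifs with a
    · rfl
    · have : j.1 + 2 = m := by simp only [Finset.mem_range] at a; omega
      rw [this]; simp [f, mul_div_cancel_left₀ _ hm']
  rw [e, Finset.sum_add_distrib, e1, e2, pw, if_neg (by omega)]
  have a1 : ((j.1 : ℕ) : ℝ) * Real.pi / m = ((j.1 + 1 : ℕ) : ℝ) * Real.pi / m - Real.pi / m := by
    push_cast; ring
  have a2 : ((j.1 + 2 : ℕ) : ℝ) * Real.pi / m =
      ((j.1 + 1 : ℕ) : ℝ) * Real.pi / m + Real.pi / m := by
    push_cast; ring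
  simp only [f]
  rw [a1, a2, Real.sin_sub, Real.sin_add]
  ring

theorem wt_pos (b : Fb M) : 0 < wt M b := Finset.prod_pos fun _ _ => pw_pos _ _
theorem DW_pos : 0 < DW M :=
  Finset.sum_pos (fun b _ => wt_pos M b) ⟨fun _ => ⟨0, nv_pos _⟩, Finset.mem_univ _⟩
theorem wsum_disc (R : ℝ) : {r | r < R ∧ ∃ x t, wsum M x t = r}.Finite := by
  refine ((Set.Finite.pi' fun b : Fb M => Set.finite_Iic ⌈R / wt M b⌉₊).image
    fun f => ∑ b, wt M b * (f b : ℝ)).subset ?_
  rintro _ ⟨h, x, t, rfl⟩
  refine ⟨fun b => x (some (t, b)), fun b => ?_, rfl⟩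
  have h1 : wt M b * x (some (t, b)) ≤ wsum M x t :=
    Finset.single_le_sum (f := fun b => wt M b * (x (some (t, b)) : ℝ))
      (fun b _ => mul_nonneg (wt_pos M b).le (Nat.cast_nonneg _)) (Finset.mem_univ b)
  have h2 : (x (some (t, b)) : ℝ) ≤ R / wt M b := by
    rw [le_div_iff₀ (wt_pos M b)]; linarith
  exact_mod_cast h2.trans (Nat.le_ceil _)

variable {M} {x y : (UG M).V → ℕ} {s t : S} {X Y : Rp (UG M)}

theorem mem_fib (s : S) (b : Fb M) : (some (s, b) : (UG M).V) ∈ (fib M s).F := ⟨b, rfl⟩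
theorem not_mem_fib (h : t ≠ s) (b : Fb M) : (some (t, b) : (UG M).V) ∉ (fib M s).F :=
  fun ⟨_, e⟩ => h (congrArg Prod.fst (Option.some.inj e))
theorem ed_of_adj {b b' : Fb M} (h : (UG M).adj (some (s, b)) (some (t, b'))) : Ed M s t := by
  refine ⟨h.1, fun e => ?_⟩
  have key : ∀ m, m = 2 → ∀ i j : Fin (nv m), ¬ padj m i j := by
    rintro _ rfl i j hp
    have h1 : i.1 < 1 := i.2
    have h2 : j.1 < 1 := j.2
    simp only [padj, OfNat.ofNat_ne_zero, if_false] at hp
    omega
  exact key _ e _ _ h.2.1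
theorem wsum_nonneg (x : (UG M).V → ℕ) (t : S) : 0 ≤ wsum M x t :=
  Finset.sum_nonneg fun b _ => mul_nonneg (wt_pos M b).le (Nat.cast_nonneg _)
theorem wsum_mono (h : ∀ b, x (some (t, b)) ≤ y (some (t, b))) : wsum M x t ≤ wsum M y t :=
  Finset.sum_le_sum fun b _ => mul_le_mul_of_nonneg_left (Nat.cast_le.2 (h b)) (wt_pos M b).le
theorem wsum_lt (h : ∀ b, x (some (t, b)) ≤ y (some (t, b)))
    (h' : ∃ b, x (some (t, b)) < y (some (t, b))) : wsum M x t < wsum M y t :=
  Finset.sum_lt_sum (fun b _ => mul_le_mul_of_nonneg_left (Nat.cast_le.2 (h b)) (wt_pos M b).le)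
    (h'.imp fun b hb => ⟨Finset.mem_univ _,
      mul_lt_mul_of_pos_left (Nat.cast_lt.2 hb) (wt_pos M b)⟩)
theorem wsum_congr (h : ∀ b, x (some (t, b)) = y (some (t, b))) : wsum M x t = wsum M y t :=
  Finset.sum_congr rfl fun b _ => congrArg (fun z : ℕ => wt M b * (z : ℝ)) (h b)
theorem wsum_add (x y : (UG M).V → ℕ) (t : S) :
    wsum M (fun v => x v + y v) t = wsum M x t + wsum M y t := by
  simp only [wsum, Nat.cast_add, mul_add, Finset.sum_add_distrib]
theorem wsum_eq_zero_iff : wsum M x t = 0 ↔ ∀ b, x (some (t, b)) = 0 := by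
  rw [wsum, Finset.sum_eq_zero_iff_of_nonneg
    fun b _ => mul_nonneg (wt_pos M b).le (Nat.cast_nonneg _)]
  refine forall_congr' fun b => ?_
  simp [(wt_pos M b).ne']

theorem wt_adj (h : t ≠ s) (b' : Fb M) :
    (∑ b : Fb M, if uadj M (some (s, b)) (some (t, b')) then wt M b else 0) =
      aa M s t * wt M b' := by
  have hw : ∀ i, wt M (Function.update b' s(s, t) i) =
      pw _ i * ∏ e ∈ Finset.univ.erase s(s, t), pw _ (b' e) := by
    intro i
    rw [wt, ← Finset.mul_prod_erase _ _ (Finset.mem_univ s(s, t)), Function.update_self]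
    congr 1
    exact Finset.prod_congr rfl fun e he => by
      rw [Function.update_of_ne (Finset.ne_of_mem_erase he)]
  have h1 := pw_sum (m := mm M s(s, t)) (M.off_diagonal s t h.symm) (b' s(s, t))
  have h2 := hw (b' s(s, t))
  rw [Function.update_eq_self] at h2
  rw [h2, ← mul_assoc, show aa M s t * pw _ (b' s(s, t)) = _ from h1.symm, Finset.sum_mul]
  symm
  refine Fintype.sum_of_injective (Function.update b' s(s, t)) (Function.update_injective _ _) _ _
    (fun b hb => if_neg fun ha => hb ⟨b s(s, t), funext fun e => ?_⟩) fun i => ?_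
  · by_cases he : e = s(s, t)
    · subst he; exact Function.update_self _ _ _
    · rw [Function.update_of_ne he]; exact (ha.2.2 e he).symm
  · have : uadj M (some (s, Function.update b' s(s, t) i)) (some (t, b')) ↔
        padj _ i (b' s(s, t)) := by
      change (s ≠ t ∧ padj _ (Function.update b' s(s, t) i s(s, t)) (b' s(s, t)) ∧
        ∀ e, e ≠ s(s, t) → Function.update b' s(s, t) i e = b' e) ↔ _
      rw [Function.update_self]
      exact ⟨fun a => a.2.1, fun a => ⟨h.symm, a, fun e he => Function.update_of_ne he _ _⟩⟩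
    rw [hw, ite_mul, zero_mul]
    exact if_congr this.symm rfl rfl

/-- The Perron-Frobenius identity. -/
theorem wsum_nb (X : Rp (UG M)) (s : S) : wsum M X.nb s =
    (∑ t ∈ Finset.univ.erase s, aa M s t * wd M X t) + DW M * X.dm (UG M).o := by
  have e : ∀ b : Fb M, (X.nb (some (s, b)) : ℝ) = X.dm (UG M).o + ∑ t, ∑ b' : Fb M,
      if uadj M (some (s, b)) (some (t, b')) then (X.dm (some (t, b')) : ℝ) else 0 := by
    intro b
    have : X.nb (some (s, b)) = ∑ w : Option (S × Fb M),
        if uadj M (some (s, b)) w then X.dm w else 0 := rfl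
    rw [this, Fintype.sum_option, Fintype.sum_prod_type, if_pos (by trivial)]
    push_cast
    rfl
  rw [wsum, Finset.sum_congr rfl fun b _ => by rw [e b, mul_add, Finset.mul_sum],
    Finset.sum_add_distrib, ← Finset.sum_mul, add_comm, Finset.sum_comm,
    ← Finset.add_sum_erase _ _ (Finset.mem_univ s), Finset.sum_eq_zero fun b _ => by
      rw [Finset.sum_eq_zero fun b' _ => if_neg fun h => h.1 rfl, mul_zero], zero_add]
  congr 1
  refine Finset.sum_congr rfl fun t ht => ?_
  simp only [Finset.mul_sum, wd, wsum]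
  rw [Finset.sum_comm]
  refine Finset.sum_congr rfl fun b' _ => ?_
  rw [← mul_assoc, ← wt_adj (Finset.ne_of_mem_erase ht), Finset.sum_mul]
  refine Finset.sum_congr rfl fun b _ => ?_
  split_ifs <;> simp

theorem nb_eq_zero (h0 : X.dm (UG M).o = 0) (h : ∀ t, Ed M s t → wd M X t = 0) (b : Fb M) :
    X.nb (some (s, b)) = 0 := by
  refine Finset.sum_eq_zero fun w _ => ?_
  split_ifs with hw
  · rcases w with _ | ⟨t, b'⟩
    · exact h0
    · exact wsum_eq_zero_iff.1 (h t (ed_of_adj hw)) b'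
  · rfl

theorem wd_sig_off (X : Rp (UG M)) (h : t ≠ s) : wd M (X.sig (fib M s)) t = wd M X t :=
  wsum_congr fun b => Rp.dm_sig_off X (not_mem_fib h b)
theorem wd_cos_off (X : Rp (UG M)) (h : t ≠ s) : wd M (X.cos (fib M s)) t = wd M X t :=
  wsum_congr fun b => Rp.dm_cos_off X (not_mem_fib h b)
theorem wd_sig_ge (X : Rp (UG M)) (s : S) :
    (∑ t ∈ Finset.univ.erase s, aa M s t * wd M X t) + DW M * X.dm (UG M).o ≤
      wd M (X.sig (fib M s)) s + wd M X s := by
  rw [← wsum_nb, wd, wd, ← wsum_add]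
  exact wsum_mono fun b => Rp.dm_sig_ge X (mem_fib s b)
theorem wd_cos_ge (X : Rp (UG M)) (s : S) :
    (∑ t ∈ Finset.univ.erase s, aa M s t * wd M X t) + DW M * X.dm (UG M).o ≤
      wd M (X.cos (fib M s)) s + wd M X s := by
  rw [← wsum_nb, wd, wd, ← wsum_add]
  exact wsum_mono fun b => Rp.dm_cos_ge X (mem_fib s b)
theorem wd_sig_eq (h : ∀ v ∈ (fib M s).F, X.InOn v) :
    wd M (X.sig (fib M s)) s + wd M X s =
      (∑ t ∈ Finset.univ.erase s, aa M s t * wd M X t) + DW M * X.dm (UG M).o := by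
  rw [← wsum_nb, wd, wd, ← wsum_add]
  exact wsum_congr fun b => Rp.dm_sig_eq (mem_fib s b) (h _ (mem_fib s b))
theorem Rp.Mono.wd_le (h : X.Mono Y) (t : S) : wd M X t ≤ wd M Y t :=
  wsum_mono fun _ => h.dm_le _
theorem Rp.Iso.wd_eq (h : X.Iso Y) (t : S) : wd M X t = wd M Y t :=
  wsum_congr fun _ => h.dm_eq _

end Vale.Agent.P203
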